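import Vale.Agent.P237.Petty.Cor.Grid.Tiny.N8.Cert

/-!
# P237: a cell down to zero in dimension 8, subdivisions
-/

namespace Vale.Agent.P237.Petty.Cor.Grid.Tiny.N8

def covers24 : cell.Covers Vale.Agent.P237.Petty.Cor.Grid.N8.table row24.1 :=
  ⟨(.cut .d 0 (.cut .v 16777216 (.cut .v 8388608 (.void 2 ⟨⟨0, 0, 100000, 0, 0, 0, 0, 0, 0, ⟨0, 0⟩, 0⟩, 0, 0⟩ 0 0) (.cut .d (-8388608) (.void 3 ⟨⟨70523, 0, 29477, 0, 0, 0, 0, 0, 0, ⟨0, 0⟩, 0⟩, 0, 0⟩ 0 0) (.cut .d (-4194304) (.void 3 ⟨⟨70523, 0, 29477, 0, 0, 0, 0, 0, 0, ⟨0, 0⟩, 0⟩, 0, 0⟩ 0 0) (.cut .d (-2097152) (.void 3 ⟨⟨0, 0, 0, 0, 0, 100000, 0, 0, 0, ⟨0, 0⟩, 0⟩, 0, 0⟩ 0 0) (.cut .d (-1048576)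 (.void 3 ⟨⟨0, 0, 0, 0, 0, 100000, 0, 0, 0, ⟨0, 0⟩, 0⟩, 0, 0⟩ 0 0) (.cut .d (-524288) (.void 3 ⟨⟨0, 0, 0, 0, 0, 100000, 0, 0, 0, ⟨0, 0⟩, 0⟩, 0, 0⟩ 0 0) (.cut .d (-262144) (.void 3 ⟨⟨0, 0, 0, 0, 0, 100000, 0, 0, 0, ⟨0, 0⟩, 0⟩, 0, 0⟩ 0 0) (.cut .s 13631488 (.pos 3 .mm ⟨⟨0, 0, 0, 0, 0, 331435251, 0, 0, 0, ⟨0, 0⟩, 0⟩, 0, 0⟩ 0 0) (.pos 3 .mm ⟨⟨0, 0, 0, 0, 0, 367337574, 0, 0, 0, ⟨0, 0⟩, 0⟩, 0, 0⟩ 0 0))))))))) (.cut .v 67108864 (.cut .v 33554432 (.cut .v 25165824 (.cut .d (-8388608) (.void 23 ⟨⟨100000, 0, 0, 0, 0, 0, 0, 0, 0, ⟨0, 0⟩, 0⟩, 0, 0⟩ 0 0) (.cut .d (-4194304) (.void 23 ⟨⟨100000, 0, 0, 0, 0, 0, 0, 0, 0, ⟨0, 0⟩, 0⟩, 0, 0⟩ 0 0) (.cut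 .v 20971520 (.cut .d (-2097152) (.void 25 ⟨⟨100000, 0, 0, 0, 0, 0, 0, 0, 0, ⟨0, 0⟩, 0⟩, 0, 0⟩ 0 0) (.cut .v 18874368 (.cut .d (-1048576) (.void 27 ⟨⟨100000, 0, 0, 0, 0, 0, 0, 0, 0, ⟨0, 0⟩, 0⟩, 0, 0⟩ 0 0) (.cut .v 17825792 (.cut .d (-524288) (.void 29 ⟨⟨100000, 0, 0, 0, 0, 0, 0, 0, 0, ⟨0, 0⟩, 0⟩, 0, 0⟩ 0 0) (.cut .v 17301504 (.cut .d (-262144) (.void 31 ⟨⟨100000, 0, 0, 0, 0, 0, 0, 0, 0, ⟨0, 0⟩, 0⟩, 0, 0⟩ 0 0) (.cut .v 17039360 (.cut .d (-131072) (.void 33 ⟨⟨100000, 0, 0, 0, 0, 0, 0, 0, 0, ⟨0, 0⟩, 0⟩, 0, 0⟩ 0 0) (.cut .d (-65536) (.void 33 ⟨⟨100000, 0, 0, 0, 0, 0, 0, 0, 0, ⟨0, 0⟩, 0⟩, 0, 0⟩ 0 0) (.cut .d (-32768) (.void 33 ⟨⟨0, 0, 0,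 0, 0, 100000, 0, 0, 0, ⟨0, 0⟩, 0⟩, 0, 0⟩ 0 0) (.cut .s 13631488 (.cut .v 16908288 (.cut .s 13565952 (.cut .d (-16384) (.cut .d (-24576) (.pos 35 .mp ⟨⟨88634396, 0, 0, 0, 0, 168613264, 0, 0, 0, ⟨0, 0⟩, 0⟩, 0, 0⟩ 0 0) (.cut .v 16842752 (.pos 39 .mp ⟨⟨0, 0, 0, 0, 0, 351001740, 0, 0, 0, ⟨0, 0⟩, 0⟩, 0, 0⟩ 0 0) (.cut .s 13533184 (.pos 40 .mp ⟨⟨96871049, 0, 0, 0, 0, 139689971, 0, 0, 0, ⟨0, 0⟩, 0⟩, 0, 0⟩ 0 0) (.cut .s 13549568 (.pos 40 .mp ⟨⟨98092476, 0, 0, 0, 0, 141971477, 0, 0, 0, ⟨0, 0⟩, 0⟩, 0, 0⟩ 0 0) (.pos 40 .mp ⟨⟨99332414, 0, 0, 0, 0, 143324416, 0, 0, 0, ⟨0, 0⟩, 0⟩, 0, 0⟩ 0 0))))) (.cut .l 230687 (.cut .v 16842752 (.cut .s 13533184 (.cut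 .d (-8192) (.pos 39 .mp ⟨⟨86540315, 0, 0, 0, 0, 161598619, 0, 0, 0, ⟨0, 0⟩, 0⟩, 0, 0⟩ 0 0) (.cut .s 13516800 (.pos 39 .mp ⟨⟨90181427, 0, 0, 0, 0, 146606579, 0, 0, 0, ⟨0, 0⟩, 0⟩, 0, 0⟩ 0 0) (.pos 39 .mp ⟨⟨91301592, 0, 0, 0, 0, 148013205, 0, 0, 0, ⟨0, 0⟩, 0⟩, 0, 0⟩ 0 0))) (.cut .d (-8192) (.pos 39 .mp ⟨⟨88709544, 0, 0, 0, 0, 164667079, 0, 0, 0, ⟨0, 0⟩, 0⟩, 0, 0⟩ 0 0) (.cut .v 16809984 (.cut .s 13549568 (.pos 41 .mp ⟨⟨90143086, 0, 0, 0, 0, 154284799, 0, 0, 0, ⟨0, 0⟩, 0⟩, 0, 0⟩ 0 0) (.cut .s 13557760 (.pos 41 .mp ⟨⟨93825515, 0, 0, 0, 0, 149912525, 0, 0, 0, ⟨0, 0⟩, 0⟩, 0, 0⟩ 0 0) (.pos 41 .mp ⟨⟨94268684, 0, 0, 0, 0, 150944919, 0, 0, 0, ⟨0,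 0⟩, 0⟩, 0, 0⟩ 0 0))) (.pos 42 .mp ⟨⟨107769215, 0, 0, 0, 0, 122328539, 0, 0, 0, ⟨0, 0⟩, 0⟩, 0, 0⟩ 0 0)))) (.pos 40 .mp ⟨⟨182698628, 0, 0, 0, 0, 0, 0, 0, 0, ⟨0, 0⟩, 0⟩, 0, 0⟩ 0 0)) (.cut .s 13533184 (.pos 35 .mp ⟨⟨91469271, 0, 0, 0, 0, 142032079, 0, 0, 0, ⟨0, 0⟩, 0⟩, 0, 0⟩ 0 0) (.pos 35 .mp ⟨⟨93786907, 0, 0, 0, 0, 145129522, 0, 0, 0, ⟨0, 0⟩, 0⟩, 0, 0⟩ 0 0)))) (.cut .d (-16384) (.cut .d (-24576) (.pos 35 .mp ⟨⟨93120122, 0, 0, 0, 0, 175885157, 0, 0, 0, ⟨0, 0⟩, 0⟩, 0, 0⟩ 0 0) (.cut .l 230687 (.void 35 ⟨⟨0, 0, 0, 0, 0, 100000, 0, 0, 0, ⟨0, 0⟩, 0⟩, 0, 0⟩ 0 0) (.cut .v 16842752 (.pos 39 .mp ⟨⟨0, 0, 0, 0, 0, 361015720, 0, 0, 0, ⟨0, 0⟩, 0⟩, 0,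 0⟩ 0 0) (.cut .s 13598720 (.pos 40 .mp ⟨⟨99124008, 0, 0, 0, 0, 149322817, 0, 0, 0, ⟨0, 0⟩, 0⟩, 0, 0⟩ 0 0) (.pos 40 .mp ⟨⟨101673552, 0, 0, 0, 0, 152438859, 0, 0, 0, ⟨0, 0⟩, 0⟩, 0, 0⟩ 0 0))))) (.cut .l 230687 (.cut .v 16842752 (.cut .s 13598720 (.cut .d (-8192) (.pos 39 .mp ⟨⟨90942537, 0, 0, 0, 0, 168012985, 0, 0, 0, ⟨0, 0⟩, 0⟩, 0, 0⟩ 0 0) (.cut .l 115343 (.cut .v 16809984 (.cut .d (-4096) (.pos 41 .mp ⟨⟨90847812, 0, 0, 0, 0, 167391873, 0, 0, 0, ⟨0, 0⟩, 0⟩, 0, 0⟩ 0 0) (.cut .s 13582336 (.pos 41 .mp ⟨⟨93320066, 0, 0, 0, 0, 155280211, 0, 0, 0, ⟨0, 0⟩, 0⟩, 0, 0⟩ 0 0) (.cut .s 13590528 (.pos 41 .mp ⟨⟨94723012, 0, 0, 0, 0, 155956905, 0, 0,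 0, ⟨0, 0⟩, 0⟩, 0, 0⟩ 0 0) (.pos 41 .mp ⟨⟨95247416, 0, 0, 0, 0, 156920350, 0, 0, 0, ⟨0, 0⟩, 0⟩, 0, 0⟩ 0 0)))) (.pos 42 .mp ⟨⟨188901412, 0, 0, 0, 0, 0, 0, 0, 0, ⟨0, 0⟩, 0⟩, 0, 0⟩ 0 0)) (.pos 39 .mp ⟨⟨94593528, 0, 0, 0, 0, 150489571, 0, 0, 0, ⟨0, 0⟩, 0⟩, 0, 0⟩ 0 0))) (.cut .d (-8192) (.cut .s 13615104 (.pos 39 .mp ⟨⟨93241202, 0, 0, 0, 0, 168516262, 0, 0, 0, ⟨0, 0⟩, 0⟩, 0, 0⟩ 0 0) (.pos 39 .mp ⟨⟨94415780, 0, 0, 0, 0, 170378182, 0, 0, 0, ⟨0, 0⟩, 0⟩, 0, 0⟩ 0 0)) (.cut .l 115343 (.cut .v 16809984 (.cut .d (-4096) (.pos 41 .mp ⟨⟨93132847, 0, 0, 0, 0, 171033215, 0, 0, 0, ⟨0, 0⟩, 0⟩, 0, 0⟩ 0 0) (.cut .v 16793600 (.cut .l 57671 (.cut .d (-2048)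 (.pos 43 .mp ⟨⟨93079822, 0, 0, 0, 0, 170724702, 0, 0, 0, ⟨0, 0⟩, 0⟩, 0, 0⟩ 0 0) (.cut .s 13615104 (.pos 43 .mp ⟨⟨94904718, 0, 0, 0, 0, 160116237, 0, 0, 0, ⟨0, 0⟩, 0⟩, 0, 0⟩ 0 0) (.pos 43 .mp ⟨⟨96117489, 0, 0, 0, 0, 161854993, 0, 0, 0, ⟨0, 0⟩, 0⟩, 0, 0⟩ 0 0))) (.pos 43 .mp ⟨⟨92570189, 0, 0, 0, 0, 162478012, 0, 0, 0, ⟨0, 0⟩, 0⟩, 0, 0⟩ 0 0)) (.pos 44 .mp ⟨⟨112336234, 0, 0, 0, 0, 128560893, 0, 0, 0, ⟨0, 0⟩, 0⟩, 0, 0⟩ 0 0))) (.pos 42 .mp ⟨⟨193199114, 0, 0, 0, 0, 0, 0, 0, 0, ⟨0, 0⟩, 0⟩, 0, 0⟩ 0 0)) (.pos 39 .mp ⟨⟨96991488, 0, 0, 0, 0, 153899328, 0, 0, 0, ⟨0, 0⟩, 0⟩, 0, 0⟩ 0 0)))) (.pos 40 .mp ⟨⟨190929001, 0, 0, 0, 0, 0, 0, 0, 0, ⟨0, 0⟩, 0⟩,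 0, 0⟩ 0 0)) (.cut .s 13598720 (.pos 35 .mp ⟨⟨96173471, 0, 0, 0, 0, 148342317, 0, 0, 0, ⟨0, 0⟩, 0⟩, 0, 0⟩ 0 0) (.pos 35 .mp ⟨⟨98631048, 0, 0, 0, 0, 151664518, 0, 0, 0, ⟨0, 0⟩, 0⟩, 0, 0⟩ 0 0))))) (.pos 36 .mp ⟨⟨186832924, 0, 0, 0, 0, 0, 0, 0, 0, ⟨0, 0⟩, 0⟩, 0, 0⟩ 0 0)) (.cut .v 16908288 (.cut .s 13697024 (.cut .d (-16384) (.cut .d (-24576) (.pos 35 .mp ⟨⟨97979152, 0, 0, 0, 0, 184048197, 0, 0, 0, ⟨0, 0⟩, 0⟩, 0, 0⟩ 0 0) (.cut .l 230687 (.void 35 ⟨⟨0, 0, 0, 0, 0, 100000, 0, 0, 0, ⟨0, 0⟩, 0⟩, 0, 0⟩ 0 0) (.cut .v 16842752 (.pos 39 .mp ⟨⟨0, 0, 0, 0, 0, 378875553, 0, 0, 0, ⟨0, 0⟩, 0⟩, 0, 0⟩ 0 0) (.cut .l 346030 (.pos 40 .mp ⟨⟨98146700, 0, 0,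 0, 0, 180599701, 0, 0, 0, ⟨0, 0⟩, 0⟩, 0, 0⟩ 0 0) (.cut .s 13664256 (.pos 40 .mp ⟨⟨102869828, 0, 0, 0, 0, 156799877, 0, 0, 0, ⟨0, 0⟩, 0⟩, 0, 0⟩ 0 0) (.pos 40 .mp ⟨⟨105539938, 0, 0, 0, 0, 160282502, 0, 0, 0, ⟨0, 0⟩, 0⟩, 0, 0⟩ 0 0)))))) (.cut .l 230687 (.cut .v 16842752 (.cut .s 13664256 (.cut .d (-8192) (.cut .s 13647872 (.pos 39 .mp ⟨⟨95607528, 0, 0, 0, 0, 172314632, 0, 0, 0, ⟨0, 0⟩, 0⟩, 0, 0⟩ 0 0) (.pos 39 .mp ⟨⟨96816707, 0, 0, 0, 0, 174326842, 0, 0, 0, ⟨0, 0⟩, 0⟩, 0, 0⟩ 0 0)) (.cut .l 115343 (.cut .v 16809984 (.cut .d (-4096) (.pos 41 .mp ⟨⟨95485362, 0, 0, 0, 0, 174969978, 0, 0, 0, ⟨0, 0⟩, 0⟩, 0, 0⟩ 0 0) (.cut .v 16793600 (.cut .l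 57671 (.cut .d (-2048) (.pos 43 .mp ⟨⟨95425460, 0, 0, 0, 0, 174665632, 0, 0, 0, ⟨0, 0⟩, 0⟩, 0, 0⟩ 0 0) (.cut .v 16785408 (.cut .s 13647872 (.pos 45 .mp ⟨⟨96887520, 0, 0, 0, 0, 164615749, 0, 0, 0, ⟨0, 0⟩, 0⟩, 0, 0⟩ 0 0) (.pos 45 .mp ⟨⟨97980318, 0, 0, 0, 0, 166801653, 0, 0, 0, ⟨0, 0⟩, 0⟩, 0, 0⟩ 0 0)) (.pos 46 .mp ⟨⟨115227888, 0, 0, 0, 0, 131001304, 0, 0, 0, ⟨0, 0⟩, 0⟩, 0, 0⟩ 0 0))) (.pos 43 .mp ⟨⟨94898235, 0, 0, 0, 0, 166264053, 0, 0, 0, ⟨0, 0⟩, 0⟩, 0, 0⟩ 0 0)) (.pos 44 .mp ⟨⟨114967980, 0, 0, 0, 0, 131786294, 0, 0, 0, ⟨0, 0⟩, 0⟩, 0, 0⟩ 0 0))) (.pos 42 .mp ⟨⟨197624789, 0, 0, 0, 0, 0, 0, 0, 0, ⟨0, 0⟩, 0⟩, 0, 0⟩ 0 0)) (.pos 39 .mp ⟨⟨99460713,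 0, 0, 0, 0, 157415337, 0, 0, 0, ⟨0, 0⟩, 0⟩, 0, 0⟩ 0 0))) (.cut .d (-8192) (.cut .s 13680640 (.pos 39 .mp ⟨⟨98043586, 0, 0, 0, 0, 176416067, 0, 0, 0, ⟨0, 0⟩, 0⟩, 0, 0⟩ 0 0) (.pos 39 .mp ⟨⟨99288436, 0, 0, 0, 0, 178583590, 0, 0, 0, ⟨0, 0⟩, 0⟩, 0, 0⟩ 0 0)) (.cut .l 115343 (.cut .v 16809984 (.cut .d (-4096) (.pos 41 .mp ⟨⟨97907422, 0, 0, 0, 0, 179211961, 0, 0, 0, ⟨0, 0⟩, 0⟩, 0, 0⟩ 0 0) (.cut .v 16793600 (.cut .l 57671 (.cut .d (-2048) (.pos 43 .mp ⟨⟨97840552, 0, 0, 0, 0, 178911522, 0, 0, 0, ⟨0, 0⟩, 0⟩, 0, 0⟩ 0 0) (.cut .s 13680640 (.cut .s 13672448 (.pos 43 .mp ⟨⟨100492572, 0, 0, 0, 0, 165621145, 0, 0, 0, ⟨0, 0⟩, 0⟩, 0, 0⟩ 0 0) (.pos 43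 .mp ⟨⟨101145644, 0, 0, 0, 0, 166569306, 0, 0, 0, ⟨0, 0⟩, 0⟩, 0, 0⟩ 0 0)) (.pos 43 .mp ⟨⟨101053201, 0, 0, 0, 0, 169581737, 0, 0, 0, ⟨0, 0⟩, 0⟩, 0, 0⟩ 0 0))) (.pos 43 .mp ⟨⟨97295022, 0, 0, 0, 0, 170159266, 0, 0, 0, ⟨0, 0⟩, 0⟩, 0, 0⟩ 0 0)) (.pos 44 .mp ⟨⟨118033169, 0, 0, 0, 0, 134527087, 0, 0, 0, ⟨0, 0⟩, 0⟩, 0, 0⟩ 0 0))) (.pos 42 .mp ⟨⟨202176463, 0, 0, 0, 0, 0, 0, 0, 0, ⟨0, 0⟩, 0⟩, 0, 0⟩ 0 0)) (.pos 39 .mp ⟨⟨102003409, 0, 0, 0, 0, 161031446, 0, 0, 0, ⟨0, 0⟩, 0⟩, 0, 0⟩ 0 0)))) (.pos 40 .mp ⟨⟨199675325, 0, 0, 0, 0, 0, 0, 0, 0, ⟨0, 0⟩, 0⟩, 0, 0⟩ 0 0)) (.cut .s 13664256 (.pos 35 .mp ⟨⟨101161811, 0, 0, 0, 0, 155090021, 0, 0, 0, ⟨0, 0⟩, 0⟩,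 0, 0⟩ 0 0) (.pos 35 .mp ⟨⟨103768026, 0, 0, 0, 0, 158612550, 0, 0, 0, ⟨0, 0⟩, 0⟩, 0, 0⟩ 0 0)))) (.cut .d (-16384) (.cut .d (-24576) (.pos 35 .mp ⟨⟨103130213, 0, 0, 0, 0, 193448882, 0, 0, 0, ⟨0, 0⟩, 0⟩, 0, 0⟩ 0 0) (.cut .l 230687 (.void 35 ⟨⟨0, 0, 0, 0, 0, 100000, 0, 0, 0, ⟨0, 0⟩, 0⟩, 0, 0⟩ 0 0) (.cut .s 13729792 (.cut .s 13713408 (.pos 35 .mp ⟨⟨100862516, 0, 0, 0, 0, 180469506, 0, 0, 0, ⟨0, 0⟩, 0⟩, 0, 0⟩ 0 0) (.pos 35 .mp ⟨⟨102185089, 0, 0, 0, 0, 182607723, 0, 0, 0, ⟨0, 0⟩, 0⟩, 0, 0⟩ 0 0)) (.pos 35 .mp ⟨⟨103473677, 0, 0, 0, 0, 187886902, 0, 0, 0, ⟨0, 0⟩, 0⟩, 0, 0⟩ 0 0)))) (.cut .l 230687 (.cut .v 16842752 (.cut .s 13729792 (.cut .d (-8192)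 (.pos 39 .mp ⟨⟨100551537, 0, 0, 0, 0, 184357769, 0, 0, 0, ⟨0, 0⟩, 0⟩, 0, 0⟩ 0 0) (.cut .l 115343 (.cut .v 16809984 (.cut .d (-4096) (.pos 41 .mp ⟨⟨100401181, 0, 0, 0, 0, 183769376, 0, 0, 0, ⟨0, 0⟩, 0⟩, 0, 0⟩ 0 0) (.cut .v 16793600 (.cut .l 57671 (.cut .d (-2048) (.pos 43 .mp ⟨⟨100327247, 0, 0, 0, 0, 183472576, 0, 0, 0, ⟨0, 0⟩, 0⟩, 0, 0⟩ 0 0) (.cut .s 13713408 (.pos 43 .mp ⟨⟨102333079, 0, 0, 0, 0, 171653066, 0, 0, 0, ⟨0, 0⟩, 0⟩, 0, 0⟩ 0 0) (.pos 43 .mp ⟨⟨103576560, 0, 0, 0, 0, 173909294, 0, 0, 0, ⟨0, 0⟩, 0⟩, 0, 0⟩ 0 0))) (.pos 43 .mp ⟨⟨99762679, 0, 0, 0, 0, 174157669, 0, 0, 0, ⟨0, 0⟩, 0⟩, 0, 0⟩ 0 0)) (.pos 44 .mp ⟨⟨121564335, 0, 0, 0,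 0, 136723341, 0, 0, 0, ⟨0, 0⟩, 0⟩, 0, 0⟩ 0 0))) (.pos 42 .mp ⟨⟨206852188, 0, 0, 0, 0, 0, 0, 0, 0, ⟨0, 0⟩, 0⟩, 0, 0⟩ 0 0)) (.pos 39 .mp ⟨⟨104621878, 0, 0, 0, 0, 164741329, 0, 0, 0, ⟨0, 0⟩, 0⟩, 0, 0⟩ 0 0))) (.cut .d (-8192) (.pos 39 .mp ⟨⟨103133635, 0, 0, 0, 0, 189234412, 0, 0, 0, ⟨0, 0⟩, 0⟩, 0, 0⟩ 0 0) (.cut .v 16809984 (.cut .l 115343 (.cut .d (-4096) (.pos 41 .mp ⟨⟨102968887, 0, 0, 0, 0, 188652871, 0, 0, 0, ⟨0, 0⟩, 0⟩, 0, 0⟩ 0 0) (.cut .s 13746176 (.cut .s 13737984 (.pos 41 .mp ⟨⟨106167312, 0, 0, 0, 0, 173006624, 0, 0, 0, ⟨0, 0⟩, 0⟩, 0, 0⟩ 0 0) (.pos 41 .mp ⟨⟨106942283, 0, 0, 0, 0, 173912894, 0, 0, 0, ⟨0, 0⟩, 0⟩, 0, 0⟩ 0 0)) (.pos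 41 .mp ⟨⟨107140165, 0, 0, 0, 0, 176585911, 0, 0, 0, ⟨0, 0⟩, 0⟩, 0, 0⟩ 0 0))) (.pos 41 .mp ⟨⟨101799873, 0, 0, 0, 0, 179870753, 0, 0, 0, ⟨0, 0⟩, 0⟩, 0, 0⟩ 0 0)) (.pos 42 .mp ⟨⟨125028513, 0, 0, 0, 0, 140027146, 0, 0, 0, ⟨0, 0⟩, 0⟩, 0, 0⟩ 0 0)))) (.pos 40 .mp ⟨⟨208921889, 0, 0, 0, 0, 0, 0, 0, 0, ⟨0, 0⟩, 0⟩, 0, 0⟩ 0 0)) (.cut .s 13729792 (.pos 35 .mp ⟨⟨106452056, 0, 0, 0, 0, 162225653, 0, 0, 0, ⟨0, 0⟩, 0⟩, 0, 0⟩ 0 0) (.pos 35 .mp ⟨⟨109216369, 0, 0, 0, 0, 165922684, 0, 0, 0, ⟨0, 0⟩, 0⟩, 0, 0⟩ 0 0))))) (.pos 36 .mp ⟨⟨203916356, 0, 0, 0, 0, 0, 0, 0, 0, ⟨0, 0⟩, 0⟩, 0, 0⟩ 0 0)))))) (.pos 34 .mp ⟨⟨228310238, 0, 0, 0, 0, 0, 0, 0, 0, ⟨0, 0⟩, 0⟩,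 0, 0⟩ 0 0))) (.void 32 ⟨⟨100000, 0, 0, 0, 0, 0, 0, 0, 0, ⟨0, 0⟩, 0⟩, 0, 0⟩ 0 0))) (.void 30 ⟨⟨100000, 0, 0, 0, 0, 0, 0, 0, 0, ⟨0, 0⟩, 0⟩, 0, 0⟩ 0 0))) (.void 28 ⟨⟨100000, 0, 0, 0, 0, 0, 0, 0, 0, ⟨0, 0⟩, 0⟩, 0, 0⟩ 0 0))) (.void 26 ⟨⟨100000, 0, 0, 0, 0, 0, 0, 0, 0, ⟨0, 0⟩, 0⟩, 0, 0⟩ 0 0)))) (.void 24 ⟨⟨100000, 0, 0, 0, 0, 0, 0, 0, 0, ⟨0, 0⟩, 0⟩, 0, 0⟩ 0 0)) (.void 73 ⟨⟨100000, 0, 0, 0, 0, 0, 0, 0, 0, ⟨0, 0⟩, 0⟩, 0, 0⟩ 0 0)) (.void 84 ⟨⟨100000, 0, 0, 0, 0, 0, 0, 0, 0, ⟨0, 0⟩, 0⟩, 0, 0⟩ 0 0))) (.cut .v 16777216 (.cut .v 8388608 (.cut .v 4194304 (.cut .v 2097152 (.cut .v 1048576 (.pos 89 .pm ⟨⟨0, 0, 21770306, 0, 0, 0, 0, 0, 22900608, ⟨0,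 0⟩, 1983364⟩, 0, 0⟩ 0 0) (.pos 90 .pm ⟨⟨0, 0, 11036864, 0, 0, 0, 0, 0, 0, ⟨0, 0⟩, 0⟩, 0, 91596⟩ 0 0)) (.pos 88 .pm ⟨⟨0, 0, 5973919, 0, 0, 0, 0, 0, 0, ⟨0, 0⟩, 0⟩, 0, 117767⟩ 0 0)) (.pos 5 .pm ⟨⟨0, 0, 4633725, 0, 0, 0, 0, 0, 0, ⟨0, 0⟩, 0⟩, 0, 206092⟩ 0 0)) (.pos 3 .pm ⟨⟨0, 0, 0, 0, 0, 0, 0, 0, 0, ⟨0, 0⟩, 0⟩, 0, 0⟩ 0 0)) (.cut .v 67108864 (.cut .d 2036071 (.cut .v 33554432 (.cut .d 1018035 (.cut .v 25165824 (.cut .d 509017 (.cut .v 20971520 (.cut .v 18874368 (.pos 27 .pp ⟨⟨90838179, 0, 0, 0, 0, 0, 0, 0, 0, ⟨0, 0⟩, 0⟩, 13628303, 0⟩ 0 0) (.pos 28 .pp ⟨⟨209306625, 0, 0, 0, 0, 0, 0, 0, 0, ⟨0, 0⟩, 0⟩, 0, 0⟩ 0 0)) (.pos 26 .pp ⟨⟨291909417, 0,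 0, 0, 0, 0, 0, 0, 0, ⟨0, 0⟩, 0⟩, 0, 0⟩ 0 0)) (.pos 23 .pp ⟨⟨0, 0, 0, 0, 0, 0, 1078899, 0, 0, ⟨0, 0⟩, 0⟩, 11324282, 0⟩ 0 0)) (.pos 24 .pp ⟨⟨0, 0, 0, 0, 0, 0, 0, 0, 0, ⟨0, 0⟩, 0⟩, 70311153, 0⟩ 0 0)) (.pos 22 .pp ⟨⟨0, 0, 0, 0, 0, 0, 0, 0, 0, ⟨0, 0⟩, 0⟩, 5042941, 426913⟩ 0 0)) (.cut .d 1018035 (.pos 73 .pp ⟨⟨0, 0, 0, 0, 0, 0, 0, 0, 0, ⟨0, 0⟩, 0⟩, 148245889, 0⟩ 0 0) (.pos 73 .pp ⟨⟨0, 0, 0, 0, 0, 0, 0, 0, 0, ⟨0, 0⟩, 0⟩, 82933253, 0⟩ 0 0))) (.pos 72 .pp ⟨⟨0, 0, 0, 0, 0, 0, 0, 0, 0, ⟨0, 0⟩, 0⟩, 0, 480104⟩ 0 0)) (.void 84 ⟨⟨0, 0, 0, 48869, 0, 0, 0, 0, 0, ⟨0, 0⟩, 0⟩, 51131, 0⟩ 0 0)))),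
    by decide +kernel⟩

def covers25 : cell.Covers Vale.Agent.P237.Petty.Cor.Grid.N8.table row25.1 :=
  ⟨(.cut .d 0 (.cut .v 16777216 (.cut .v 8388608 (.void 2 ⟨⟨0, 0, 100000, 0, 0, 0, 0, 0, 0, ⟨0, 0⟩, 0⟩, 0, 0⟩ 0 0) (.cut .d (-8388608) (.void 3 ⟨⟨100000, 0, 0, 0, 0, 0, 0, 0, 0, ⟨0, 0⟩, 0⟩, 0, 0⟩ 0 0) (.cut .d (-4194304) (.void 3 ⟨⟨100000, 0, 0, 0, 0, 0, 0, 0, 0, ⟨0, 0⟩, 0⟩, 0, 0⟩ 0 0) (.cut .d (-2097152) (.void 3 ⟨⟨0, 0, 0, 0, 0, 100000, 0, 0, 0, ⟨0, 0⟩, 0⟩, 0, 0⟩ 0 0) (.cut .d (-1048576) (.void 3 ⟨⟨0, 0, 0, 0, 0, 100000, 0, 0, 0, ⟨0, 0⟩, 0⟩, 0, 0⟩ 0 0) (.cut .d (-524288) (.void 3 ⟨⟨0, 0, 0, 0, 0, 100000, 0, 0, 0, ⟨0, 0⟩, 0⟩, 0, 0⟩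 0 0) (.cut .s 13860864 (.pos 3 .mm ⟨⟨0, 0, 0, 0, 0, 413577229, 0, 0, 0, ⟨0, 0⟩, 0⟩, 0, 0⟩ 0 0) (.cut .s 13910016 (.pos 3 .mm ⟨⟨0, 0, 0, 0, 0, 431496865, 0, 0, 0, ⟨0, 0⟩, 0⟩, 0, 0⟩ 0 0) (.pos 3 .mm ⟨⟨0, 0, 0, 0, 0, 449602458, 0, 0, 0, ⟨0, 0⟩, 0⟩, 0, 0⟩ 0 0))))))))) (.cut .v 268435456 (.cut .v 67108864 (.cut .v 33554432 (.cut .v 25165824 (.cut .d (-8388608) (.void 23 ⟨⟨100000, 0, 0, 0, 0, 0, 0, 0, 0, ⟨0, 0⟩, 0⟩, 0, 0⟩ 0 0) (.cut .d (-4194304) (.void 23 ⟨⟨100000, 0, 0, 0, 0, 0, 0, 0, 0, ⟨0, 0⟩, 0⟩, 0, 0⟩ 0 0) (.cut .v 20971520 (.cut .d (-2097152) (.void 25 ⟨⟨100000, 0, 0, 0, 0, 0, 0, 0, 0, ⟨0, 0⟩, 0⟩, 0, 0⟩ 0 0) (.cut .v 18874368 (.cut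 .d (-1048576) (.void 27 ⟨⟨100000, 0, 0, 0, 0, 0, 0, 0, 0, ⟨0, 0⟩, 0⟩, 0, 0⟩ 0 0) (.cut .v 17825792 (.cut .d (-524288) (.void 29 ⟨⟨100000, 0, 0, 0, 0, 0, 0, 0, 0, ⟨0, 0⟩, 0⟩, 0, 0⟩ 0 0) (.cut .v 17301504 (.cut .d (-262144) (.void 31 ⟨⟨100000, 0, 0, 0, 0, 0, 0, 0, 0, ⟨0, 0⟩, 0⟩, 0, 0⟩ 0 0) (.cut .v 17039360 (.cut .d (-131072) (.void 33 ⟨⟨100000, 0, 0, 0, 0, 0, 0, 0, 0, ⟨0, 0⟩, 0⟩, 0, 0⟩ 0 0) (.cut .d (-65536) (.void 33 ⟨⟨100000, 0, 0, 0, 0, 0, 0, 0, 0, ⟨0, 0⟩, 0⟩, 0, 0⟩ 0 0) (.cut .d (-32768) (.void 33 ⟨⟨0, 0, 0, 0, 0, 100000, 0, 0, 0, ⟨0, 0⟩, 0⟩, 0, 0⟩ 0 0) (.cut .s 13860864 (.cut .v 16908288 (.cut .d (-16384) (.cut .d (-24576) (.void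 35 ⟨⟨0, 0, 0, 0, 0, 100000, 0, 0, 0, ⟨0, 0⟩, 0⟩, 0, 0⟩ 0 0) (.cut .l 230687 (.void 35 ⟨⟨0, 0, 0, 0, 0, 100000, 0, 0, 0, ⟨0, 0⟩, 0⟩, 0, 0⟩ 0 0) (.cut .v 16842752 (.pos 39 .mp ⟨⟨0, 0, 0, 0, 0, 426737111, 0, 0, 0, ⟨0, 0⟩, 0⟩, 0, 0⟩ 0 0) (.cut .l 346030 (.pos 40 .mp ⟨⟨112887795, 0, 0, 0, 0, 201465080, 0, 0, 0, ⟨0, 0⟩, 0⟩, 0, 0⟩ 0 0) (.cut .s 13811712 (.pos 40 .mp ⟨⟨115558524, 0, 0, 0, 0, 173071750, 0, 0, 0, ⟨0, 0⟩, 0⟩, 0, 0⟩ 0 0) (.cut .s 13836288 (.pos 40 .mp ⟨⟨117856407, 0, 0, 0, 0, 179534072, 0, 0, 0, ⟨0, 0⟩, 0⟩, 0, 0⟩ 0 0) (.pos 40 .mp ⟨⟨113599602, 0, 0, 0, 0, 198211176, 0, 0, 0, ⟨0, 0⟩, 0⟩, 0, 0⟩ 0 0))))))) (.cut .s 13811712 (.cut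 .l 230687 (.cut .v 16842752 (.cut .d (-8192) (.cut .s 13787136 (.pos 39 .mp ⟨⟨105791027, 0, 0, 0, 0, 192585097, 0, 0, 0, ⟨0, 0⟩, 0⟩, 0, 0⟩ 0 0) (.pos 39 .mp ⟨⟨107845653, 0, 0, 0, 0, 195569883, 0, 0, 0, ⟨0, 0⟩, 0⟩, 0, 0⟩ 0 0)) (.cut .l 115343 (.cut .v 16809984 (.cut .d (-4096) (.pos 41 .mp ⟨⟨105611779, 0, 0, 0, 0, 197817373, 0, 0, 0, ⟨0, 0⟩, 0⟩, 0, 0⟩ 0 0) (.cut .l 57671 (.cut .v 16793600 (.cut .d (-2048) (.pos 43 .mp ⟨⟨105523467, 0, 0, 0, 0, 197520018, 0, 0, 0, ⟨0, 0⟩, 0⟩, 0, 0⟩ 0 0) (.cut .l 28835 (.cut .v 16785408 (.cut .d (-1024) (.pos 45 .mp ⟨⟨105479656, 0, 0, 0, 0, 197370757, 0, 0, 0, ⟨0, 0⟩, 0⟩, 0, 0⟩ 0 0) (.cut .l 14417 (.cut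 .d (-512) (.pos 45 .mp ⟨⟨109707543, 0, 0, 0, 0, 185579494, 0, 0, 0, ⟨0, 0⟩, 0⟩, 0, 0⟩ 0 0) (.cut .v 16781312 (.cut .l 7208 (.cut .v 16779264 (.cut .s 13787136 (.cut .s 13774848 (.pos 78 .mp ⟨⟨109375125, 0, 0, 0, 0, 176629913, 0, 0, 0, ⟨0, 0⟩, 0⟩, 0, 0⟩ 0 0) (.pos 78 .mp ⟨⟨110144949, 0, 0, 0, 0, 178572619, 0, 0, 0, ⟨0, 0⟩, 0⟩, 0, 0⟩ 0 0)) (.cut .s 13799424 (.pos 78 .mp ⟨⟨110953094, 0, 0, 0, 0, 180503942, 0, 0, 0, ⟨0, 0⟩, 0⟩, 0, 0⟩ 0 0) (.pos 78 .mp ⟨⟨111800828, 0, 0, 0, 0, 182421727, 0, 0, 0, ⟨0, 0⟩, 0⟩, 0, 0⟩ 0 0))) (.pos 79 .mp ⟨⟨217146561, 0, 0, 0, 0, 0, 0, 0, 0, ⟨0, 0⟩, 0⟩, 0, 0⟩ 0 0)) (.pos 47 .mp ⟨⟨109658218, 0, 0, 0, 0, 174641171,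 0, 0, 0, ⟨0, 0⟩, 0⟩, 0, 0⟩ 0 0)) (.pos 48 .mp ⟨⟨196448032, 0, 0, 0, 0, 0, 0, 0, 0, ⟨0, 0⟩, 0⟩, 0, 0⟩ 0 0))) (.pos 45 .mp ⟨⟨109782384, 0, 0, 0, 0, 174468531, 0, 0, 0, ⟨0, 0⟩, 0⟩, 0, 0⟩ 0 0))) (.pos 46 .mp ⟨⟨217348286, 0, 0, 0, 0, 0, 0, 0, 0, ⟨0, 0⟩, 0⟩, 0, 0⟩ 0 0)) (.pos 43 .mp ⟨⟨110030933, 0, 0, 0, 0, 174124009, 0, 0, 0, ⟨0, 0⟩, 0⟩, 0, 0⟩ 0 0))) (.pos 44 .mp ⟨⟨217607137, 0, 0, 0, 0, 0, 0, 0, 0, ⟨0, 0⟩, 0⟩, 0, 0⟩ 0 0)) (.pos 41 .mp ⟨⟨110528854, 0, 0, 0, 0, 173434229, 0, 0, 0, ⟨0, 0⟩, 0⟩, 0, 0⟩ 0 0))) (.pos 42 .mp ⟨⟨218122612, 0, 0, 0, 0, 0, 0, 0, 0, ⟨0, 0⟩, 0⟩, 0, 0⟩ 0 0)) (.pos 39 .mp ⟨⟨111527846, 0, 0, 0, 0, 172050044, 0, 0, 0, ⟨0,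 0⟩, 0⟩, 0, 0⟩ 0 0))) (.pos 40 .mp ⟨⟨219154216, 0, 0, 0, 0, 0, 0, 0, 0, ⟨0, 0⟩, 0⟩, 0, 0⟩ 0 0)) (.cut .s 13787136 (.pos 35 .mp ⟨⟨111351740, 0, 0, 0, 0, 171547744, 0, 0, 0, ⟨0, 0⟩, 0⟩, 0, 0⟩ 0 0) (.pos 35 .mp ⟨⟨113538807, 0, 0, 0, 0, 174503030, 0, 0, 0, ⟨0, 0⟩, 0⟩, 0, 0⟩ 0 0))) (.cut .l 230687 (.cut .v 16842752 (.cut .d (-8192) (.cut .s 13836288 (.pos 39 .mp ⟨⟨109948149, 0, 0, 0, 0, 198765603, 0, 0, 0, ⟨0, 0⟩, 0⟩, 0, 0⟩ 0 0) (.pos 39 .mp ⟨⟨112099682, 0, 0, 0, 0, 202177803, 0, 0, 0, ⟨0, 0⟩, 0⟩, 0, 0⟩ 0 0)) (.cut .s 13836288 (.cut .v 16809984 (.cut .s 13824000 (.pos 41 .mp ⟨⟨111416856, 0, 0, 0, 0, 187455657, 0, 0, 0, ⟨0, 0⟩, 0⟩, 0, 0⟩ 0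 0) (.pos 41 .mp ⟨⟨112221944, 0, 0, 0, 0, 189645386, 0, 0, 0, ⟨0, 0⟩, 0⟩, 0, 0⟩ 0 0)) (.pos 42 .mp ⟨⟨129955592, 0, 0, 0, 0, 153538854, 0, 0, 0, ⟨0, 0⟩, 0⟩, 0, 0⟩ 0 0)) (.cut .v 16809984 (.cut .l 115343 (.cut .d (-4096) (.pos 41 .mp ⟨⟨111875713, 0, 0, 0, 0, 201651562, 0, 0, 0, ⟨0, 0⟩, 0⟩, 0, 0⟩ 0 0) (.cut .s 13848576 (.pos 41 .mp ⟨⟨114488660, 0, 0, 0, 0, 188429303, 0, 0, 0, ⟨0, 0⟩, 0⟩, 0, 0⟩ 0 0) (.pos 41 .mp ⟨⟨115657635, 0, 0, 0, 0, 189958506, 0, 0, 0, ⟨0, 0⟩, 0⟩, 0, 0⟩ 0 0))) (.pos 41 .mp ⟨⟨110566386, 0, 0, 0, 0, 194614773, 0, 0, 0, ⟨0, 0⟩, 0⟩, 0, 0⟩ 0 0)) (.pos 42 .mp ⟨⟨132109982, 0, 0, 0, 0, 156849785, 0, 0, 0, ⟨0, 0⟩, 0⟩, 0, 0⟩ 0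 0)))) (.pos 40 .mp ⟨⟨226907938, 0, 0, 0, 0, 0, 0, 0, 0, ⟨0, 0⟩, 0⟩, 0, 0⟩ 0 0)) (.cut .s 13836288 (.pos 35 .mp ⟨⟨115777485, 0, 0, 0, 0, 177541026, 0, 0, 0, ⟨0, 0⟩, 0⟩, 0, 0⟩ 0 0) (.pos 35 .mp ⟨⟨118069042, 0, 0, 0, 0, 180658231, 0, 0, 0, ⟨0, 0⟩, 0⟩, 0, 0⟩ 0 0))))) (.pos 36 .mp ⟨⟨223962122, 0, 0, 0, 0, 0, 0, 0, 0, ⟨0, 0⟩, 0⟩, 0, 0⟩ 0 0)) (.cut .v 16908288 (.cut .d (-16384) (.cut .d (-24576) (.void 35 ⟨⟨0, 0, 0, 0, 0, 100000, 0, 0, 0, ⟨0, 0⟩, 0⟩, 0, 0⟩ 0 0) (.cut .v 16842752 (.pos 39 .mp ⟨⟨0, 0, 0, 0, 0, 472659261, 0, 0, 0, ⟨0, 0⟩, 0⟩, 0, 0⟩ 0 0) (.cut .l 230687 (.void 40 ⟨⟨100000, 0, 0, 0, 0, 0, 0, 0, 0, ⟨0, 0⟩, 0⟩, 0, 0⟩ 0 0) (.cut .l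 346030 (.pos 40 .mp ⟨⟨117492206, 0, 0, 0, 0, 229327536, 0, 0, 0, ⟨0, 0⟩, 0⟩, 0, 0⟩ 0 0) (.cut .s 13910016 (.cut .s 13885440 (.pos 40 .mp ⟨⟨115851152, 0, 0, 0, 0, 201686216, 0, 0, 0, ⟨0, 0⟩, 0⟩, 0, 0⟩ 0 0) (.pos 40 .mp ⟨⟨118155055, 0, 0, 0, 0, 205299855, 0, 0, 0, ⟨0, 0⟩, 0⟩, 0, 0⟩ 0 0)) (.pos 40 .mp ⟨⟨120512623, 0, 0, 0, 0, 213667413, 0, 0, 0, ⟨0, 0⟩, 0⟩, 0, 0⟩ 0 0)))))) (.cut .s 13910016 (.cut .l 230687 (.cut .v 16842752 (.cut .d (-8192) (.cut .s 13885440 (.pos 39 .mp ⟨⟨114301457, 0, 0, 0, 0, 205812218, 0, 0, 0, ⟨0, 0⟩, 0⟩, 0, 0⟩ 0 0) (.pos 39 .mp ⟨⟨116554721, 0, 0, 0, 0, 209674775, 0, 0, 0, ⟨0, 0⟩, 0⟩, 0, 0⟩ 0 0)) (.cut .s 13885440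 (.cut .v 16809984 (.cut .l 115343 (.cut .d (-4096) (.pos 41 .mp ⟨⟨114062176, 0, 0, 0, 0, 205299800, 0, 0, 0, ⟨0, 0⟩, 0⟩, 0, 0⟩ 0 0) (.cut .s 13873152 (.pos 41 .mp ⟨⟨116821420, 0, 0, 0, 0, 191570398, 0, 0, 0, ⟨0, 0⟩, 0⟩, 0, 0⟩ 0 0) (.pos 41 .mp ⟨⟨117968798, 0, 0, 0, 0, 193291580, 0, 0, 0, ⟨0, 0⟩, 0⟩, 0, 0⟩ 0 0))) (.pos 41 .mp ⟨⟨112717614, 0, 0, 0, 0, 198169006, 0, 0, 0, ⟨0, 0⟩, 0⟩, 0, 0⟩ 0 0)) (.pos 42 .mp ⟨⟨134570934, 0, 0, 0, 0, 159821823, 0, 0, 0, ⟨0, 0⟩, 0⟩, 0, 0⟩ 0 0)) (.cut .v 16809984 (.cut .l 115343 (.cut .d (-4096) (.pos 41 .mp ⟨⟨116299918, 0, 0, 0, 0, 209175968, 0, 0, 0, ⟨0, 0⟩, 0⟩, 0, 0⟩ 0 0) (.cut .s 13897728 (.pos 41 .mp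 ⟨⟨119122994, 0, 0, 0, 0, 195068494, 0, 0, 0, ⟨0, 0⟩, 0⟩, 0, 0⟩ 0 0) (.pos 41 .mp ⟨⟨120274394, 0, 0, 0, 0, 196924018, 0, 0, 0, ⟨0, 0⟩, 0⟩, 0, 0⟩ 0 0))) (.pos 41 .mp ⟨⟨114918994, 0, 0, 0, 0, 201805368, 0, 0, 0, ⟨0, 0⟩, 0⟩, 0, 0⟩ 0 0)) (.pos 42 .mp ⟨⟨137357193, 0, 0, 0, 0, 162420296, 0, 0, 0, ⟨0, 0⟩, 0⟩, 0, 0⟩ 0 0)))) (.pos 40 .mp ⟨⟨235039846, 0, 0, 0, 0, 0, 0, 0, 0, ⟨0, 0⟩, 0⟩, 0, 0⟩ 0 0)) (.cut .s 13885440 (.pos 35 .mp ⟨⟨120414790, 0, 0, 0, 0, 183851062, 0, 0, 0, ⟨0, 0⟩, 0⟩, 0, 0⟩ 0 0) (.pos 35 .mp ⟨⟨122816085, 0, 0, 0, 0, 187115853, 0, 0, 0, ⟨0, 0⟩, 0⟩, 0, 0⟩ 0 0))) (.cut .l 230687 (.cut .v 16842752 (.cut .d (-8192) (.cut .s 13934592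 (.pos 39 .mp ⟨⟨118860764, 0, 0, 0, 0, 213771603, 0, 0, 0, ⟨0, 0⟩, 0⟩, 0, 0⟩ 0 0) (.pos 39 .mp ⟨⟨121220922, 0, 0, 0, 0, 218109040, 0, 0, 0, ⟨0, 0⟩, 0⟩, 0, 0⟩ 0 0)) (.cut .s 13934592 (.cut .v 16809984 (.cut .l 115343 (.cut .d (-4096) (.pos 41 .mp ⟨⟨118590221, 0, 0, 0, 0, 213286190, 0, 0, 0, ⟨0, 0⟩, 0⟩, 0, 0⟩ 0 0) (.cut .s 13922304 (.pos 41 .mp ⟨⟨121410067, 0, 0, 0, 0, 198888755, 0, 0, 0, ⟨0, 0⟩, 0⟩, 0, 0⟩ 0 0) (.pos 41 .mp ⟨⟨122536763, 0, 0, 0, 0, 200947507, 0, 0, 0, ⟨0, 0⟩, 0⟩, 0, 0⟩ 0 0))) (.pos 41 .mp ⟨⟨117171782, 0, 0, 0, 0, 205520400, 0, 0, 0, ⟨0, 0⟩, 0⟩, 0, 0⟩ 0 0)) (.pos 42 .mp ⟨⟨140488064, 0, 0, 0, 0, 164609391, 0, 0, 0, ⟨0, 0⟩,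 0⟩, 0, 0⟩ 0 0)) (.cut .v 16809984 (.cut .s 13946880 (.pos 41 .mp ⟨⟨122586156, 0, 0, 0, 0, 205753359, 0, 0, 0, ⟨0, 0⟩, 0⟩, 0, 0⟩ 0 0) (.pos 41 .mp ⟨⟨124349335, 0, 0, 0, 0, 206580083, 0, 0, 0, ⟨0, 0⟩, 0⟩, 0, 0⟩ 0 0)) (.pos 42 .mp ⟨⟨143983439, 0, 0, 0, 0, 166352106, 0, 0, 0, ⟨0, 0⟩, 0⟩, 0, 0⟩ 0 0)))) (.pos 40 .mp ⟨⟨243541431, 0, 0, 0, 0, 0, 0, 0, 0, ⟨0, 0⟩, 0⟩, 0, 0⟩ 0 0)) (.cut .s 13934592 (.pos 35 .mp ⟨⟨125274331, 0, 0, 0, 0, 190448850, 0, 0, 0, ⟨0, 0⟩, 0⟩, 0, 0⟩ 0 0) (.pos 35 .mp ⟨⟨127790980, 0, 0, 0, 0, 193846208, 0, 0, 0, ⟨0, 0⟩, 0⟩, 0, 0⟩ 0 0))))) (.pos 36 .mp ⟨⟨240025288, 0, 0, 0, 0, 0, 0, 0, 0, ⟨0, 0⟩, 0⟩, 0, 0⟩ 0 0)))))) (.pos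 34 .mp ⟨⟨264854861, 0, 0, 0, 0, 0, 0, 0, 0, ⟨0, 0⟩, 0⟩, 0, 0⟩ 0 0))) (.void 32 ⟨⟨100000, 0, 0, 0, 0, 0, 0, 0, 0, ⟨0, 0⟩, 0⟩, 0, 0⟩ 0 0))) (.void 30 ⟨⟨100000, 0, 0, 0, 0, 0, 0, 0, 0, ⟨0, 0⟩, 0⟩, 0, 0⟩ 0 0))) (.void 28 ⟨⟨100000, 0, 0, 0, 0, 0, 0, 0, 0, ⟨0, 0⟩, 0⟩, 0, 0⟩ 0 0))) (.void 26 ⟨⟨100000, 0, 0, 0, 0, 0, 0, 0, 0, ⟨0, 0⟩, 0⟩, 0, 0⟩ 0 0)))) (.void 24 ⟨⟨100000, 0, 0, 0, 0, 0, 0, 0, 0, ⟨0, 0⟩, 0⟩, 0, 0⟩ 0 0)) (.void 73 ⟨⟨100000, 0, 0, 0, 0, 0, 0, 0, 0, ⟨0, 0⟩, 0⟩, 0, 0⟩ 0 0)) (.void 84 ⟨⟨100000, 0, 0, 0, 0, 0, 0, 0, 0, ⟨0, 0⟩, 0⟩, 0, 0⟩ 0 0)) (.void 93 ⟨⟨91538, 0, 0, 8462, 0, 0, 0, 0, 0, ⟨0, 0⟩, 0⟩, 0, 0⟩ 0 0))) (.cut .v 16777216 (.cut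 .v 8388608 (.cut .v 4194304 (.cut .v 2097152 (.cut .v 1048576 (.pos 89 .pm ⟨⟨0, 0, 22426473, 0, 0, 0, 0, 0, 16613165, ⟨0, 0⟩, 1983364⟩, 0, 0⟩ 0 0) (.pos 90 .pm ⟨⟨0, 0, 11771661, 0, 0, 0, 0, 0, 0, ⟨0, 0⟩, 0⟩, 0, 80407⟩ 0 0)) (.pos 88 .pm ⟨⟨0, 0, 8283859, 0, 0, 0, 0, 0, 0, ⟨0, 0⟩, 0⟩, 0, 103380⟩ 0 0)) (.pos 5 .pm ⟨⟨0, 0, 8390315, 0, 0, 0, 0, 0, 0, ⟨0, 0⟩, 0⟩, 0, 180916⟩ 0 0)) (.pos 3 .pm ⟨⟨0, 0, 0, 0, 0, 0, 0, 0, 0, ⟨0, 0⟩, 0⟩, 0, 0⟩ 0 0)) (.cut .v 268435456 (.cut .v 67108864 (.cut .d 1837506 (.cut .v 33554432 (.cut .d 918753 (.cut .v 25165824 (.cut .d 459376 (.cut .v 20971520 (.cut .v 18874368 (.pos 27 .pp ⟨⟨91157842, 0, 0, 0, 0, 0,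 0, 0, 0, ⟨0, 0⟩, 0⟩, 19873793, 0⟩ 0 0) (.pos 28 .pp ⟨⟨247229116, 0, 0, 0, 0, 0, 0, 0, 0, ⟨0, 0⟩, 0⟩, 0, 0⟩ 0 0)) (.pos 26 .pp ⟨⟨340212000, 0, 0, 0, 0, 0, 0, 0, 0, ⟨0, 0⟩, 0⟩, 0, 0⟩ 0 0)) (.pos 23 .pp ⟨⟨0, 0, 0, 0, 0, 0, 0, 0, 0, ⟨0, 0⟩, 0⟩, 15001777, 359139⟩ 0 0)) (.pos 24 .pp ⟨⟨0, 0, 0, 0, 0, 0, 0, 0, 0, ⟨0, 0⟩, 0⟩, 81541185, 0⟩ 0 0)) (.pos 22 .pp ⟨⟨0, 0, 0, 0, 0, 0, 0, 0, 0, ⟨0, 0⟩, 0⟩, 6888435, 360373⟩ 0 0)) (.cut .d 918753 (.pos 73 .pp ⟨⟨0, 0, 0, 0, 0, 0, 0, 0, 0, ⟨0, 0⟩, 0⟩, 168950978, 0⟩ 0 0) (.pos 73 .pp ⟨⟨0, 0, 0, 0, 0, 0, 0, 0, 0, ⟨0, 0⟩, 0⟩, 96808857, 0⟩ 0 0))) (.pos 72 .pp ⟨⟨0, 0, 0, 0, 0, 0, 0, 0, 0, ⟨0, 0⟩, 0⟩, 0, 412240⟩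 0 0)) (.void 84 ⟨⟨0, 0, 0, 49124, 0, 0, 0, 0, 0, ⟨0, 0⟩, 0⟩, 50876, 0⟩ 0 0)) (.void 93 ⟨⟨0, 0, 0, 0, 0, 0, 0, 0, 0, ⟨0, 0⟩, 0⟩, 100000, 0⟩ 0 0)))),
    by decide +kernel⟩

def covers26 : cell.Covers Vale.Agent.P237.Petty.Cor.Grid.N8.table row26.1 :=
  ⟨(.cut .d 0 (.cut .v 16777216 (.cut .v 8388608 (.void 2 ⟨⟨0, 0, 100000, 0, 0, 0, 0, 0, 0, ⟨0, 0⟩, 0⟩, 0, 0⟩ 0 0) (.cut .d (-8388608) (.void 3 ⟨⟨100000, 0, 0, 0, 0, 0, 0, 0, 0, ⟨0, 0⟩, 0⟩, 0, 0⟩ 0 0) (.cut .d (-4194304) (.void 3 ⟨⟨100000, 0, 0, 0, 0, 0, 0, 0, 0, ⟨0, 0⟩, 0⟩, 0, 0⟩ 0 0) (.cut .d (-2097152) (.void 3 ⟨⟨0, 0, 0, 0, 0, 100000, 0, 0, 0, ⟨0, 0⟩, 0⟩, 0, 0⟩ 0 0) (.cut .d (-1048576)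 (.void 3 ⟨⟨0, 0, 0, 0, 0, 100000, 0, 0, 0, ⟨0, 0⟩, 0⟩, 0, 0⟩ 0 0) (.cut .d (-524288) (.void 3 ⟨⟨0, 0, 0, 0, 0, 100000, 0, 0, 0, ⟨0, 0⟩, 0⟩, 0, 0⟩ 0 0) (.cut .d (-262144) (.void 3 ⟨⟨0, 0, 0, 0, 0, 100000, 0, 0, 0, ⟨0, 0⟩, 0⟩, 0, 0⟩ 0 0) (.cut .s 14057472 (.pos 3 .mm ⟨⟨0, 0, 0, 0, 0, 468605733, 0, 0, 0, ⟨0, 0⟩, 0⟩, 0, 0⟩ 0 0) (.pos 3 .mm ⟨⟨0, 0, 0, 0, 0, 509297472, 0, 0, 0, ⟨0, 0⟩, 0⟩, 0, 0⟩ 0 0))))))))) (.cut .v 268435456 (.cut .v 67108864 (.cut .v 33554432 (.cut .v 25165824 (.cut .d (-8388608) (.void 23 ⟨⟨100000, 0, 0, 0, 0, 0, 0, 0, 0, ⟨0, 0⟩, 0⟩, 0, 0⟩ 0 0) (.cut .d (-4194304) (.void 23 ⟨⟨100000, 0, 0, 0, 0, 0, 0, 0, 0, ⟨0, 0⟩, 0⟩,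 0, 0⟩ 0 0) (.cut .v 20971520 (.cut .d (-2097152) (.void 25 ⟨⟨100000, 0, 0, 0, 0, 0, 0, 0, 0, ⟨0, 0⟩, 0⟩, 0, 0⟩ 0 0) (.cut .v 18874368 (.cut .d (-1048576) (.void 27 ⟨⟨100000, 0, 0, 0, 0, 0, 0, 0, 0, ⟨0, 0⟩, 0⟩, 0, 0⟩ 0 0) (.cut .v 17825792 (.cut .d (-524288) (.void 29 ⟨⟨100000, 0, 0, 0, 0, 0, 0, 0, 0, ⟨0, 0⟩, 0⟩, 0, 0⟩ 0 0) (.cut .v 17301504 (.cut .d (-262144) (.void 31 ⟨⟨100000, 0, 0, 0, 0, 0, 0, 0, 0, ⟨0, 0⟩, 0⟩, 0, 0⟩ 0 0) (.cut .v 17039360 (.cut .d (-131072) (.void 33 ⟨⟨100000, 0, 0, 0, 0, 0, 0, 0, 0, ⟨0, 0⟩, 0⟩, 0, 0⟩ 0 0) (.cut .d (-65536) (.void 33 ⟨⟨100000, 0, 0, 0, 0, 0, 0, 0, 0, ⟨0, 0⟩, 0⟩, 0, 0⟩ 0 0) (.cut .d (-32768) (.void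 33 ⟨⟨0, 0, 0, 0, 0, 100000, 0, 0, 0, ⟨0, 0⟩, 0⟩, 0, 0⟩ 0 0) (.cut .d (-16384) (.cut .v 16908288 (.cut .l 230687 (.void 35 ⟨⟨0, 0, 0, 0, 0, 100000, 0, 0, 0, ⟨0, 0⟩, 0⟩, 0, 0⟩ 0 0) (.cut .l 346030 (.pos 35 .mp ⟨⟨126019877, 0, 0, 0, 0, 325398833, 0, 0, 0, ⟨0, 0⟩, 0⟩, 0, 0⟩ 0 0) (.cut .d (-24576) (.void 35 ⟨⟨0, 0, 0, 0, 0, 100000, 0, 0, 0, ⟨0, 0⟩, 0⟩, 0, 0⟩ 0 0) (.cut .v 16842752 (.pos 39 .mp ⟨⟨0, 0, 0, 0, 0, 485941535, 0, 0, 0, ⟨0, 0⟩, 0⟩, 0, 0⟩ 0 0) (.cut .s 14057472 (.cut .s 14008320 (.pos 40 .mp ⟨⟨125394731, 0, 0, 0, 0, 224575842, 0, 0, 0, ⟨0, 0⟩, 0⟩, 0, 0⟩ 0 0) (.cut .s 14032896 (.pos 40 .mp ⟨⟨130543088, 0, 0, 0, 0, 226063905, 0, 0,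 0, ⟨0, 0⟩, 0⟩, 0, 0⟩ 0 0) (.pos 40 .mp ⟨⟨133212419, 0, 0, 0, 0, 230150807, 0, 0, 0, ⟨0, 0⟩, 0⟩, 0, 0⟩ 0 0))) (.cut .s 14106624 (.cut .s 14082048 (.pos 40 .mp ⟨⟨135947421, 0, 0, 0, 0, 234413867, 0, 0, 0, ⟨0, 0⟩, 0⟩, 0, 0⟩ 0 0) (.pos 40 .mp ⟨⟨138749850, 0, 0, 0, 0, 238851903, 0, 0, 0, ⟨0, 0⟩, 0⟩, 0, 0⟩ 0 0)) (.pos 40 .mp ⟨⟨141621524, 0, 0, 0, 0, 250135082, 0, 0, 0, ⟨0, 0⟩, 0⟩, 0, 0⟩ 0 0))))))) (.pos 36 .mp ⟨⟨281693058, 0, 0, 0, 0, 0, 0, 0, 0, ⟨0, 0⟩, 0⟩, 0, 0⟩ 0 0)) (.cut .v 16908288 (.cut .s 14057472 (.cut .s 14008320 (.cut .s 13983744 (.cut .v 16842752 (.cut .l 230687 (.cut .d (-8192) (.pos 39 .mp ⟨⟨123636984, 0, 0, 0, 0, 222702272,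 0, 0, 0, ⟨0, 0⟩, 0⟩, 0, 0⟩ 0 0) (.cut .v 16809984 (.cut .s 13971456 (.pos 41 .mp ⟨⟨126225691, 0, 0, 0, 0, 207237111, 0, 0, 0, ⟨0, 0⟩, 0⟩, 0, 0⟩ 0 0) (.pos 41 .mp ⟨⟨126576724, 0, 0, 0, 0, 210910144, 0, 0, 0, ⟨0, 0⟩, 0⟩, 0, 0⟩ 0 0)) (.pos 42 .mp ⟨⟨147862068, 0, 0, 0, 0, 167623320, 0, 0, 0, ⟨0, 0⟩, 0⟩, 0, 0⟩ 0 0))) (.pos 39 .mp ⟨⟨120641317, 0, 0, 0, 0, 217912103, 0, 0, 0, ⟨0, 0⟩, 0⟩, 0, 0⟩ 0 0)) (.pos 40 .mp ⟨⟨146446352, 0, 0, 0, 0, 171890112, 0, 0, 0, ⟨0, 0⟩, 0⟩, 0, 0⟩ 0 0)) (.cut .v 16842752 (.cut .l 230687 (.cut .d (-8192) (.pos 39 .mp ⟨⟨126118094, 0, 0, 0, 0, 226377374, 0, 0, 0, ⟨0, 0⟩, 0⟩, 0, 0⟩ 0 0) (.cut .v 16809984 (.cut .s 13996032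 (.pos 41 .mp ⟨⟨127321021, 0, 0, 0, 0, 213821791, 0, 0, 0, ⟨0, 0⟩, 0⟩, 0, 0⟩ 0 0) (.cut .s 14002176 (.pos 41 .mp ⟨⟨132291612, 0, 0, 0, 0, 206940416, 0, 0, 0, ⟨0, 0⟩, 0⟩, 0, 0⟩ 0 0) (.pos 41 .mp ⟨⟨132819654, 0, 0, 0, 0, 208103437, 0, 0, 0, ⟨0, 0⟩, 0⟩, 0, 0⟩ 0 0))) (.pos 42 .mp ⟨⟨149964435, 0, 0, 0, 0, 172017648, 0, 0, 0, ⟨0, 0⟩, 0⟩, 0, 0⟩ 0 0))) (.pos 39 .mp ⟨⟨123039965, 0, 0, 0, 0, 221965435, 0, 0, 0, ⟨0, 0⟩, 0⟩, 0, 0⟩ 0 0)) (.cut .s 13996032 (.pos 40 .mp ⟨⟨141969653, 0, 0, 0, 0, 187290994, 0, 0, 0, ⟨0, 0⟩, 0⟩, 0, 0⟩ 0 0) (.pos 40 .mp ⟨⟨143013227, 0, 0, 0, 0, 189616466, 0, 0, 0, ⟨0, 0⟩, 0⟩, 0, 0⟩ 0 0)))) (.cut .s 14032896 (.cut .l 230687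 (.cut .d (-8192) (.pos 35 .mp ⟨⟨129844354, 0, 0, 0, 0, 231648898, 0, 0, 0, ⟨0, 0⟩, 0⟩, 0, 0⟩ 0 0) (.cut .v 16842752 (.cut .l 115343 (.cut .d (-4096) (.pos 39 .mp ⟨⟨128905991, 0, 0, 0, 0, 231371999, 0, 0, 0, ⟨0, 0⟩, 0⟩, 0, 0⟩ 0 0) (.cut .s 14020608 (.pos 39 .mp ⟨⟨132047966, 0, 0, 0, 0, 212605979, 0, 0, 0, ⟨0, 0⟩, 0⟩, 0, 0⟩ 0 0) (.cut .s 14026752 (.pos 39 .mp ⟨⟨132262222, 0, 0, 0, 0, 216115902, 0, 0, 0, ⟨0, 0⟩, 0⟩, 0, 0⟩ 0 0) (.pos 39 .mp ⟨⟨132937873, 0, 0, 0, 0, 217061021, 0, 0, 0, ⟨0, 0⟩, 0⟩, 0, 0⟩ 0 0)))) (.pos 39 .mp ⟨⟨133130987, 0, 0, 0, 0, 208994604, 0, 0, 0, ⟨0, 0⟩, 0⟩, 0, 0⟩ 0 0)) (.pos 40 .mp ⟨⟨233421229, 0, 0, 0, 0, 0, 0, 0,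 0, ⟨0, 0⟩, 0⟩, 0, 0⟩ 0 0))) (.cut .s 14020608 (.pos 35 .mp ⟨⟨134376051, 0, 0, 0, 0, 206553447, 0, 0, 0, ⟨0, 0⟩, 0⟩, 0, 0⟩ 0 0) (.pos 35 .mp ⟨⟨135742443, 0, 0, 0, 0, 208444665, 0, 0, 0, ⟨0, 0⟩, 0⟩, 0, 0⟩ 0 0))) (.cut .l 230687 (.cut .d (-8192) (.pos 35 .mp ⟨⟨132471547, 0, 0, 0, 0, 235917790, 0, 0, 0, ⟨0, 0⟩, 0⟩, 0, 0⟩ 0 0) (.cut .v 16842752 (.cut .v 16809984 (.cut .l 115343 (.cut .d (-4096) (.pos 41 .mp ⟨⟨130901065, 0, 0, 0, 0, 234168770, 0, 0, 0, ⟨0, 0⟩, 0⟩, 0, 0⟩ 0 0) (.cut .s 14045184 (.pos 41 .mp ⟨⟨134101310, 0, 0, 0, 0, 217692205, 0, 0, 0, ⟨0, 0⟩, 0⟩, 0, 0⟩ 0 0) (.pos 41 .mp ⟨⟨135451624, 0, 0, 0, 0, 219721314, 0, 0, 0, ⟨0, 0⟩, 0⟩,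 0, 0⟩ 0 0))) (.pos 41 .mp ⟨⟨129276044, 0, 0, 0, 0, 226269069, 0, 0, 0, ⟨0, 0⟩, 0⟩, 0, 0⟩ 0 0)) (.pos 42 .mp ⟨⟨155253677, 0, 0, 0, 0, 179656391, 0, 0, 0, ⟨0, 0⟩, 0⟩, 0, 0⟩ 0 0)) (.pos 40 .mp ⟨⟨237808066, 0, 0, 0, 0, 0, 0, 0, 0, ⟨0, 0⟩, 0⟩, 0, 0⟩ 0 0))) (.cut .s 14045184 (.pos 35 .mp ⟨⟨137125830, 0, 0, 0, 0, 210361259, 0, 0, 0, ⟨0, 0⟩, 0⟩, 0, 0⟩ 0 0) (.pos 35 .mp ⟨⟨138526438, 0, 0, 0, 0, 212302626, 0, 0, 0, ⟨0, 0⟩, 0⟩, 0, 0⟩ 0 0))))) (.cut .s 14106624 (.cut .s 14082048 (.cut .l 230687 (.cut .d (-8192) (.pos 35 .mp ⟨⟨135163698, 0, 0, 0, 0, 240478662, 0, 0, 0, ⟨0, 0⟩, 0⟩, 0, 0⟩ 0 0) (.cut .v 16842752 (.cut .l 115343 (.cut .d (-4096) (.pos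 39 .mp ⟨⟨134160683, 0, 0, 0, 0, 240251982, 0, 0, 0, ⟨0, 0⟩, 0⟩, 0, 0⟩ 0 0) (.cut .v 16809984 (.cut .s 14069760 (.pos 41 .mp ⟨⟨136818750, 0, 0, 0, 0, 221801503, 0, 0, 0, ⟨0, 0⟩, 0⟩, 0, 0⟩ 0 0) (.pos 41 .mp ⟨⟨138202910, 0, 0, 0, 0, 223932883, 0, 0, 0, ⟨0, 0⟩, 0⟩, 0, 0⟩ 0 0)) (.pos 42 .mp ⟨⟨241773857, 0, 0, 0, 0, 0, 0, 0, 0, ⟨0, 0⟩, 0⟩, 0, 0⟩ 0 0))) (.pos 39 .mp ⟨⟨138609125, 0, 0, 0, 0, 216838071, 0, 0, 0, ⟨0, 0⟩, 0⟩, 0, 0⟩ 0 0)) (.pos 40 .mp ⟨⟨242386205, 0, 0, 0, 0, 0, 0, 0, 0, ⟨0, 0⟩, 0⟩, 0, 0⟩ 0 0))) (.cut .s 14069760 (.pos 35 .mp ⟨⟨139944496, 0, 0, 0, 0, 214268157, 0, 0, 0, ⟨0, 0⟩, 0⟩, 0, 0⟩ 0 0) (.pos 35 .mp ⟨⟨141380236, 0, 0, 0,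 0, 216257233, 0, 0, 0, ⟨0, 0⟩, 0⟩, 0, 0⟩ 0 0))) (.cut .l 230687 (.cut .d (-8192) (.pos 35 .mp ⟨⟨137922543, 0, 0, 0, 0, 245339846, 0, 0, 0, ⟨0, 0⟩, 0⟩, 0, 0⟩ 0 0) (.cut .v 16842752 (.cut .v 16809984 (.cut .l 115343 (.cut .d (-4096) (.pos 41 .mp ⟨⟨136263320, 0, 0, 0, 0, 243557112, 0, 0, 0, ⟨0, 0⟩, 0⟩, 0, 0⟩ 0 0) (.cut .s 14094336 (.pos 41 .mp ⟨⟨139604334, 0, 0, 0, 0, 226115565, 0, 0, 0, ⟨0, 0⟩, 0⟩, 0, 0⟩ 0 0) (.pos 41 .mp ⟨⟨141023254, 0, 0, 0, 0, 228349654, 0, 0, 0, ⟨0, 0⟩, 0⟩, 0, 0⟩ 0 0))) (.pos 41 .mp ⟨⟨134545546, 0, 0, 0, 0, 235007234, 0, 0, 0, ⟨0, 0⟩, 0⟩, 0, 0⟩ 0 0)) (.pos 42 .mp ⟨⟨162154413, 0, 0, 0, 0, 185454860, 0, 0, 0, ⟨0, 0⟩,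 0⟩, 0, 0⟩ 0 0)) (.pos 40 .mp ⟨⟨247160610, 0, 0, 0, 0, 0, 0, 0, 0, ⟨0, 0⟩, 0⟩, 0, 0⟩ 0 0))) (.cut .s 14094336 (.pos 35 .mp ⟨⟨142833896, 0, 0, 0, 0, 218269231, 0, 0, 0, ⟨0, 0⟩, 0⟩, 0, 0⟩ 0 0) (.pos 35 .mp ⟨⟨144305717, 0, 0, 0, 0, 220303514, 0, 0, 0, ⟨0, 0⟩, 0⟩, 0, 0⟩ 0 0)))) (.cut .s 14131200 (.cut .l 230687 (.cut .d (-8192) (.pos 35 .mp ⟨⟨140749881, 0, 0, 0, 0, 250509981, 0, 0, 0, ⟨0, 0⟩, 0⟩, 0, 0⟩ 0 0) (.cut .v 16842752 (.cut .v 16809984 (.cut .l 115343 (.cut .d (-4096) (.pos 41 .mp ⟨⟨139044896, 0, 0, 0, 0, 248707460, 0, 0, 0, ⟨0, 0⟩, 0⟩, 0, 0⟩ 0 0) (.cut .s 14118912 (.pos 41 .mp ⟨⟨142459909, 0, 0, 0, 0, 230635251, 0, 0, 0, ⟨0, 0⟩,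 0⟩, 0, 0⟩ 0 0) (.pos 41 .mp ⟨⟨143914538, 0, 0, 0, 0, 232972453, 0, 0, 0, ⟨0, 0⟩, 0⟩, 0, 0⟩ 0 0))) (.pos 41 .mp ⟨⟨137278392, 0, 0, 0, 0, 239529715, 0, 0, 0, ⟨0, 0⟩, 0⟩, 0, 0⟩ 0 0)) (.pos 42 .mp ⟨⟨166274154, 0, 0, 0, 0, 187542729, 0, 0, 0, ⟨0, 0⟩, 0⟩, 0, 0⟩ 0 0)) (.pos 40 .mp ⟨⟨252136431, 0, 0, 0, 0, 0, 0, 0, 0, ⟨0, 0⟩, 0⟩, 0, 0⟩ 0 0))) (.cut .s 14118912 (.pos 35 .mp ⟨⟨145795946, 0, 0, 0, 0, 222359441, 0, 0, 0, ⟨0, 0⟩, 0⟩, 0, 0⟩ 0 0) (.pos 35 .mp ⟨⟨147304833, 0, 0, 0, 0, 224436361, 0, 0, 0, ⟨0, 0⟩, 0⟩, 0, 0⟩ 0 0))) (.cut .l 230687 (.cut .d (-8192) (.pos 35 .mp ⟨⟨143647577, 0, 0, 0, 0, 255998025, 0, 0, 0, ⟨0, 0⟩, 0⟩, 0, 0⟩ 0 0) (.cut .v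 16842752 (.cut .l 115343 (.cut .d (-4096) (.pos 39 .mp ⟨⟨142542765, 0, 0, 0, 0, 255843693, 0, 0, 0, ⟨0, 0⟩, 0⟩, 0, 0⟩ 0 0) (.cut .s 14143488 (.pos 39 .mp ⟨⟨146043947, 0, 0, 0, 0, 234059540, 0, 0, 0, ⟨0, 0⟩, 0⟩, 0, 0⟩ 0 0) (.pos 39 .mp ⟨⟨147487627, 0, 0, 0, 0, 236631615, 0, 0, 0, ⟨0, 0⟩, 0⟩, 0, 0⟩ 0 0))) (.pos 39 .mp ⟨⟨147351937, 0, 0, 0, 0, 229302469, 0, 0, 0, ⟨0, 0⟩, 0⟩, 0, 0⟩ 0 0)) (.pos 40 .mp ⟨⟨257319006, 0, 0, 0, 0, 0, 0, 0, 0, ⟨0, 0⟩, 0⟩, 0, 0⟩ 0 0))) (.cut .s 14143488 (.pos 35 .mp ⟨⟨148832633, 0, 0, 0, 0, 226533613, 0, 0, 0, ⟨0, 0⟩, 0⟩, 0, 0⟩ 0 0) (.pos 35 .mp ⟨⟨150379608, 0, 0, 0, 0, 228650529, 0, 0, 0, ⟨0, 0⟩, 0⟩, 0, 0⟩ 0 0))))))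 (.pos 36 .mp ⟨⟨252987718, 0, 0, 0, 0, 0, 0, 0, 0, ⟨0, 0⟩, 0⟩, 0, 0⟩ 0 0)))))) (.pos 34 .mp ⟨⟨308298851, 0, 0, 0, 0, 0, 0, 0, 0, ⟨0, 0⟩, 0⟩, 0, 0⟩ 0 0))) (.void 32 ⟨⟨100000, 0, 0, 0, 0, 0, 0, 0, 0, ⟨0, 0⟩, 0⟩, 0, 0⟩ 0 0))) (.void 30 ⟨⟨100000, 0, 0, 0, 0, 0, 0, 0, 0, ⟨0, 0⟩, 0⟩, 0, 0⟩ 0 0))) (.void 28 ⟨⟨100000, 0, 0, 0, 0, 0, 0, 0, 0, ⟨0, 0⟩, 0⟩, 0, 0⟩ 0 0))) (.void 26 ⟨⟨100000, 0, 0, 0, 0, 0, 0, 0, 0, ⟨0, 0⟩, 0⟩, 0, 0⟩ 0 0)))) (.void 24 ⟨⟨100000, 0, 0, 0, 0, 0, 0, 0, 0, ⟨0, 0⟩, 0⟩, 0, 0⟩ 0 0)) (.void 73 ⟨⟨100000, 0, 0, 0, 0, 0, 0, 0, 0, ⟨0, 0⟩, 0⟩, 0, 0⟩ 0 0)) (.void 84 ⟨⟨100000, 0, 0, 0, 0, 0, 0, 0, 0, ⟨0, 0⟩, 0⟩, 0, 0⟩ 0 0)) (.void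 93 ⟨⟨91429, 0, 0, 8571, 0, 0, 0, 0, 0, ⟨0, 0⟩, 0⟩, 0, 0⟩ 0 0))) (.cut .v 16777216 (.cut .v 8388608 (.cut .v 4194304 (.cut .v 2097152 (.cut .v 1048576 (.pos 89 .pm ⟨⟨0, 0, 22470242, 0, 0, 0, 0, 0, 16479200, ⟨0, 0⟩, 1983364⟩, 0, 0⟩ 0 0) (.pos 90 .pm ⟨⟨0, 0, 12454224, 0, 0, 0, 0, 0, 0, ⟨0, 0⟩, 0⟩, 0, 69557⟩ 0 0)) (.pos 88 .pm ⟨⟨0, 0, 10065236, 0, 0, 0, 0, 0, 0, ⟨0, 0⟩, 0⟩, 0, 89431⟩ 0 0)) (.pos 5 .pm ⟨⟨0, 0, 10816114, 0, 0, 0, 0, 0, 0, ⟨0, 0⟩, 0⟩, 0, 125203⟩ 0 0)) (.pos 3 .pm ⟨⟨0, 0, 0, 0, 0, 0, 0, 0, 0, ⟨0, 0⟩, 0⟩, 0, 0⟩ 0 0)) (.cut .v 268435456 (.cut .v 67108864 (.cut .d 1693476 (.cut .v 33554432 (.cut .d 846738 (.cut .v 25165824 (.cut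 .d 423369 (.cut .v 20971520 (.cut .v 18874368 (.pos 27 .pp ⟨⟨111438894, 0, 0, 0, 0, 0, 0, 0, 0, ⟨0, 0⟩, 0⟩, 21874139, 0⟩ 0 0) (.pos 28 .pp ⟨⟨285540317, 0, 0, 0, 0, 0, 0, 0, 0, ⟨0, 0⟩, 0⟩, 0, 0⟩ 0 0)) (.pos 26 .pp ⟨⟨392303582, 0, 0, 0, 0, 0, 0, 0, 0, ⟨0, 0⟩, 0⟩, 0, 0⟩ 0 0)) (.pos 23 .pp ⟨⟨0, 0, 0, 0, 0, 0, 0, 0, 0, ⟨0, 0⟩, 0⟩, 18004448, 310604⟩ 0 0)) (.pos 24 .pp ⟨⟨0, 0, 0, 0, 0, 0, 0, 0, 0, ⟨0, 0⟩, 0⟩, 93723461, 0⟩ 0 0)) (.pos 22 .pp ⟨⟨0, 0, 0, 0, 0, 0, 0, 0, 0, ⟨0, 0⟩, 0⟩, 8924314, 310760⟩ 0 0)) (.cut .d 846738 (.pos 73 .pp ⟨⟨0, 0, 0, 0, 0, 0, 0, 0, 0, ⟨0, 0⟩, 0⟩, 193409687, 0⟩ 0 0) (.pos 73 .pp ⟨⟨0, 0, 0, 0, 0, 0, 0, 0, 0, ⟨0, 0⟩,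 0⟩, 109267614, 0⟩ 0 0))) (.pos 72 .pp ⟨⟨0, 0, 0, 0, 0, 0, 0, 0, 0, ⟨0, 0⟩, 0⟩, 0, 361793⟩ 0 0)) (.void 84 ⟨⟨0, 0, 0, 49378, 0, 0, 0, 0, 0, ⟨0, 0⟩, 0⟩, 50622, 0⟩ 0 0)) (.void 93 ⟨⟨0, 0, 0, 0, 0, 0, 0, 0, 0, ⟨0, 0⟩, 0⟩, 100000, 0⟩ 0 0)))),
    by decide +kernel⟩

def covers27 : cell.Covers Vale.Agent.P237.Petty.Cor.Grid.N8.table row27.1 :=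
  ⟨(.cut .d 0 (.cut .v 16777216 (.cut .v 8388608 (.void 2 ⟨⟨0, 0, 100000, 0, 0, 0, 0, 0, 0, ⟨0, 0⟩, 0⟩, 0, 0⟩ 0 0) (.cut .d (-8388608) (.void 3 ⟨⟨100000, 0, 0, 0, 0, 0, 0, 0, 0, ⟨0, 0⟩, 0⟩, 0, 0⟩ 0 0) (.cut .d (-4194304) (.void 3 ⟨⟨100000, 0, 0, 0, 0, 0, 0, 0, 0, ⟨0, 0⟩, 0⟩, 0, 0⟩ 0 0) (.cut .d (-2097152) (.void 3 ⟨⟨69758, 0, 30242, 0, 0, 0, 0, 0, 0, ⟨0, 0⟩, 0⟩, 0, 0⟩ 0 0) (.cut .d (-1048576) (.void 3 ⟨⟨0, 0, 0, 0, 0, 100000, 0, 0, 0, ⟨0, 0⟩, 0⟩, 0, 0⟩ 0 0) (.cut .d (-524288) (.void 3 ⟨⟨0, 0, 0, 0, 0, 100000, 0, 0, 0, ⟨0, 0⟩, 0⟩, 0, 0⟩ 0 0) (.cut .d (-262144) (.void 3 ⟨⟨0, 0, 0, 0, 0, 100000, 0, 0, 0, ⟨0, 0⟩, 0⟩, 0, 0⟩ 0 0) (.cut .s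 14237696 (.pos 3 .mm ⟨⟨0, 0, 0, 0, 0, 547392889, 0, 0, 0, ⟨0, 0⟩, 0⟩, 0, 0⟩ 0 0) (.pos 3 .mm ⟨⟨0, 0, 0, 0, 0, 588255005, 0, 0, 0, ⟨0, 0⟩, 0⟩, 0, 0⟩ 0 0))))))))) (.cut .v 268435456 (.cut .v 67108864 (.cut .v 33554432 (.cut .d (-8388608) (.void 22 ⟨⟨100079, 0, 0, 0, 0, 0, 0, 0, 0, ⟨0, 0⟩, 0⟩, 0, 0⟩ 0 0) (.cut .v 25165824 (.cut .d (-4194304) (.void 23 ⟨⟨100000, 0, 0, 0, 0, 0, 0, 0, 0, ⟨0, 0⟩, 0⟩, 0, 0⟩ 0 0) (.cut .v 20971520 (.cut .d (-2097152) (.void 25 ⟨⟨100000, 0, 0, 0, 0, 0, 0, 0, 0, ⟨0, 0⟩, 0⟩, 0, 0⟩ 0 0) (.cut .v 18874368 (.cut .d (-1048576) (.void 27 ⟨⟨100000, 0, 0, 0, 0, 0, 0, 0, 0, ⟨0, 0⟩, 0⟩, 0, 0⟩ 0 0) (.cut .v 17825792 (.cut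 .d (-524288) (.void 29 ⟨⟨100000, 0, 0, 0, 0, 0, 0, 0, 0, ⟨0, 0⟩, 0⟩, 0, 0⟩ 0 0) (.cut .v 17301504 (.cut .d (-262144) (.void 31 ⟨⟨100000, 0, 0, 0, 0, 0, 0, 0, 0, ⟨0, 0⟩, 0⟩, 0, 0⟩ 0 0) (.cut .d (-131072) (.void 31 ⟨⟨100000, 0, 0, 0, 0, 0, 0, 0, 0, ⟨0, 0⟩, 0⟩, 0, 0⟩ 0 0) (.cut .d (-65536) (.void 31 ⟨⟨100000, 0, 0, 0, 0, 0, 0, 0, 0, ⟨0, 0⟩, 0⟩, 0, 0⟩ 0 0) (.cut .d (-32768) (.void 31 ⟨⟨0, 0, 0, 0, 0, 100000, 0, 0, 0, ⟨0, 0⟩, 0⟩, 0, 0⟩ 0 0) (.cut .v 17039360 (.cut .d (-16384) (.cut .v 16908288 (.cut .l 230687 (.void 35 ⟨⟨0, 0, 0, 0, 0, 100000, 0, 0, 0, ⟨0, 0⟩, 0⟩, 0, 0⟩ 0 0) (.cut .d (-24576) (.void 35 ⟨⟨0, 0, 0, 0, 0, 100000, 0, 0, 0, ⟨0,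 0⟩, 0⟩, 0, 0⟩ 0 0) (.cut .l 346030 (.void 35 ⟨⟨0, 0, 0, 0, 0, 100000, 0, 0, 0, ⟨0, 0⟩, 0⟩, 0, 0⟩ 0 0) (.cut .d (-20480) (.void 35 ⟨⟨0, 0, 0, 0, 0, 100000, 0, 0, 0, ⟨0, 0⟩, 0⟩, 0, 0⟩ 0 0) (.cut .v 16842752 (.pos 39 .mp ⟨⟨0, 0, 0, 0, 0, 584031324, 0, 0, 0, ⟨0, 0⟩, 0⟩, 0, 0⟩ 0 0) (.cut .s 14237696 (.cut .s 14196736 (.pos 40 .mp ⟨⟨147579570, 0, 0, 0, 0, 260493269, 0, 0, 0, ⟨0, 0⟩, 0⟩, 0, 0⟩ 0 0) (.pos 40 .mp ⟨⟨152815488, 0, 0, 0, 0, 267989862, 0, 0, 0, ⟨0, 0⟩, 0⟩, 0, 0⟩ 0 0)) (.cut .s 14278656 (.pos 40 .mp ⟨⟨158280657, 0, 0, 0, 0, 276180188, 0, 0, 0, ⟨0, 0⟩, 0⟩, 0, 0⟩ 0 0) (.pos 40 .mp ⟨⟨163986109, 0, 0, 0, 0, 285067847, 0, 0, 0, ⟨0, 0⟩,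 0⟩, 0, 0⟩ 0 0)))))))) (.pos 36 .mp ⟨⟨327265951, 0, 0, 0, 0, 0, 0, 0, 0, ⟨0, 0⟩, 0⟩, 0, 0⟩ 0 0)) (.cut .v 16908288 (.cut .s 14237696 (.cut .s 14196736 (.cut .s 14176256 (.cut .v 16842752 (.cut .d (-8192) (.pos 39 .mp ⟨⟨141196500, 0, 0, 0, 0, 263670407, 0, 0, 0, ⟨0, 0⟩, 0⟩, 0, 0⟩ 0 0) (.cut .s 14166016 (.pos 39 .mp ⟨⟨150704336, 0, 0, 0, 0, 235660261, 0, 0, 0, ⟨0, 0⟩, 0⟩, 0, 0⟩ 0 0) (.pos 39 .mp ⟨⟨152003592, 0, 0, 0, 0, 237278531, 0, 0, 0, ⟨0, 0⟩, 0⟩, 0, 0⟩ 0 0))) (.pos 40 .mp ⟨⟨171584616, 0, 0, 0, 0, 199533541, 0, 0, 0, ⟨0, 0⟩, 0⟩, 0, 0⟩ 0 0)) (.cut .v 16842752 (.cut .l 230687 (.cut .d (-8192) (.pos 39 .mp ⟨⟨147812454, 0, 0, 0, 0, 262250691,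 0, 0, 0, ⟨0, 0⟩, 0⟩, 0, 0⟩ 0 0) (.cut .s 14186496 (.pos 39 .mp ⟨⟨153317141, 0, 0, 0, 0, 238921089, 0, 0, 0, ⟨0, 0⟩, 0⟩, 0, 0⟩ 0 0) (.cut .s 14191616 (.pos 39 .mp ⟨⟨153642311, 0, 0, 0, 0, 241888427, 0, 0, 0, ⟨0, 0⟩, 0⟩, 0, 0⟩ 0 0) (.pos 39 .mp ⟨⟨154241297, 0, 0, 0, 0, 242904294, 0, 0, 0, ⟨0, 0⟩, 0⟩, 0, 0⟩ 0 0)))) (.pos 39 .mp ⟨⟨143983248, 0, 0, 0, 0, 257965547, 0, 0, 0, ⟨0, 0⟩, 0⟩, 0, 0⟩ 0 0)) (.pos 40 .mp ⟨⟨173492051, 0, 0, 0, 0, 204423014, 0, 0, 0, ⟨0, 0⟩, 0⟩, 0, 0⟩ 0 0))) (.cut .s 14217216 (.cut .v 16842752 (.cut .l 230687 (.cut .d (-8192) (.pos 39 .mp ⟨⟨150387959, 0, 0, 0, 0, 266105006, 0, 0, 0, ⟨0, 0⟩, 0⟩, 0, 0⟩ 0 0) (.cut .v 16809984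 (.cut .s 14206976 (.pos 41 .mp ⟨⟨152476747, 0, 0, 0, 0, 249950443, 0, 0, 0, ⟨0, 0⟩, 0⟩, 0, 0⟩ 0 0) (.pos 41 .mp ⟨⟨153227630, 0, 0, 0, 0, 253110550, 0, 0, 0, ⟨0, 0⟩, 0⟩, 0, 0⟩ 0 0)) (.pos 42 .mp ⟨⟨177498856, 0, 0, 0, 0, 203603415, 0, 0, 0, ⟨0, 0⟩, 0⟩, 0, 0⟩ 0 0))) (.pos 39 .mp ⟨⟨146466490, 0, 0, 0, 0, 262191001, 0, 0, 0, ⟨0, 0⟩, 0⟩, 0, 0⟩ 0 0)) (.cut .s 14206976 (.pos 40 .mp ⟨⟨168287436, 0, 0, 0, 0, 221541719, 0, 0, 0, ⟨0, 0⟩, 0⟩, 0, 0⟩ 0 0) (.pos 40 .mp ⟨⟨169408438, 0, 0, 0, 0, 223885625, 0, 0, 0, ⟨0, 0⟩, 0⟩, 0, 0⟩ 0 0))) (.cut .v 16842752 (.cut .l 230687 (.cut .d (-8192) (.pos 39 .mp ⟨⟨153019502, 0, 0, 0, 0, 270210370, 0, 0, 0, ⟨0,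 0⟩, 0⟩, 0, 0⟩ 0 0) (.cut .v 16809984 (.cut .s 14227456 (.pos 41 .mp ⟨⟨154152499, 0, 0, 0, 0, 255971299, 0, 0, 0, ⟨0, 0⟩, 0⟩, 0, 0⟩ 0 0) (.pos 41 .mp ⟨⟨155326738, 0, 0, 0, 0, 258370213, 0, 0, 0, ⟨0, 0⟩, 0⟩, 0, 0⟩ 0 0)) (.pos 42 .mp ⟨⟨180102540, 0, 0, 0, 0, 207661066, 0, 0, 0, ⟨0, 0⟩, 0⟩, 0, 0⟩ 0 0))) (.pos 39 .mp ⟨⟨149002988, 0, 0, 0, 0, 266519858, 0, 0, 0, ⟨0, 0⟩, 0⟩, 0, 0⟩ 0 0)) (.cut .s 14227456 (.pos 40 .mp ⟨⟨170615785, 0, 0, 0, 0, 226132217, 0, 0, 0, ⟨0, 0⟩, 0⟩, 0, 0⟩ 0 0) (.pos 40 .mp ⟨⟨171911954, 0, 0, 0, 0, 228276870, 0, 0, 0, ⟨0, 0⟩, 0⟩, 0, 0⟩ 0 0))))) (.cut .s 14278656 (.cut .s 14258176 (.cut .v 16842752 (.cut .l 230687 (.cut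 .d (-8192) (.pos 39 .mp ⟨⟨155708409, 0, 0, 0, 0, 274573103, 0, 0, 0, ⟨0, 0⟩, 0⟩, 0, 0⟩ 0 0) (.cut .v 16809984 (.cut .d (-4096) (.pos 41 .mp ⟨⟨152950797, 0, 0, 0, 0, 274723627, 0, 0, 0, ⟨0, 0⟩, 0⟩, 0, 0⟩ 0 0) (.cut .s 14247936 (.pos 41 .mp ⟨⟨158535353, 0, 0, 0, 0, 256052018, 0, 0, 0, ⟨0, 0⟩, 0⟩, 0, 0⟩ 0 0) (.pos 41 .mp ⟨⟨159966304, 0, 0, 0, 0, 258029927, 0, 0, 0, ⟨0, 0⟩, 0⟩, 0, 0⟩ 0 0))) (.pos 42 .mp ⟨⟨183065248, 0, 0, 0, 0, 211302087, 0, 0, 0, ⟨0, 0⟩, 0⟩, 0, 0⟩ 0 0))) (.pos 39 .mp ⟨⟨151594004, 0, 0, 0, 0, 270948706, 0, 0, 0, ⟨0, 0⟩, 0⟩, 0, 0⟩ 0 0)) (.cut .s 14247936 (.pos 40 .mp ⟨⟨173299456, 0, 0, 0, 0, 230314885, 0, 0, 0, ⟨0, 0⟩, 0⟩,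 0, 0⟩ 0 0) (.pos 40 .mp ⟨⟨174780839, 0, 0, 0, 0, 232241492, 0, 0, 0, ⟨0, 0⟩, 0⟩, 0, 0⟩ 0 0))) (.cut .v 16842752 (.cut .l 230687 (.cut .d (-8192) (.pos 39 .mp ⟨⟨158456049, 0, 0, 0, 0, 279199732, 0, 0, 0, ⟨0, 0⟩, 0⟩, 0, 0⟩ 0 0) (.cut .v 16809984 (.cut .d (-4096) (.pos 41 .mp ⟨⟨155636527, 0, 0, 0, 0, 279329379, 0, 0, 0, ⟨0, 0⟩, 0⟩, 0, 0⟩ 0 0) (.cut .s 14268416 (.pos 41 .mp ⟨⟨161379143, 0, 0, 0, 0, 260136072, 0, 0, 0, ⟨0, 0⟩, 0⟩, 0, 0⟩ 0 0) (.pos 41 .mp ⟨⟨162772508, 0, 0, 0, 0, 262374346, 0, 0, 0, ⟨0, 0⟩, 0⟩, 0, 0⟩ 0 0))) (.pos 42 .mp ⟨⟨186407241, 0, 0, 0, 0, 214488534, 0, 0, 0, ⟨0, 0⟩, 0⟩, 0, 0⟩ 0 0))) (.pos 39 .mp ⟨⟨154240839, 0, 0, 0,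 0, 275474056, 0, 0, 0, ⟨0, 0⟩, 0⟩, 0, 0⟩ 0 0)) (.cut .s 14268416 (.pos 40 .mp ⟨⟨176358689, 0, 0, 0, 0, 234051845, 0, 0, 0, ⟨0, 0⟩, 0⟩, 0, 0⟩ 0 0) (.pos 40 .mp ⟨⟨178035628, 0, 0, 0, 0, 235741022, 0, 0, 0, ⟨0, 0⟩, 0⟩, 0, 0⟩ 0 0)))) (.cut .s 14299136 (.cut .v 16842752 (.cut .l 230687 (.cut .d (-8192) (.pos 39 .mp ⟨⟨161263838, 0, 0, 0, 0, 284096997, 0, 0, 0, ⟨0, 0⟩, 0⟩, 0, 0⟩ 0 0) (.cut .v 16809984 (.cut .s 14288896 (.pos 41 .mp ⟨⟨162164275, 0, 0, 0, 0, 269440478, 0, 0, 0, ⟨0, 0⟩, 0⟩, 0, 0⟩ 0 0) (.pos 41 .mp ⟨⟨163736753, 0, 0, 0, 0, 271447309, 0, 0, 0, ⟨0, 0⟩, 0⟩, 0, 0⟩ 0 0)) (.pos 42 .mp ⟨⟨190149374, 0, 0, 0, 0, 217181261, 0, 0, 0, ⟨0,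 0⟩, 0⟩, 0, 0⟩ 0 0))) (.pos 39 .mp ⟨⟨156944841, 0, 0, 0, 0, 280092340, 0, 0, 0, ⟨0, 0⟩, 0⟩, 0, 0⟩ 0 0)) (.cut .s 14288896 (.pos 40 .mp ⟨⟨179814317, 0, 0, 0, 0, 237304023, 0, 0, 0, ⟨0, 0⟩, 0⟩, 0, 0⟩ 0 0) (.pos 40 .mp ⟨⟨181697456, 0, 0, 0, 0, 238735768, 0, 0, 0, ⟨0, 0⟩, 0⟩, 0, 0⟩ 0 0))) (.cut .v 16842752 (.cut .l 230687 (.cut .d (-8192) (.pos 39 .mp ⟨⟨164133235, 0, 0, 0, 0, 289271860, 0, 0, 0, ⟨0, 0⟩, 0⟩, 0, 0⟩ 0 0) (.cut .v 16809984 (.cut .s 14309376 (.pos 41 .mp ⟨⟨165480670, 0, 0, 0, 0, 273163201, 0, 0, 0, ⟨0, 0⟩, 0⟩, 0, 0⟩ 0 0) (.pos 41 .mp ⟨⟨167498103, 0, 0, 0, 0, 274367871, 0, 0, 0, ⟨0, 0⟩, 0⟩, 0, 0⟩ 0 0)) (.pos 42 .mp ⟨⟨194313119,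 0, 0, 0, 0, 219339871, 0, 0, 0, ⟨0, 0⟩, 0⟩, 0, 0⟩ 0 0))) (.pos 39 .mp ⟨⟨159707397, 0, 0, 0, 0, 284799902, 0, 0, 0, ⟨0, 0⟩, 0⟩, 0, 0⟩ 0 0)) (.cut .s 14309376 (.pos 40 .mp ⟨⟨183687787, 0, 0, 0, 0, 240031096, 0, 0, 0, ⟨0, 0⟩, 0⟩, 0, 0⟩ 0 0) (.pos 40 .mp ⟨⟨185788090, 0, 0, 0, 0, 241184763, 0, 0, 0, ⟨0, 0⟩, 0⟩, 0, 0⟩ 0 0)))))) (.pos 36 .mp ⟨⟨292363062, 0, 0, 0, 0, 0, 0, 0, 0, ⟨0, 0⟩, 0⟩, 0, 0⟩ 0 0))) (.pos 34 .mp ⟨⟨320763528, 0, 0, 0, 0, 0, 0, 0, 0, ⟨0, 0⟩, 0⟩, 0, 0⟩ 0 0)))))) (.void 32 ⟨⟨100000, 0, 0, 0, 0, 0, 0, 0, 0, ⟨0, 0⟩, 0⟩, 0, 0⟩ 0 0))) (.void 30 ⟨⟨100000, 0, 0, 0, 0, 0, 0, 0, 0, ⟨0, 0⟩, 0⟩, 0, 0⟩ 0 0))) (.void 28 ⟨⟨100000, 0, 0,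 0, 0, 0, 0, 0, 0, ⟨0, 0⟩, 0⟩, 0, 0⟩ 0 0))) (.void 26 ⟨⟨100000, 0, 0, 0, 0, 0, 0, 0, 0, ⟨0, 0⟩, 0⟩, 0, 0⟩ 0 0))) (.void 24 ⟨⟨100000, 0, 0, 0, 0, 0, 0, 0, 0, ⟨0, 0⟩, 0⟩, 0, 0⟩ 0 0))) (.void 73 ⟨⟨100000, 0, 0, 0, 0, 0, 0, 0, 0, ⟨0, 0⟩, 0⟩, 0, 0⟩ 0 0)) (.void 84 ⟨⟨100000, 0, 0, 0, 0, 0, 0, 0, 0, ⟨0, 0⟩, 0⟩, 0, 0⟩ 0 0)) (.void 93 ⟨⟨91338, 0, 0, 8662, 0, 0, 0, 0, 0, ⟨0, 0⟩, 0⟩, 0, 0⟩ 0 0))) (.cut .v 16777216 (.cut .v 8388608 (.cut .v 4194304 (.cut .v 2097152 (.cut .v 1048576 (.pos 89 .pm ⟨⟨0, 0, 19036962, 0, 0, 0, 0, 0, 0, ⟨0, 0⟩, 0⟩, 0, 21841⟩ 0 0) (.pos 90 .pm ⟨⟨0, 0, 14251601, 0, 0, 0, 0, 0, 0, ⟨0, 0⟩, 0⟩, 0, 60670⟩ 0 0)) (.pos 88 .pm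 ⟨⟨0, 0, 12845058, 0, 0, 0, 0, 0, 0, ⟨0, 0⟩, 0⟩, 0, 78005⟩ 0 0)) (.pos 5 .pm ⟨⟨0, 0, 15480334, 0, 0, 0, 0, 0, 0, ⟨0, 0⟩, 0⟩, 0, 109207⟩ 0 0)) (.pos 3 .pm ⟨⟨0, 0, 0, 0, 0, 0, 0, 0, 0, ⟨0, 0⟩, 0⟩, 0, 0⟩ 0 0)) (.cut .v 268435456 (.cut .v 67108864 (.cut .d 1553447 (.cut .v 33554432 (.cut .d 776723 (.cut .v 25165824 (.cut .d 388361 (.cut .v 20971520 (.cut .v 18874368 (.pos 27 .pp ⟨⟨118199563, 0, 0, 0, 0, 0, 0, 0, 0, ⟨0, 0⟩, 0⟩, 27671922, 0⟩ 0 0) (.pos 28 .pp ⟨⟨328731756, 0, 0, 0, 0, 0, 0, 0, 0, ⟨0, 0⟩, 0⟩, 0, 0⟩ 0 0)) (.pos 26 .pp ⟨⟨448141714, 0, 0, 0, 0, 0, 0, 0, 0, ⟨0, 0⟩, 0⟩, 0, 0⟩ 0 0)) (.pos 23 .pp ⟨⟨0, 0, 0, 0, 0, 0, 0, 0, 0, ⟨0, 0⟩,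 0⟩, 21793941, 264507⟩ 0 0)) (.pos 24 .pp ⟨⟨0, 0, 0, 0, 0, 0, 0, 0, 0, ⟨0, 0⟩, 0⟩, 106658165, 0⟩ 0 0)) (.pos 22 .pp ⟨⟨0, 0, 0, 0, 0, 0, 0, 0, 0, ⟨0, 0⟩, 0⟩, 11737610, 263149⟩ 0 0)) (.cut .d 776723 (.pos 73 .pp ⟨⟨0, 0, 0, 0, 0, 0, 0, 0, 0, ⟨0, 0⟩, 0⟩, 217924683, 0⟩ 0 0) (.pos 73 .pp ⟨⟨0, 0, 0, 0, 0, 0, 0, 0, 0, ⟨0, 0⟩, 0⟩, 124075126, 0⟩ 0 0))) (.pos 72 .pp ⟨⟨0, 0, 0, 0, 0, 0, 0, 0, 0, ⟨0, 0⟩, 0⟩, 0, 313018⟩ 0 0)) (.void 84 ⟨⟨0, 0, 0, 49589, 0, 0, 0, 0, 0, ⟨0, 0⟩, 0⟩, 50411, 0⟩ 0 0)) (.void 93 ⟨⟨0, 0, 0, 0, 0, 0, 0, 0, 0, ⟨0, 0⟩, 0⟩, 100000, 0⟩ 0 0)))),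
    by decide +kernel⟩

def covers28 : cell.Covers Vale.Agent.P237.Petty.Cor.Grid.N8.table row28.1 :=
  ⟨(.cut .d 0 (.cut .v 16777216 (.cut .v 8388608 (.void 2 ⟨⟨0, 0, 100000, 0, 0, 0, 0, 0, 0, ⟨0, 0⟩, 0⟩, 0, 0⟩ 0 0) (.cut .d (-8388608) (.void 3 ⟨⟨100000, 0, 0, 0, 0, 0, 0, 0, 0, ⟨0, 0⟩, 0⟩, 0, 0⟩ 0 0) (.cut .d (-4194304) (.void 3 ⟨⟨100000, 0, 0, 0, 0, 0, 0, 0, 0, ⟨0, 0⟩, 0⟩, 0, 0⟩ 0 0) (.cut .d (-2097152) (.void 3 ⟨⟨69569, 0, 30431, 0, 0, 0, 0, 0, 0, ⟨0, 0⟩, 0⟩, 0, 0⟩ 0 0) (.cut .d (-1048576) (.void 3 ⟨⟨0, 0, 0, 0, 0, 100000, 0, 0, 0, ⟨0, 0⟩, 0⟩, 0, 0⟩ 0 0) (.cut .d (-524288) (.void 3 ⟨⟨0, 0, 0, 0, 0, 100000, 0, 0, 0, ⟨0, 0⟩, 0⟩, 0,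 0⟩ 0 0) (.cut .d (-262144) (.void 3 ⟨⟨0, 0, 0, 0, 0, 100000, 0, 0, 0, ⟨0, 0⟩, 0⟩, 0, 0⟩ 0 0) (.cut .s 14401536 (.pos 3 .mm ⟨⟨0, 0, 0, 0, 0, 633281597, 0, 0, 0, ⟨0, 0⟩, 0⟩, 0, 0⟩ 0 0) (.pos 3 .mm ⟨⟨0, 0, 0, 0, 0, 682626108, 0, 0, 0, ⟨0, 0⟩, 0⟩, 0, 0⟩ 0 0))))))))) (.cut .v 268435456 (.cut .v 67108864 (.cut .v 33554432 (.cut .d (-8388608) (.void 22 ⟨⟨100000, 0, 0, 0, 0, 0, 0, 0, 0, ⟨0, 0⟩, 0⟩, 0, 0⟩ 0 0) (.cut .v 25165824 (.cut .d (-4194304) (.void 23 ⟨⟨100000, 0, 0, 0, 0, 0, 0, 0, 0, ⟨0, 0⟩, 0⟩, 0, 0⟩ 0 0) (.cut .v 20971520 (.cut .d (-2097152) (.void 25 ⟨⟨100000, 0, 0, 0, 0, 0, 0, 0, 0, ⟨0, 0⟩, 0⟩, 0, 0⟩ 0 0) (.cut .v 18874368 (.cut .d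 (-1048576) (.void 27 ⟨⟨100000, 0, 0, 0, 0, 0, 0, 0, 0, ⟨0, 0⟩, 0⟩, 0, 0⟩ 0 0) (.cut .v 17825792 (.cut .d (-524288) (.void 29 ⟨⟨100000, 0, 0, 0, 0, 0, 0, 0, 0, ⟨0, 0⟩, 0⟩, 0, 0⟩ 0 0) (.cut .v 17301504 (.cut .d (-262144) (.void 31 ⟨⟨100000, 0, 0, 0, 0, 0, 0, 0, 0, ⟨0, 0⟩, 0⟩, 0, 0⟩ 0 0) (.cut .d (-131072) (.void 31 ⟨⟨100000, 0, 0, 0, 0, 0, 0, 0, 0, ⟨0, 0⟩, 0⟩, 0, 0⟩ 0 0) (.cut .v 17039360 (.cut .d (-65536) (.void 33 ⟨⟨100000, 0, 0, 0, 0, 0, 0, 0, 0, ⟨0, 0⟩, 0⟩, 0, 0⟩ 0 0) (.cut .d (-32768) (.void 33 ⟨⟨0, 0, 0, 0, 0, 100000, 0, 0, 0, ⟨0, 0⟩, 0⟩, 0, 0⟩ 0 0) (.cut .d (-16384) (.cut .v 16908288 (.cut .d (-24576) (.void 35 ⟨⟨0, 0, 0, 0, 0,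 100000, 0, 0, 0, ⟨0, 0⟩, 0⟩, 0, 0⟩ 0 0) (.cut .d (-20480) (.void 35 ⟨⟨0, 0, 0, 0, 0, 100000, 0, 0, 0, ⟨0, 0⟩, 0⟩, 0, 0⟩ 0 0) (.cut .d (-18432) (.pos 35 .mp ⟨⟨169572406, 0, 0, 0, 0, 381459293, 0, 0, 0, ⟨0, 0⟩, 0⟩, 0, 0⟩ 0 0) (.cut .v 16842752 (.pos 39 .mp ⟨⟨0, 0, 0, 0, 0, 739666403, 0, 0, 0, ⟨0, 0⟩, 0⟩, 0, 0⟩ 0 0) (.cut .l 230687 (.void 40 ⟨⟨100000, 0, 0, 0, 0, 0, 0, 0, 0, ⟨0, 0⟩, 0⟩, 0, 0⟩ 0 0) (.cut .s 14401536 (.cut .s 14360576 (.pos 40 .mp ⟨⟨169944120, 0, 0, 0, 0, 301021320, 0, 0, 0, ⟨0, 0⟩, 0⟩, 0, 0⟩ 0 0) (.pos 40 .mp ⟨⟨176204623, 0, 0, 0, 0, 310214025, 0, 0, 0, ⟨0, 0⟩, 0⟩, 0, 0⟩ 0 0)) (.pos 40 .mp ⟨⟨182755984, 0, 0, 0, 0, 342827028,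 0, 0, 0, ⟨0, 0⟩, 0⟩, 0, 0⟩ 0 0))))))) (.pos 36 .mp ⟨⟨377558412, 0, 0, 0, 0, 0, 0, 0, 0, ⟨0, 0⟩, 0⟩, 0, 0⟩ 0 0)) (.cut .v 16908288 (.cut .s 14401536 (.cut .s 14360576 (.cut .s 14340096 (.cut .v 16842752 (.cut .l 230687 (.cut .d (-8192) (.pos 39 .mp ⟨⟨167066161, 0, 0, 0, 0, 294744157, 0, 0, 0, ⟨0, 0⟩, 0⟩, 0, 0⟩ 0 0) (.cut .v 16809984 (.cut .s 14329856 (.pos 41 .mp ⟨⟨169606953, 0, 0, 0, 0, 275458258, 0, 0, 0, ⟨0, 0⟩, 0⟩, 0, 0⟩ 0 0) (.pos 41 .mp ⟨⟨170193707, 0, 0, 0, 0, 279570853, 0, 0, 0, ⟨0, 0⟩, 0⟩, 0, 0⟩ 0 0)) (.pos 42 .mp ⟨⟨198926241, 0, 0, 0, 0, 220923279, 0, 0, 0, ⟨0, 0⟩, 0⟩, 0, 0⟩ 0 0))) (.pos 39 .mp ⟨⟨162530300, 0, 0, 0, 0, 290377819,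 0, 0, 0, ⟨0, 0⟩, 0⟩, 0, 0⟩ 0 0)) (.cut .s 14329856 (.pos 40 .mp ⟨⟨187975461, 0, 0, 0, 0, 242245643, 0, 0, 0, ⟨0, 0⟩, 0⟩, 0, 0⟩ 0 0) (.pos 40 .mp ⟨⟨189069794, 0, 0, 0, 0, 245210735, 0, 0, 0, ⟨0, 0⟩, 0⟩, 0, 0⟩ 0 0))) (.cut .v 16842752 (.cut .l 230687 (.cut .d (-8192) (.pos 39 .mp ⟨⟨170072665, 0, 0, 0, 0, 299199632, 0, 0, 0, ⟨0, 0⟩, 0⟩, 0, 0⟩ 0 0) (.cut .v 16809984 (.cut .s 14350336 (.pos 41 .mp ⟨⟨171072994, 0, 0, 0, 0, 283144862, 0, 0, 0, ⟨0, 0⟩, 0⟩, 0, 0⟩ 0 0) (.cut .s 14355456 (.pos 41 .mp ⟨⟨177406618, 0, 0, 0, 0, 273868379, 0, 0, 0, ⟨0, 0⟩, 0⟩, 0, 0⟩ 0 0) (.pos 41 .mp ⟨⟨178048357, 0, 0, 0, 0, 275265319, 0, 0, 0, ⟨0, 0⟩, 0⟩, 0, 0⟩ 0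 0))) (.pos 42 .mp ⟨⟨201572590, 0, 0, 0, 0, 226058026, 0, 0, 0, ⟨0, 0⟩, 0⟩, 0, 0⟩ 0 0))) (.pos 39 .mp ⟨⟨165423506, 0, 0, 0, 0, 295296454, 0, 0, 0, ⟨0, 0⟩, 0⟩, 0, 0⟩ 0 0)) (.cut .s 14350336 (.pos 40 .mp ⟨⟨190263039, 0, 0, 0, 0, 248070303, 0, 0, 0, ⟨0, 0⟩, 0⟩, 0, 0⟩ 0 0) (.pos 40 .mp ⟨⟨191558357, 0, 0, 0, 0, 250818437, 0, 0, 0, ⟨0, 0⟩, 0⟩, 0, 0⟩ 0 0)))) (.cut .s 14381056 (.cut .v 16842752 (.cut .l 230687 (.cut .d (-8192) (.pos 39 .mp ⟨⟨173148334, 0, 0, 0, 0, 303970264, 0, 0, 0, ⟨0, 0⟩, 0⟩, 0, 0⟩ 0 0) (.cut .v 16809984 (.cut .d (-4096) (.pos 41 .mp ⟨⟨169991939, 0, 0, 0, 0, 303948282, 0, 0, 0, ⟨0, 0⟩, 0⟩, 0, 0⟩ 0 0) (.cut .s 14370816 (.pos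 41 .mp ⟨⟨176406291, 0, 0, 0, 0, 282290232, 0, 0, 0, ⟨0, 0⟩, 0⟩, 0, 0⟩ 0 0) (.pos 41 .mp ⟨⟨177993090, 0, 0, 0, 0, 284581852, 0, 0, 0, ⟨0, 0⟩, 0⟩, 0, 0⟩ 0 0))) (.pos 42 .mp ⟨⟨204632565, 0, 0, 0, 0, 230734666, 0, 0, 0, ⟨0, 0⟩, 0⟩, 0, 0⟩ 0 0))) (.pos 39 .mp ⟨⟨168382230, 0, 0, 0, 0, 300350991, 0, 0, 0, ⟨0, 0⟩, 0⟩, 0, 0⟩ 0 0)) (.cut .s 14370816 (.pos 40 .mp ⟨⟨192958955, 0, 0, 0, 0, 253449134, 0, 0, 0, ⟨0, 0⟩, 0⟩, 0, 0⟩ 0 0) (.pos 40 .mp ⟨⟨194468092, 0, 0, 0, 0, 255956288, 0, 0, 0, ⟨0, 0⟩, 0⟩, 0, 0⟩ 0 0))) (.cut .v 16842752 (.cut .l 230687 (.cut .d (-8192) (.pos 39 .mp ⟨⟨176294904, 0, 0, 0, 0, 309064447, 0, 0, 0, ⟨0, 0⟩, 0⟩, 0, 0⟩ 0 0) (.cut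 .s 14391296 (.cut .s 14386176 (.pos 39 .mp ⟨⟨182060109, 0, 0, 0, 0, 280993633, 0, 0, 0, ⟨0, 0⟩, 0⟩, 0, 0⟩ 0 0) (.pos 39 .mp ⟨⟨182883984, 0, 0, 0, 0, 282165906, 0, 0, 0, ⟨0, 0⟩, 0⟩, 0, 0⟩ 0 0)) (.cut .s 14396416 (.pos 39 .mp ⟨⟨183712664, 0, 0, 0, 0, 283351934, 0, 0, 0, ⟨0, 0⟩, 0⟩, 0, 0⟩ 0 0) (.pos 39 .mp ⟨⟨184546179, 0, 0, 0, 0, 284551724, 0, 0, 0, ⟨0, 0⟩, 0⟩, 0, 0⟩ 0 0)))) (.cut .s 14391296 (.pos 39 .mp ⟨⟨171408122, 0, 0, 0, 0, 303071501, 0, 0, 0, ⟨0, 0⟩, 0⟩, 0, 0⟩ 0 0) (.pos 39 .mp ⟨⟨172946785, 0, 0, 0, 0, 305697095, 0, 0, 0, ⟨0, 0⟩, 0⟩, 0, 0⟩ 0 0))) (.cut .s 14391296 (.pos 40 .mp ⟨⟨196089074, 0, 0, 0, 0, 258333697, 0, 0, 0, ⟨0, 0⟩,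 0⟩, 0, 0⟩ 0 0) (.pos 40 .mp ⟨⟨197825259, 0, 0, 0, 0, 260575053, 0, 0, 0, ⟨0, 0⟩, 0⟩, 0, 0⟩ 0 0))))) (.cut .s 14442496 (.cut .s 14422016 (.cut .v 16842752 (.cut .l 230687 (.cut .d (-8192) (.pos 39 .mp ⟨⟨179514174, 0, 0, 0, 0, 314490861, 0, 0, 0, ⟨0, 0⟩, 0⟩, 0, 0⟩ 0 0) (.cut .s 14411776 (.cut .s 14406656 (.pos 39 .mp ⟨⟨185384561, 0, 0, 0, 0, 285765284, 0, 0, 0, ⟨0, 0⟩, 0⟩, 0, 0⟩ 0 0) (.pos 39 .mp ⟨⟨186227839, 0, 0, 0, 0, 286992620, 0, 0, 0, ⟨0, 0⟩, 0⟩, 0, 0⟩ 0 0)) (.cut .s 14416896 (.pos 39 .mp ⟨⟨187076045, 0, 0, 0, 0, 288233739, 0, 0, 0, ⟨0, 0⟩, 0⟩, 0, 0⟩ 0 0) (.pos 39 .mp ⟨⟨187929212, 0, 0, 0, 0, 289488645, 0, 0, 0, ⟨0, 0⟩, 0⟩, 0, 0⟩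 0 0)))) (.cut .s 14411776 (.pos 39 .mp ⟨⟨174502884, 0, 0, 0, 0, 308354089, 0, 0, 0, ⟨0, 0⟩, 0⟩, 0, 0⟩ 0 0) (.pos 39 .mp ⟨⟨176076641, 0, 0, 0, 0, 311041899, 0, 0, 0, ⟨0, 0⟩, 0⟩, 0, 0⟩ 0 0))) (.cut .s 14411776 (.pos 40 .mp ⟨⟨199680056, 0, 0, 0, 0, 262673945, 0, 0, 0, ⟨0, 0⟩, 0⟩, 0, 0⟩ 0 0) (.pos 40 .mp ⟨⟨201656929, 0, 0, 0, 0, 264623851, 0, 0, 0, ⟨0, 0⟩, 0⟩, 0, 0⟩ 0 0))) (.cut .v 16842752 (.cut .l 230687 (.cut .d (-8192) (.pos 39 .mp ⟨⟨182808004, 0, 0, 0, 0, 320258488, 0, 0, 0, ⟨0, 0⟩, 0⟩, 0, 0⟩ 0 0) (.cut .s 14432256 (.cut .s 14427136 (.pos 39 .mp ⟨⟨188787369, 0, 0, 0, 0, 290757346, 0, 0, 0, ⟨0, 0⟩, 0⟩, 0, 0⟩ 0 0) (.pos 39 .mp ⟨⟨189650551,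 0, 0, 0, 0, 292039846, 0, 0, 0, ⟨0, 0⟩, 0⟩, 0, 0⟩ 0 0)) (.cut .s 14437376 (.pos 39 .mp ⟨⟨190518788, 0, 0, 0, 0, 293336151, 0, 0, 0, ⟨0, 0⟩, 0⟩, 0, 0⟩ 0 0) (.pos 39 .mp ⟨⟨191392114, 0, 0, 0, 0, 294646265, 0, 0, 0, ⟨0, 0⟩, 0⟩, 0, 0⟩ 0 0)))) (.pos 39 .mp ⟨⟨177668281, 0, 0, 0, 0, 316285333, 0, 0, 0, ⟨0, 0⟩, 0⟩, 0, 0⟩ 0 0)) (.cut .s 14432256 (.pos 40 .mp ⟨⟨203759395, 0, 0, 0, 0, 266418144, 0, 0, 0, ⟨0, 0⟩, 0⟩, 0, 0⟩ 0 0) (.pos 40 .mp ⟨⟨205991025, 0, 0, 0, 0, 268050082, 0, 0, 0, ⟨0, 0⟩, 0⟩, 0, 0⟩ 0 0)))) (.cut .s 14462976 (.cut .v 16842752 (.cut .l 230687 (.cut .d (-8192) (.pos 39 .mp ⟨⟨186178318, 0, 0, 0, 0, 326376621, 0, 0, 0, ⟨0, 0⟩, 0⟩,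 0, 0⟩ 0 0) (.cut .l 115343 (.cut .d (-4096) (.pos 39 .mp ⟨⟨186842731, 0, 0, 0, 0, 326122546, 0, 0, 0, ⟨0, 0⟩, 0⟩, 0, 0⟩ 0 0) (.cut .s 14452736 (.pos 39 .mp ⟨⟨190472122, 0, 0, 0, 0, 300637117, 0, 0, 0, ⟨0, 0⟩, 0⟩, 0, 0⟩ 0 0) (.pos 39 .mp ⟨⟨192220354, 0, 0, 0, 0, 303390057, 0, 0, 0, ⟨0, 0⟩, 0⟩, 0, 0⟩ 0 0))) (.pos 39 .mp ⟨⟨192276824, 0, 0, 0, 0, 296279302, 0, 0, 0, ⟨0, 0⟩, 0⟩, 0, 0⟩ 0 0))) (.pos 39 .mp ⟨⟨180906137, 0, 0, 0, 0, 321838234, 0, 0, 0, ⟨0, 0⟩, 0⟩, 0, 0⟩ 0 0)) (.cut .s 14452736 (.pos 40 .mp ⟨⟨208355449, 0, 0, 0, 0, 269512809, 0, 0, 0, ⟨0, 0⟩, 0⟩, 0, 0⟩ 0 0) (.pos 40 .mp ⟨⟨210856354, 0, 0, 0, 0, 270799352, 0, 0, 0, ⟨0, 0⟩, 0⟩,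 0, 0⟩ 0 0))) (.cut .v 16842752 (.cut .l 230687 (.cut .d (-8192) (.pos 39 .mp ⟨⟨189627109, 0, 0, 0, 0, 332854885, 0, 0, 0, ⟨0, 0⟩, 0⟩, 0, 0⟩ 0 0) (.cut .v 16809984 (.cut .s 14473216 (.pos 41 .mp ⟨⟨190757979, 0, 0, 0, 0, 313787047, 0, 0, 0, ⟨0, 0⟩, 0⟩, 0, 0⟩ 0 0) (.pos 41 .mp ⟨⟨193450434, 0, 0, 0, 0, 314706305, 0, 0, 0, ⟨0, 0⟩, 0⟩, 0, 0⟩ 0 0)) (.pos 42 .mp ⟨⟨227072343, 0, 0, 0, 0, 245488628, 0, 0, 0, ⟨0, 0⟩, 0⟩, 0, 0⟩ 0 0))) (.pos 39 .mp ⟨⟨184218343, 0, 0, 0, 0, 327503837, 0, 0, 0, ⟨0, 0⟩, 0⟩, 0, 0⟩ 0 0)) (.cut .s 14473216 (.pos 40 .mp ⟨⟨213497486, 0, 0, 0, 0, 271902619, 0, 0, 0, ⟨0, 0⟩, 0⟩, 0, 0⟩ 0 0) (.pos 40 .mp ⟨⟨216282652, 0, 0,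 0, 0, 272815393, 0, 0, 0, ⟨0, 0⟩, 0⟩, 0, 0⟩ 0 0)))))) (.pos 36 .mp ⟨⟨335501130, 0, 0, 0, 0, 0, 0, 0, 0, ⟨0, 0⟩, 0⟩, 0, 0⟩ 0 0))))) (.pos 34 .mp ⟨⟨390020717, 0, 0, 0, 0, 0, 0, 0, 0, ⟨0, 0⟩, 0⟩, 0, 0⟩ 0 0)))) (.void 32 ⟨⟨100000, 0, 0, 0, 0, 0, 0, 0, 0, ⟨0, 0⟩, 0⟩, 0, 0⟩ 0 0))) (.void 30 ⟨⟨100000, 0, 0, 0, 0, 0, 0, 0, 0, ⟨0, 0⟩, 0⟩, 0, 0⟩ 0 0))) (.void 28 ⟨⟨100000, 0, 0, 0, 0, 0, 0, 0, 0, ⟨0, 0⟩, 0⟩, 0, 0⟩ 0 0))) (.void 26 ⟨⟨100000, 0, 0, 0, 0, 0, 0, 0, 0, ⟨0, 0⟩, 0⟩, 0, 0⟩ 0 0))) (.void 24 ⟨⟨100000, 0, 0, 0, 0, 0, 0, 0, 0, ⟨0, 0⟩, 0⟩, 0, 0⟩ 0 0))) (.void 73 ⟨⟨100000, 0, 0, 0, 0, 0, 0, 0, 0, ⟨0, 0⟩, 0⟩, 0, 0⟩ 0 0)) (.void 84 ⟨⟨100000,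 0, 0, 0, 0, 0, 0, 0, 0, ⟨0, 0⟩, 0⟩, 0, 0⟩ 0 0)) (.void 93 ⟨⟨91248, 0, 0, 8752, 0, 0, 0, 0, 0, ⟨0, 0⟩, 0⟩, 0, 0⟩ 0 0))) (.cut .v 16777216 (.cut .v 8388608 (.cut .v 4194304 (.cut .v 2097152 (.cut .v 1048576 (.pos 89 .pm ⟨⟨0, 0, 19632009, 0, 0, 0, 0, 0, 0, ⟨0, 0⟩, 0⟩, 0, 18817⟩ 0 0) (.pos 90 .pm ⟨⟨0, 0, 16483171, 0, 0, 0, 0, 0, 0, ⟨0, 0⟩, 0⟩, 0, 52269⟩ 0 0)) (.pos 88 .pm ⟨⟨0, 0, 15980110, 0, 0, 0, 0, 0, 0, ⟨0, 0⟩, 0⟩, 0, 67202⟩ 0 0)) (.pos 5 .pm ⟨⟨0, 0, 21059228, 0, 0, 0, 0, 0, 0, ⟨0, 0⟩, 0⟩, 0, 94083⟩ 0 0)) (.pos 3 .pm ⟨⟨0, 0, 0, 0, 0, 0, 0, 0, 0, ⟨0, 0⟩, 0⟩, 0, 0⟩ 0 0)) (.cut .v 268435456 (.cut .v 67108864 (.cut .d 1439693 (.cut .v 33554432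 (.cut .d 719846 (.cut .v 25165824 (.cut .d 359923 (.cut .v 20971520 (.cut .v 18874368 (.pos 27 .pp ⟨⟨140842635, 0, 0, 0, 0, 0, 0, 0, 0, ⟨0, 0⟩, 0⟩, 30492663, 0⟩ 0 0) (.pos 28 .pp ⟨⟨374686787, 0, 0, 0, 0, 0, 0, 0, 0, ⟨0, 0⟩, 0⟩, 0, 0⟩ 0 0)) (.pos 26 .pp ⟨⟨510095914, 0, 0, 0, 0, 0, 0, 0, 0, ⟨0, 0⟩, 0⟩, 0, 0⟩ 0 0)) (.pos 23 .pp ⟨⟨0, 0, 0, 0, 0, 0, 0, 0, 0, ⟨0, 0⟩, 0⟩, 25743635, 227091⟩ 0 0)) (.pos 24 .pp ⟨⟨0, 0, 0, 0, 0, 0, 0, 0, 0, ⟨0, 0⟩, 0⟩, 121079691, 0⟩ 0 0)) (.pos 22 .pp ⟨⟨0, 0, 0, 0, 0, 0, 0, 0, 0, ⟨0, 0⟩, 0⟩, 14888718, 224556⟩ 0 0)) (.cut .d 719846 (.pos 73 .pp ⟨⟨0, 0, 0, 0, 0, 0, 0, 0, 0, ⟨0, 0⟩, 0⟩, 246738260, 0⟩ 0 0) (.pos 73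 .pp ⟨⟨0, 0, 0, 0, 0, 0, 0, 0, 0, ⟨0, 0⟩, 0⟩, 138716468, 0⟩ 0 0))) (.pos 72 .pp ⟨⟨0, 0, 0, 0, 0, 0, 0, 0, 0, ⟨0, 0⟩, 0⟩, 0, 272992⟩ 0 0)) (.void 84 ⟨⟨0, 0, 0, 49691, 0, 0, 0, 0, 0, ⟨0, 0⟩, 0⟩, 50156, 0⟩ 0 0)) (.void 93 ⟨⟨0, 0, 0, 0, 0, 0, 0, 0, 0, ⟨0, 0⟩, 0⟩, 100000, 0⟩ 0 0)))),
    by decide +kernel⟩

def covers29 : cell.Covers Vale.Agent.P237.Petty.Cor.Grid.N8.table row29.1 :=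
  ⟨(.cut .d 0 (.cut .v 16777216 (.cut .v 8388608 (.void 2 ⟨⟨0, 0, 100000, 0, 0, 0, 0, 0, 0, ⟨0, 0⟩, 0⟩, 0, 0⟩ 0 0) (.cut .d (-8388608) (.void 3 ⟨⟨100000, 0, 0, 0, 0, 0, 0, 0, 0, ⟨0, 0⟩, 0⟩, 0, 0⟩ 0 0) (.cut .d (-4194304) (.void 3 ⟨⟨100000, 0, 0, 0, 0, 0, 0, 0, 0, ⟨0, 0⟩, 0⟩, 0, 0⟩ 0 0) (.cut .d (-2097152) (.void 3 ⟨⟨69381, 0, 30619, 0, 0, 0, 0, 0, 0, ⟨0, 0⟩, 0⟩, 0, 0⟩ 0 0) (.cut .d (-1048576) (.void 3 ⟨⟨0, 0, 0, 0, 0, 100000, 0, 0, 0, ⟨0, 0⟩, 0⟩, 0, 0⟩ 0 0) (.cut .d (-524288) (.void 3 ⟨⟨0, 0, 0, 0, 0, 100000, 0, 0, 0, ⟨0, 0⟩, 0⟩, 0, 0⟩ 0 0) (.cut .d (-262144) (.void 3 ⟨⟨0, 0, 0, 0, 0, 100000, 0, 0, 0, ⟨0, 0⟩, 0⟩, 0, 0⟩ 0 0) (.cut .s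 14565376 (.pos 3 .mm ⟨⟨0, 0, 0, 0, 0, 737283967, 0, 0, 0, ⟨0, 0⟩, 0⟩, 0, 0⟩ 0 0) (.pos 3 .mm ⟨⟨0, 0, 0, 0, 0, 797439398, 0, 0, 0, ⟨0, 0⟩, 0⟩, 0, 0⟩ 0 0))))))))) (.cut .v 268435456 (.cut .v 67108864 (.cut .v 33554432 (.cut .d (-8388608) (.void 22 ⟨⟨100000, 0, 0, 0, 0, 0, 0, 0, 0, ⟨0, 0⟩, 0⟩, 0, 0⟩ 0 0) (.cut .v 25165824 (.cut .d (-4194304) (.void 23 ⟨⟨100000, 0, 0, 0, 0, 0, 0, 0, 0, ⟨0, 0⟩, 0⟩, 0, 0⟩ 0 0) (.cut .v 20971520 (.cut .d (-2097152) (.void 25 ⟨⟨100000, 0, 0, 0, 0, 0, 0, 0, 0, ⟨0, 0⟩, 0⟩, 0, 0⟩ 0 0) (.cut .v 18874368 (.cut .d (-1048576) (.void 27 ⟨⟨100000, 0, 0, 0, 0, 0, 0, 0, 0, ⟨0, 0⟩, 0⟩, 0, 0⟩ 0 0) (.cut .v 17825792 (.cut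 .d (-524288) (.void 29 ⟨⟨100000, 0, 0, 0, 0, 0, 0, 0, 0, ⟨0, 0⟩, 0⟩, 0, 0⟩ 0 0) (.cut .d (-262144) (.void 29 ⟨⟨100000, 0, 0, 0, 0, 0, 0, 0, 0, ⟨0, 0⟩, 0⟩, 0, 0⟩ 0 0) (.cut .v 17301504 (.cut .d (-131072) (.void 31 ⟨⟨100000, 0, 0, 0, 0, 0, 0, 0, 0, ⟨0, 0⟩, 0⟩, 0, 0⟩ 0 0) (.cut .v 17039360 (.cut .d (-65536) (.void 33 ⟨⟨100000, 0, 0, 0, 0, 0, 0, 0, 0, ⟨0, 0⟩, 0⟩, 0, 0⟩ 0 0) (.cut .d (-32768) (.void 33 ⟨⟨100000, 0, 0, 0, 0, 0, 0, 0, 0, ⟨0, 0⟩, 0⟩, 0, 0⟩ 0 0) (.cut .d (-16384) (.cut .v 16908288 (.pos 35 .mp ⟨⟨195062582, 0, 0, 0, 0, 443191823, 0, 0, 0, ⟨0, 0⟩, 0⟩, 0, 0⟩ 0 0) (.void 36 ⟨⟨100000, 0, 0, 0, 0, 0, 0, 0, 0, ⟨0, 0⟩, 0⟩, 0, 0⟩ 0 0))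 (.cut .v 16908288 (.cut .s 14565376 (.cut .s 14524416 (.cut .s 14503936 (.cut .v 16842752 (.cut .d (-8192) (.pos 39 .mp ⟨⟨187789957, 0, 0, 0, 0, 345120226, 0, 0, 0, ⟨0, 0⟩, 0⟩, 0, 0⟩ 0 0) (.cut .l 230687 (.cut .v 16809984 (.cut .s 14493696 (.pos 41 .mp ⟨⟨196253133, 0, 0, 0, 0, 315493000, 0, 0, 0, ⟨0, 0⟩, 0⟩, 0, 0⟩ 0 0) (.pos 41 .mp ⟨⟨196762663, 0, 0, 0, 0, 320823697, 0, 0, 0, ⟨0, 0⟩, 0⟩, 0, 0⟩ 0 0)) (.pos 42 .mp ⟨⟨233195092, 0, 0, 0, 0, 246339284, 0, 0, 0, ⟨0, 0⟩, 0⟩, 0, 0⟩ 0 0)) (.pos 39 .mp ⟨⟨196783191, 0, 0, 0, 0, 0, 0, 0, 0, ⟨0, 0⟩, 0⟩, 0, 0⟩ 0 0))) (.cut .s 14493696 (.pos 40 .mp ⟨⟨219178137, 0, 0, 0, 0, 273610086, 0, 0, 0, ⟨0,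 0⟩, 0⟩, 0, 0⟩ 0 0) (.pos 40 .mp ⟨⟨220342911, 0, 0, 0, 0, 277439472, 0, 0, 0, ⟨0, 0⟩, 0⟩, 0, 0⟩ 0 0))) (.cut .v 16842752 (.cut .l 230687 (.cut .d (-8192) (.pos 39 .mp ⟨⟨197464558, 0, 0, 0, 0, 342949385, 0, 0, 0, ⟨0, 0⟩, 0⟩, 0, 0⟩ 0 0) (.cut .v 16809984 (.cut .s 14514176 (.pos 41 .mp ⟨⟨197634975, 0, 0, 0, 0, 325488439, 0, 0, 0, ⟨0, 0⟩, 0⟩, 0, 0⟩ 0 0) (.cut .s 14519296 (.pos 41 .mp ⟨⟨205089073, 0, 0, 0, 0, 314508077, 0, 0, 0, ⟨0, 0⟩, 0⟩, 0, 0⟩ 0 0) (.pos 41 .mp ⟨⟨205800931, 0, 0, 0, 0, 316295357, 0, 0, 0, ⟨0, 0⟩, 0⟩, 0, 0⟩ 0 0))) (.pos 42 .mp ⟨⟨236143532, 0, 0, 0, 0, 252916020, 0, 0, 0, ⟨0, 0⟩, 0⟩, 0, 0⟩ 0 0))) (.pos 39 .mp ⟨⟨191088172,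 0, 0, 0, 0, 340332365, 0, 0, 0, ⟨0, 0⟩, 0⟩, 0, 0⟩ 0 0)) (.cut .s 14514176 (.pos 40 .mp ⟨⟨221633921, 0, 0, 0, 0, 281133169, 0, 0, 0, ⟨0, 0⟩, 0⟩, 0, 0⟩ 0 0) (.pos 40 .mp ⟨⟨223055479, 0, 0, 0, 0, 284683071, 0, 0, 0, ⟨0, 0⟩, 0⟩, 0, 0⟩ 0 0)))) (.cut .s 14544896 (.cut .v 16842752 (.cut .s 14534656 (.cut .d (-8192) (.pos 39 .mp ⟨⟨194947244, 0, 0, 0, 0, 352239846, 0, 0, 0, ⟨0, 0⟩, 0⟩, 0, 0⟩ 0 0) (.cut .s 14529536 (.pos 39 .mp ⟨⟨207060050, 0, 0, 0, 0, 317218484, 0, 0, 0, ⟨0, 0⟩, 0⟩, 0, 0⟩ 0 0) (.pos 39 .mp ⟨⟨208033222, 0, 0, 0, 0, 318516166, 0, 0, 0, ⟨0, 0⟩, 0⟩, 0, 0⟩ 0 0))) (.cut .d (-8192) (.pos 39 .mp ⟨⟨196790368, 0, 0, 0, 0, 355123758, 0,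 0, 0, ⟨0, 0⟩, 0⟩, 0, 0⟩ 0 0) (.cut .s 14539776 (.pos 39 .mp ⟨⟨209012427, 0, 0, 0, 0, 319833749, 0, 0, 0, ⟨0, 0⟩, 0⟩, 0, 0⟩ 0 0) (.pos 39 .mp ⟨⟨209997706, 0, 0, 0, 0, 321171290, 0, 0, 0, ⟨0, 0⟩, 0⟩, 0, 0⟩ 0 0)))) (.cut .s 14534656 (.pos 40 .mp ⟨⟨224611971, 0, 0, 0, 0, 288080933, 0, 0, 0, ⟨0, 0⟩, 0⟩, 0, 0⟩ 0 0) (.pos 40 .mp ⟨⟨226307855, 0, 0, 0, 0, 291318362, 0, 0, 0, ⟨0, 0⟩, 0⟩, 0, 0⟩ 0 0))) (.cut .v 16842752 (.cut .s 14555136 (.cut .d (-8192) (.pos 39 .mp ⟨⟨198655594, 0, 0, 0, 0, 358114019, 0, 0, 0, ⟨0, 0⟩, 0⟩, 0, 0⟩ 0 0) (.cut .s 14550016 (.pos 39 .mp ⟨⟨210989101, 0, 0, 0, 0, 322528845, 0, 0, 0, ⟨0, 0⟩, 0⟩, 0, 0⟩ 0 0) (.pos 39 .mp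 ⟨⟨211986653, 0, 0, 0, 0, 323906472, 0, 0, 0, ⟨0, 0⟩, 0⟩, 0, 0⟩ 0 0))) (.cut .d (-8192) (.pos 39 .mp ⟨⟨200543224, 0, 0, 0, 0, 361212150, 0, 0, 0, ⟨0, 0⟩, 0⟩, 0, 0⟩ 0 0) (.cut .s 14560256 (.pos 39 .mp ⟨⟨212990404, 0, 0, 0, 0, 325304228, 0, 0, 0, ⟨0, 0⟩, 0⟩, 0, 0⟩ 0 0) (.pos 39 .mp ⟨⟨214000396, 0, 0, 0, 0, 326722169, 0, 0, 0, ⟨0, 0⟩, 0⟩, 0, 0⟩ 0 0)))) (.cut .s 14555136 (.pos 40 .mp ⟨⟨228147661, 0, 0, 0, 0, 294386817, 0, 0, 0, ⟨0, 0⟩, 0⟩, 0, 0⟩ 0 0) (.pos 40 .mp ⟨⟨230135994, 0, 0, 0, 0, 297277605, 0, 0, 0, ⟨0, 0⟩, 0⟩, 0, 0⟩ 0 0))))) (.cut .s 14606336 (.cut .s 14585856 (.cut .v 16842752 (.cut .s 14575616 (.cut .d (-8192) (.pos 39 .mp ⟨⟨202453564,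 0, 0, 0, 0, 364419702, 0, 0, 0, ⟨0, 0⟩, 0⟩, 0, 0⟩ 0 0) (.cut .s 14570496 (.pos 39 .mp ⟨⟨215016672, 0, 0, 0, 0, 328160353, 0, 0, 0, ⟨0, 0⟩, 0⟩, 0, 0⟩ 0 0) (.pos 39 .mp ⟨⟨216039275, 0, 0, 0, 0, 329618836, 0, 0, 0, ⟨0, 0⟩, 0⟩, 0, 0⟩ 0 0))) (.cut .d (-8192) (.pos 39 .mp ⟨⟨204386924, 0, 0, 0, 0, 367738255, 0, 0, 0, ⟨0, 0⟩, 0⟩, 0, 0⟩ 0 0) (.cut .s 14580736 (.pos 39 .mp ⟨⟨217068248, 0, 0, 0, 0, 331097675, 0, 0, 0, ⟨0, 0⟩, 0⟩, 0, 0⟩ 0 0) (.pos 39 .mp ⟨⟨218103635, 0, 0, 0, 0, 332596927, 0, 0, 0, ⟨0, 0⟩, 0⟩, 0, 0⟩ 0 0)))) (.cut .s 14575616 (.pos 40 .mp ⟨⟨232277539, 0, 0, 0, 0, 299981877, 0, 0, 0, ⟨0, 0⟩, 0⟩, 0, 0⟩ 0 0) (.pos 40 .mp ⟨⟨234577057,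 0, 0, 0, 0, 302490623, 0, 0, 0, ⟨0, 0⟩, 0⟩, 0, 0⟩ 0 0))) (.cut .v 16842752 (.cut .s 14596096 (.cut .d (-8192) (.pos 39 .mp ⟨⟨206343624, 0, 0, 0, 0, 371169417, 0, 0, 0, ⟨0, 0⟩, 0⟩, 0, 0⟩ 0 0) (.cut .s 14590976 (.pos 39 .mp ⟨⟨219145481, 0, 0, 0, 0, 334116649, 0, 0, 0, ⟨0, 0⟩, 0⟩, 0, 0⟩ 0 0) (.pos 39 .mp ⟨⟨220193830, 0, 0, 0, 0, 335656898, 0, 0, 0, ⟨0, 0⟩, 0⟩, 0, 0⟩ 0 0))) (.cut .d (-8192) (.pos 39 .mp ⟨⟨208323985, 0, 0, 0, 0, 374714828, 0, 0, 0, ⟨0, 0⟩, 0⟩, 0, 0⟩ 0 0) (.cut .s 14601216 (.pos 39 .mp ⟨⟨221248727, 0, 0, 0, 0, 337217730, 0, 0, 0, ⟨0, 0⟩, 0⟩, 0, 0⟩ 0 0) (.pos 39 .mp ⟨⟨222310217, 0, 0, 0, 0, 338799203, 0, 0, 0, ⟨0, 0⟩, 0⟩,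 0, 0⟩ 0 0)))) (.cut .s 14596096 (.pos 40 .mp ⟨⟨237039392, 0, 0, 0, 0, 304794671, 0, 0, 0, ⟨0, 0⟩, 0⟩, 0, 0⟩ 0 0) (.pos 40 .mp ⟨⟨239669470, 0, 0, 0, 0, 306884681, 0, 0, 0, ⟨0, 0⟩, 0⟩, 0, 0⟩ 0 0)))) (.cut .s 14626816 (.cut .v 16842752 (.cut .s 14616576 (.cut .d (-8192) (.pos 39 .mp ⟨⟨210328339, 0, 0, 0, 0, 378376157, 0, 0, 0, ⟨0, 0⟩, 0⟩, 0, 0⟩ 0 0) (.cut .s 14611456 (.pos 39 .mp ⟨⟨223378348, 0, 0, 0, 0, 340401372, 0, 0, 0, ⟨0, 0⟩, 0⟩, 0, 0⟩ 0 0) (.pos 39 .mp ⟨⟨224453165, 0, 0, 0, 0, 342024296, 0, 0, 0, ⟨0, 0⟩, 0⟩, 0, 0⟩ 0 0))) (.cut .d (-8192) (.pos 39 .mp ⟨⟨212357020, 0, 0, 0, 0, 382155106, 0, 0, 0, ⟨0, 0⟩, 0⟩, 0, 0⟩ 0 0) (.cut .s 14621696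 (.pos 39 .mp ⟨⟨225534715, 0, 0, 0, 0, 343668029, 0, 0, 0, ⟨0, 0⟩, 0⟩, 0, 0⟩ 0 0) (.pos 39 .mp ⟨⟨226623045, 0, 0, 0, 0, 345332630, 0, 0, 0, ⟨0, 0⟩, 0⟩, 0, 0⟩ 0 0)))) (.cut .s 14616576 (.pos 40 .mp ⟨⟨242472301, 0, 0, 0, 0, 308751144, 0, 0, 0, ⟨0, 0⟩, 0⟩, 0, 0⟩ 0 0) (.pos 40 .mp ⟨⟨245452983, 0, 0, 0, 0, 310384373, 0, 0, 0, ⟨0, 0⟩, 0⟩, 0, 0⟩ 0 0))) (.cut .v 16842752 (.cut .d (-8192) (.pos 39 .mp ⟨⟨214410371, 0, 0, 0, 0, 390357339, 0, 0, 0, ⟨0, 0⟩, 0⟩, 0, 0⟩ 0 0) (.cut .l 230687 (.cut .s 14637056 (.cut .s 14631936 (.pos 39 .mp ⟨⟨227718203, 0, 0, 0, 0, 346768434, 0, 0, 0, ⟨0, 0⟩, 0⟩, 0, 0⟩ 0 0) (.pos 39 .mp ⟨⟨228820238, 0, 0, 0, 0, 348438861,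 0, 0, 0, ⟨0, 0⟩, 0⟩, 0, 0⟩ 0 0)) (.cut .s 14642176 (.pos 39 .mp ⟨⟨229929197, 0, 0, 0, 0, 350126692, 0, 0, 0, ⟨0, 0⟩, 0⟩, 0, 0⟩ 0 0) (.pos 39 .mp ⟨⟨231045131, 0, 0, 0, 0, 351831924, 0, 0, 0, ⟨0, 0⟩, 0⟩, 0, 0⟩ 0 0))) (.pos 39 .mp ⟨⟨220492719, 0, 0, 0, 0, 355160158, 0, 0, 0, ⟨0, 0⟩, 0⟩, 0, 0⟩ 0 0))) (.cut .s 14637056 (.pos 40 .mp ⟨⟨248616703, 0, 0, 0, 0, 311774503, 0, 0, 0, ⟨0, 0⟩, 0⟩, 0, 0⟩ 0 0) (.pos 40 .mp ⟨⟨251968738, 0, 0, 0, 0, 312911486, 0, 0, 0, ⟨0, 0⟩, 0⟩, 0, 0⟩ 0 0)))))) (.pos 36 .mp ⟨⟨388032481, 0, 0, 0, 0, 0, 0, 0, 0, ⟨0, 0⟩, 0⟩, 0, 0⟩ 0 0))))) (.pos 34 .mp ⟨⟨450240374, 0, 0, 0, 0, 0, 0, 0, 0, ⟨0, 0⟩, 0⟩, 0, 0⟩ 0 0))) (.void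 32 ⟨⟨100000, 0, 0, 0, 0, 0, 0, 0, 0, ⟨0, 0⟩, 0⟩, 0, 0⟩ 0 0)))) (.void 30 ⟨⟨100000, 0, 0, 0, 0, 0, 0, 0, 0, ⟨0, 0⟩, 0⟩, 0, 0⟩ 0 0))) (.void 28 ⟨⟨100000, 0, 0, 0, 0, 0, 0, 0, 0, ⟨0, 0⟩, 0⟩, 0, 0⟩ 0 0))) (.void 26 ⟨⟨100000, 0, 0, 0, 0, 0, 0, 0, 0, ⟨0, 0⟩, 0⟩, 0, 0⟩ 0 0))) (.void 24 ⟨⟨100000, 0, 0, 0, 0, 0, 0, 0, 0, ⟨0, 0⟩, 0⟩, 0, 0⟩ 0 0))) (.void 73 ⟨⟨100000, 0, 0, 0, 0, 0, 0, 0, 0, ⟨0, 0⟩, 0⟩, 0, 0⟩ 0 0)) (.void 84 ⟨⟨100379, 0, 0, 0, 0, 0, 0, 0, 0, ⟨0, 0⟩, 0⟩, 0, 0⟩ 0 0)) (.void 93 ⟨⟨91157, 0, 0, 8843, 0, 0, 0, 0, 0, ⟨0, 0⟩, 0⟩, 0, 0⟩ 0 0))) (.cut .v 16777216 (.cut .v 8388608 (.cut .v 4194304 (.cut .v 2097152 (.cut .v 1048576 (.pos 89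 .pm ⟨⟨0, 0, 20657132, 0, 0, 0, 0, 0, 0, ⟨0, 0⟩, 0⟩, 0, 15926⟩ 0 0) (.pos 90 .pm ⟨⟨0, 0, 20030806, 0, 0, 0, 0, 0, 0, ⟨0, 0⟩, 0⟩, 0, 44239⟩ 0 0)) (.pos 88 .pm ⟨⟨0, 0, 20881440, 0, 0, 0, 0, 0, 0, ⟨0, 0⟩, 0⟩, 0, 56878⟩ 0 0)) (.pos 5 .pm ⟨⟨0, 0, 30522923, 0, 0, 0, 0, 0, 0, ⟨0, 0⟩, 0⟩, 0, 83237⟩ 0 0)) (.pos 3 .pm ⟨⟨0, 0, 0, 0, 0, 0, 0, 0, 0, ⟨0, 0⟩, 0⟩, 0, 0⟩ 0 0)) (.cut .v 268435456 (.cut .v 67108864 (.cut .d 1328514 (.cut .v 33554432 (.cut .d 664257 (.cut .v 25165824 (.cut .d 332128 (.cut .v 20971520 (.cut .v 18874368 (.pos 27 .pp ⟨⟨169624072, 0, 0, 0, 0, 0, 0, 0, 0, ⟨0, 0⟩, 0⟩, 33544767, 0⟩ 0 0) (.pos 28 .pp ⟨⟨429770183, 0, 0, 0, 0, 0,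 0, 0, 0, ⟨0, 0⟩, 0⟩, 0, 0⟩ 0 0)) (.pos 26 .pp ⟨⟨584341709, 0, 0, 0, 0, 0, 0, 0, 0, ⟨0, 0⟩, 0⟩, 0, 0⟩ 0 0)) (.pos 23 .pp ⟨⟨0, 0, 0, 0, 0, 0, 0, 0, 0, ⟨0, 0⟩, 0⟩, 31223093, 158953⟩ 0 0)) (.pos 24 .pp ⟨⟨0, 0, 0, 0, 0, 0, 0, 0, 0, ⟨0, 0⟩, 0⟩, 138342179, 0⟩ 0 0)) (.pos 22 .pp ⟨⟨0, 0, 0, 0, 0, 0, 0, 0, 0, ⟨0, 0⟩, 0⟩, 19016839, 188753⟩ 0 0)) (.cut .d 664257 (.pos 73 .pp ⟨⟨0, 0, 0, 0, 0, 0, 0, 0, 0, ⟨0, 0⟩, 0⟩, 281277222, 0⟩ 0 0) (.pos 73 .pp ⟨⟨0, 0, 0, 0, 0, 0, 0, 0, 0, ⟨0, 0⟩, 0⟩, 156071480, 0⟩ 0 0))) (.pos 72 .pp ⟨⟨0, 0, 0, 0, 0, 0, 0, 0, 0, ⟨0, 0⟩, 0⟩, 0, 235180⟩ 0 0)) (.void 84 ⟨⟨0, 0, 0, 50008, 0, 0, 0, 0, 0, ⟨0, 0⟩, 0⟩, 49992, 0⟩ 0 0))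 (.void 93 ⟨⟨0, 0, 0, 0, 0, 0, 0, 0, 0, ⟨0, 0⟩, 0⟩, 100000, 0⟩ 0 0)))),
    by decide +kernel⟩

def covers30 : cell.Covers Vale.Agent.P237.Petty.Cor.Grid.N8.table row30.1 :=
  ⟨(.cut .d 0 (.cut .v 16777216 (.cut .v 8388608 (.void 2 ⟨⟨0, 0, 100000, 0, 0, 0, 0, 0, 0, ⟨0, 0⟩, 0⟩, 0, 0⟩ 0 0) (.cut .d (-8388608) (.void 3 ⟨⟨100000, 0, 0, 0, 0, 0, 0, 0, 0, ⟨0, 0⟩, 0⟩, 0, 0⟩ 0 0) (.cut .d (-4194304) (.void 3 ⟨⟨100000, 0, 0, 0, 0, 0, 0, 0, 0, ⟨0, 0⟩, 0⟩, 0, 0⟩ 0 0) (.cut .d (-2097152) (.void 3 ⟨⟨100000, 0, 0, 0, 0, 0, 0, 0, 0, ⟨0, 0⟩, 0⟩, 0, 0⟩ 0 0) (.cut .d (-1048576) (.void 3 ⟨⟨0, 0, 0, 0, 0, 100000, 0, 0, 0, ⟨0, 0⟩, 0⟩, 0, 0⟩ 0 0) (.cut .d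 (-524288) (.void 3 ⟨⟨0, 0, 0, 0, 0, 100000, 0, 0, 0, ⟨0, 0⟩, 0⟩, 0, 0⟩ 0 0) (.cut .d (-262144) (.void 3 ⟨⟨0, 0, 0, 0, 0, 100000, 0, 0, 0, ⟨0, 0⟩, 0⟩, 0, 0⟩ 0 0) (.cut .s 14729216 (.pos 3 .mm ⟨⟨0, 0, 0, 0, 0, 864492064, 0, 0, 0, ⟨0, 0⟩, 0⟩, 0, 0⟩ 0 0) (.pos 3 .mm ⟨⟨0, 0, 0, 0, 0, 938861960, 0, 0, 0, ⟨0, 0⟩, 0⟩, 0, 0⟩ 0 0))))))))) (.cut .v 268435456 (.cut .v 67108864 (.cut .v 33554432 (.cut .d (-8388608) (.void 22 ⟨⟨100000, 0, 0, 0, 0, 0, 0, 0, 0, ⟨0, 0⟩, 0⟩, 0, 0⟩ 0 0) (.cut .v 25165824 (.cut .d (-4194304) (.void 23 ⟨⟨100000, 0, 0, 0, 0, 0, 0, 0, 0, ⟨0, 0⟩, 0⟩, 0, 0⟩ 0 0) (.cut .v 20971520 (.cut .d (-2097152) (.void 25 ⟨⟨100000, 0, 0,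 0, 0, 0, 0, 0, 0, ⟨0, 0⟩, 0⟩, 0, 0⟩ 0 0) (.cut .v 18874368 (.cut .d (-1048576) (.void 27 ⟨⟨100000, 0, 0, 0, 0, 0, 0, 0, 0, ⟨0, 0⟩, 0⟩, 0, 0⟩ 0 0) (.cut .d (-524288) (.void 27 ⟨⟨100000, 0, 0, 0, 0, 0, 0, 0, 0, ⟨0, 0⟩, 0⟩, 0, 0⟩ 0 0) (.cut .v 17825792 (.cut .d (-262144) (.void 29 ⟨⟨100000, 0, 0, 0, 0, 0, 0, 0, 0, ⟨0, 0⟩, 0⟩, 0, 0⟩ 0 0) (.cut .v 17301504 (.cut .d (-131072) (.void 31 ⟨⟨100000, 0, 0, 0, 0, 0, 0, 0, 0, ⟨0, 0⟩, 0⟩, 0, 0⟩ 0 0) (.cut .v 17039360 (.cut .d (-65536) (.void 33 ⟨⟨100000, 0, 0, 0, 0, 0, 0, 0, 0, ⟨0, 0⟩, 0⟩, 0, 0⟩ 0 0) (.cut .d (-32768) (.void 33 ⟨⟨100000, 0, 0, 0, 0, 0, 0, 0, 0, ⟨0, 0⟩, 0⟩, 0, 0⟩ 0 0) (.cut .d (-16384)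 (.void 33 ⟨⟨0, 0, 0, 0, 0, 100000, 0, 0, 0, ⟨0, 0⟩, 0⟩, 0, 0⟩ 0 0) (.cut .v 16908288 (.cut .s 14729216 (.cut .s 14688256 (.cut .d (-8192) (.cut .l 230687 (.void 35 ⟨⟨0, 0, 0, 0, 0, 100000, 0, 0, 0, ⟨0, 0⟩, 0⟩, 0, 0⟩ 0 0) (.cut .d (-12288) (.pos 35 .mp ⟨⟨224001870, 0, 0, 0, 0, 406088474, 0, 0, 0, ⟨0, 0⟩, 0⟩, 0, 0⟩ 0 0) (.cut .s 14667776 (.pos 35 .mp ⟨⟨234796457, 0, 0, 0, 0, 352419274, 0, 0, 0, ⟨0, 0⟩, 0⟩, 0, 0⟩ 0 0) (.cut .s 14678016 (.pos 35 .mp ⟨⟨237120593, 0, 0, 0, 0, 360634837, 0, 0, 0, ⟨0, 0⟩, 0⟩, 0, 0⟩ 0 0) (.pos 35 .mp ⟨⟨239475335, 0, 0, 0, 0, 363600865, 0, 0, 0, ⟨0, 0⟩, 0⟩, 0, 0⟩ 0 0))))) (.cut .l 230687 (.cut .v 16842752 (.cut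 .s 14667776 (.cut .s 14657536 (.cut .s 14652416 (.pos 39 .mp ⟨⟨232168906, 0, 0, 0, 0, 353556928, 0, 0, 0, ⟨0, 0⟩, 0⟩, 0, 0⟩ 0 0) (.pos 39 .mp ⟨⟨233299274, 0, 0, 0, 0, 355000505, 0, 0, 0, ⟨0, 0⟩, 0⟩, 0, 0⟩ 0 0)) (.cut .s 14662656 (.pos 39 .mp ⟨⟨234437120, 0, 0, 0, 0, 356466468, 0, 0, 0, ⟨0, 0⟩, 0⟩, 0, 0⟩ 0 0) (.pos 39 .mp ⟨⟨235582496, 0, 0, 0, 0, 357954823, 0, 0, 0, ⟨0, 0⟩, 0⟩, 0, 0⟩ 0 0))) (.cut .s 14678016 (.cut .s 14672896 (.pos 39 .mp ⟨⟨236735457, 0, 0, 0, 0, 359465577, 0, 0, 0, ⟨0, 0⟩, 0⟩, 0, 0⟩ 0 0) (.pos 39 .mp ⟨⟨237896056, 0, 0, 0, 0, 360998736, 0, 0, 0, ⟨0, 0⟩, 0⟩, 0, 0⟩ 0 0)) (.cut .s 14683136 (.pos 39 .mp ⟨⟨239064349, 0, 0,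 0, 0, 362554306, 0, 0, 0, ⟨0, 0⟩, 0⟩, 0, 0⟩ 0 0) (.pos 39 .mp ⟨⟨240240392, 0, 0, 0, 0, 364132290, 0, 0, 0, ⟨0, 0⟩, 0⟩, 0, 0⟩ 0 0)))) (.pos 40 .mp ⟨⟨436901945, 0, 0, 0, 0, 0, 0, 0, 0, ⟨0, 0⟩, 0⟩, 0, 0⟩ 0 0)) (.pos 35 .mp ⟨⟨234826857, 0, 0, 0, 0, 344170502, 0, 0, 0, ⟨0, 0⟩, 0⟩, 0, 0⟩ 0 0))) (.cut .d (-8192) (.cut .l 230687 (.void 35 ⟨⟨0, 0, 0, 0, 0, 100000, 0, 0, 0, ⟨0, 0⟩, 0⟩, 0, 0⟩ 0 0) (.cut .v 16842752 (.pos 39 .mp ⟨⟨190429735, 0, 0, 0, 0, 489912575, 0, 0, 0, ⟨0, 0⟩, 0⟩, 0, 0⟩ 0 0) (.cut .s 14708736 (.pos 40 .mp ⟨⟨250163634, 0, 0, 0, 0, 360963859, 0, 0, 0, ⟨0, 0⟩, 0⟩, 0, 0⟩ 0 0) (.cut .s 14718976 (.pos 40 .mp ⟨⟨252685779, 0, 0, 0,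 0, 367928208, 0, 0, 0, ⟨0, 0⟩, 0⟩, 0, 0⟩ 0 0) (.pos 40 .mp ⟨⟨255241572, 0, 0, 0, 0, 371258341, 0, 0, 0, ⟨0, 0⟩, 0⟩, 0, 0⟩ 0 0))))) (.cut .l 230687 (.cut .v 16842752 (.cut .s 14708736 (.cut .s 14698496 (.cut .s 14693376 (.pos 39 .mp ⟨⟨241424241, 0, 0, 0, 0, 365732693, 0, 0, 0, ⟨0, 0⟩, 0⟩, 0, 0⟩ 0 0) (.pos 39 .mp ⟨⟨242615952, 0, 0, 0, 0, 367355519, 0, 0, 0, ⟨0, 0⟩, 0⟩, 0, 0⟩ 0 0)) (.cut .s 14703616 (.pos 39 .mp ⟨⟨243815583, 0, 0, 0, 0, 369000769, 0, 0, 0, ⟨0, 0⟩, 0⟩, 0, 0⟩ 0 0) (.pos 39 .mp ⟨⟨245023191, 0, 0, 0, 0, 370668446, 0, 0, 0, ⟨0, 0⟩, 0⟩, 0, 0⟩ 0 0))) (.cut .s 14718976 (.cut .d (-4096) (.pos 39 .mp ⟨⟨240476034, 0, 0, 0, 0, 391739158,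 0, 0, 0, ⟨0, 0⟩, 0⟩, 0, 0⟩ 0 0) (.cut .s 14713856 (.pos 39 .mp ⟨⟨241863927, 0, 0, 0, 0, 381522303, 0, 0, 0, ⟨0, 0⟩, 0⟩, 0, 0⟩ 0 0) (.pos 39 .mp ⟨⟨243086991, 0, 0, 0, 0, 383210865, 0, 0, 0, ⟨0, 0⟩, 0⟩, 0, 0⟩ 0 0))) (.cut .d (-4096) (.pos 39 .mp ⟨⟨242780631, 0, 0, 0, 0, 395626752, 0, 0, 0, ⟨0, 0⟩, 0⟩, 0, 0⟩ 0 0) (.cut .s 14724096 (.pos 39 .mp ⟨⟨244309209, 0, 0, 0, 0, 384948164, 0, 0, 0, ⟨0, 0⟩, 0⟩, 0, 0⟩ 0 0) (.pos 39 .mp ⟨⟨245530410, 0, 0, 0, 0, 386734855, 0, 0, 0, ⟨0, 0⟩, 0⟩, 0, 0⟩ 0 0))))) (.pos 40 .mp ⟨⟨452804024, 0, 0, 0, 0, 0, 0, 0, 0, ⟨0, 0⟩, 0⟩, 0, 0⟩ 0 0)) (.pos 35 .mp ⟨⟨243809666, 0, 0, 0, 0, 357575105, 0, 0, 0, ⟨0, 0⟩, 0⟩,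 0, 0⟩ 0 0)))) (.cut .s 14770176 (.cut .d (-8192) (.cut .l 230687 (.void 35 ⟨⟨0, 0, 0, 0, 0, 100000, 0, 0, 0, ⟨0, 0⟩, 0⟩, 0, 0⟩ 0 0) (.cut .v 16842752 (.pos 39 .mp ⟨⟨194802084, 0, 0, 0, 0, 515421383, 0, 0, 0, ⟨0, 0⟩, 0⟩, 0, 0⟩ 0 0) (.cut .v 16875520 (.cut .s 14749696 (.pos 74 .mp ⟨⟨239720274, 0, 0, 0, 0, 418728946, 0, 0, 0, ⟨0, 0⟩, 0⟩, 0, 0⟩ 0 0) (.pos 74 .mp ⟨⟨244561697, 0, 0, 0, 0, 426898048, 0, 0, 0, ⟨0, 0⟩, 0⟩, 0, 0⟩ 0 0)) (.pos 75 .mp ⟨⟨318202577, 0, 0, 0, 0, 271390651, 0, 0, 0, ⟨0, 0⟩, 0⟩, 0, 0⟩ 0 0)))) (.cut .l 230687 (.cut .v 16842752 (.cut .s 14749696 (.cut .s 14739456 (.cut .d (-4096) (.pos 39 .mp ⟨⟨245194338, 0, 0, 0, 0, 399427410,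 0, 0, 0, ⟨0, 0⟩, 0⟩, 0, 0⟩ 0 0) (.cut .s 14734336 (.pos 39 .mp ⟨⟨246750417, 0, 0, 0, 0, 388571605, 0, 0, 0, ⟨0, 0⟩, 0⟩, 0, 0⟩ 0 0) (.pos 39 .mp ⟨⟨247969051, 0, 0, 0, 0, 390459089, 0, 0, 0, ⟨0, 0⟩, 0⟩, 0, 0⟩ 0 0))) (.cut .d (-4096) (.pos 39 .mp ⟨⟨241762913, 0, 0, 0, 0, 420640479, 0, 0, 0, ⟨0, 0⟩, 0⟩, 0, 0⟩ 0 0) (.cut .s 14744576 (.pos 39 .mp ⟨⟨249186131, 0, 0, 0, 0, 392397993, 0, 0, 0, ⟨0, 0⟩, 0⟩, 0, 0⟩ 0 0) (.pos 39 .mp ⟨⟨250401470, 0, 0, 0, 0, 394389012, 0, 0, 0, ⟨0, 0⟩, 0⟩, 0, 0⟩ 0 0)))) (.cut .s 14759936 (.cut .s 14754816 (.cut .s 14752256 (.pos 39 .mp ⟨⟨255618358, 0, 0, 0, 0, 386908718, 0, 0, 0, ⟨0, 0⟩, 0⟩, 0, 0⟩ 0 0) (.pos 39 .mp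 ⟨⟨256260480, 0, 0, 0, 0, 387852024, 0, 0, 0, ⟨0, 0⟩, 0⟩, 0, 0⟩ 0 0)) (.pos 39 .mp ⟨⟨257551173, 0, 0, 0, 0, 388578590, 0, 0, 0, ⟨0, 0⟩, 0⟩, 0, 0⟩ 0 0)) (.cut .s 14765056 (.pos 39 .mp ⟨⟨258850518, 0, 0, 0, 0, 390492876, 0, 0, 0, ⟨0, 0⟩, 0⟩, 0, 0⟩ 0 0) (.pos 39 .mp ⟨⟨260158582, 0, 0, 0, 0, 392429554, 0, 0, 0, ⟨0, 0⟩, 0⟩, 0, 0⟩ 0 0)))) (.pos 40 .mp ⟨⟨469610271, 0, 0, 0, 0, 0, 0, 0, 0, ⟨0, 0⟩, 0⟩, 0, 0⟩ 0 0)) (.pos 35 .mp ⟨⟨253246270, 0, 0, 0, 0, 371865614, 0, 0, 0, ⟨0, 0⟩, 0⟩, 0, 0⟩ 0 0))) (.cut .d (-8192) (.cut .l 230687 (.void 35 ⟨⟨0, 0, 0, 0, 0, 100000, 0, 0, 0, ⟨0, 0⟩, 0⟩, 0, 0⟩ 0 0) (.cut .s 14790656 (.cut .s 14780416 (.pos 35 .mp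 ⟨⟨249319075, 0, 0, 0, 0, 432812092, 0, 0, 0, ⟨0, 0⟩, 0⟩, 0, 0⟩ 0 0) (.pos 35 .mp ⟨⟨252076998, 0, 0, 0, 0, 436608803, 0, 0, 0, ⟨0, 0⟩, 0⟩, 0, 0⟩ 0 0)) (.pos 35 .mp ⟨⟨253508206, 0, 0, 0, 0, 449819737, 0, 0, 0, ⟨0, 0⟩, 0⟩, 0, 0⟩ 0 0))) (.cut .l 230687 (.cut .v 16842752 (.cut .s 14790656 (.cut .s 14780416 (.cut .s 14775296 (.pos 39 .mp ⟨⟨261475429, 0, 0, 0, 0, 394388613, 0, 0, 0, ⟨0, 0⟩, 0⟩, 0, 0⟩ 0 0) (.pos 39 .mp ⟨⟨262801128, 0, 0, 0, 0, 396370046, 0, 0, 0, ⟨0, 0⟩, 0⟩, 0, 0⟩ 0 0)) (.cut .s 14785536 (.pos 39 .mp ⟨⟨264135744, 0, 0, 0, 0, 398373843, 0, 0, 0, ⟨0, 0⟩, 0⟩, 0, 0⟩ 0 0) (.pos 39 .mp ⟨⟨265479346, 0, 0, 0, 0, 400399991, 0, 0, 0,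 ⟨0, 0⟩, 0⟩, 0, 0⟩ 0 0))) (.cut .s 14800896 (.cut .s 14795776 (.pos 39 .mp ⟨⟨266832002, 0, 0, 0, 0, 402448479, 0, 0, 0, ⟨0, 0⟩, 0⟩, 0, 0⟩ 0 0) (.pos 39 .mp ⟨⟨268193782, 0, 0, 0, 0, 404519295, 0, 0, 0, ⟨0, 0⟩, 0⟩, 0, 0⟩ 0 0)) (.cut .s 14806016 (.pos 39 .mp ⟨⟨269564756, 0, 0, 0, 0, 406612423, 0, 0, 0, ⟨0, 0⟩, 0⟩, 0, 0⟩ 0 0) (.pos 39 .mp ⟨⟨270944994, 0, 0, 0, 0, 408727851, 0, 0, 0, ⟨0, 0⟩, 0⟩, 0, 0⟩ 0 0)))) (.pos 40 .mp ⟨⟨487305104, 0, 0, 0, 0, 0, 0, 0, 0, ⟨0, 0⟩, 0⟩, 0, 0⟩ 0 0)) (.pos 35 .mp ⟨⟨263164750, 0, 0, 0, 0, 386971228, 0, 0, 0, ⟨0, 0⟩, 0⟩, 0, 0⟩ 0 0))))) (.pos 36 .mp ⟨⟨452039954, 0, 0, 0, 0, 0, 0, 0, 0, ⟨0, 0⟩, 0⟩, 0, 0⟩ 0 0)))))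 (.pos 34 .mp ⟨⟨523676765, 0, 0, 0, 0, 0, 0, 0, 0, ⟨0, 0⟩, 0⟩, 0, 0⟩ 0 0))) (.void 32 ⟨⟨100000, 0, 0, 0, 0, 0, 0, 0, 0, ⟨0, 0⟩, 0⟩, 0, 0⟩ 0 0))) (.void 30 ⟨⟨100000, 0, 0, 0, 0, 0, 0, 0, 0, ⟨0, 0⟩, 0⟩, 0, 0⟩ 0 0)))) (.void 28 ⟨⟨100000, 0, 0, 0, 0, 0, 0, 0, 0, ⟨0, 0⟩, 0⟩, 0, 0⟩ 0 0))) (.void 26 ⟨⟨100000, 0, 0, 0, 0, 0, 0, 0, 0, ⟨0, 0⟩, 0⟩, 0, 0⟩ 0 0))) (.void 24 ⟨⟨100000, 0, 0, 0, 0, 0, 0, 0, 0, ⟨0, 0⟩, 0⟩, 0, 0⟩ 0 0))) (.void 73 ⟨⟨100000, 0, 0, 0, 0, 0, 0, 0, 0, ⟨0, 0⟩, 0⟩, 0, 0⟩ 0 0)) (.void 84 ⟨⟨99925, 0, 0, 0, 0, 0, 0, 0, 0, ⟨0, 0⟩, 0⟩, 0, 0⟩ 0 0)) (.void 93 ⟨⟨91067, 0, 0, 8933, 0, 0, 0, 0, 0, ⟨0, 0⟩, 0⟩, 0, 0⟩ 0 0))) (.cut .v 16777216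 (.cut .v 8388608 (.cut .v 4194304 (.cut .v 2097152 (.cut .v 1048576 (.pos 89 .pm ⟨⟨0, 0, 22308043, 0, 0, 0, 0, 0, 0, ⟨0, 0⟩, 0⟩, 0, 13243⟩ 0 0) (.pos 90 .pm ⟨⟨0, 0, 24559384, 0, 0, 0, 0, 0, 0, ⟨0, 0⟩, 0⟩, 0, 25467⟩ 0 0)) (.pos 88 .pm ⟨⟨0, 0, 27572832, 0, 0, 0, 0, 0, 0, ⟨0, 0⟩, 0⟩, 0, 36786⟩ 0 0)) (.pos 5 .pm ⟨⟨0, 0, 44632900, 0, 0, 0, 0, 0, 0, ⟨0, 0⟩, 0⟩, 0, 79616⟩ 0 0)) (.pos 3 .pm ⟨⟨0, 0, 0, 0, 0, 0, 0, 0, 0, ⟨0, 0⟩, 0⟩, 0, 0⟩ 0 0)) (.cut .v 268435456 (.cut .v 67108864 (.cut .d 1219821 (.cut .v 33554432 (.cut .d 609910 (.cut .v 25165824 (.cut .d 304955 (.cut .v 20971520 (.cut .v 18874368 (.pos 27 .pp ⟨⟨205398576, 0, 0, 0, 0, 0, 0,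 0, 0, ⟨0, 0⟩, 0⟩, 37078408, 0⟩ 0 0) (.pos 28 .pp ⟨⟨496530708, 0, 0, 0, 0, 0, 0, 0, 0, ⟨0, 0⟩, 0⟩, 0, 0⟩ 0 0)) (.pos 26 .pp ⟨⟨674368485, 0, 0, 0, 0, 0, 0, 0, 0, ⟨0, 0⟩, 0⟩, 0, 0⟩ 0 0)) (.pos 23 .pp ⟨⟨0, 0, 0, 0, 0, 0, 0, 0, 0, ⟨0, 0⟩, 0⟩, 37407111, 132074⟩ 0 0)) (.pos 24 .pp ⟨⟨0, 0, 0, 0, 0, 0, 0, 0, 0, ⟨0, 0⟩, 0⟩, 159257127, 0⟩ 0 0)) (.pos 22 .pp ⟨⟨0, 0, 0, 0, 0, 0, 0, 0, 0, ⟨0, 0⟩, 0⟩, 24442896, 155283⟩ 0 0)) (.cut .d 609910 (.pos 73 .pp ⟨⟨0, 0, 0, 0, 0, 0, 0, 0, 0, ⟨0, 0⟩, 0⟩, 323228931, 0⟩ 0 0) (.pos 73 .pp ⟨⟨0, 0, 0, 0, 0, 0, 0, 0, 0, ⟨0, 0⟩, 0⟩, 176940452, 0⟩ 0 0))) (.pos 72 .pp ⟨⟨0, 0, 0, 0, 0, 0, 0, 0, 0, ⟨0, 0⟩, 0⟩, 0, 199041⟩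 0 0)) (.void 84 ⟨⟨0, 0, 0, 50216, 0, 0, 0, 0, 0, ⟨0, 0⟩, 0⟩, 49784, 0⟩ 0 0)) (.void 93 ⟨⟨0, 0, 0, 0, 0, 0, 0, 0, 0, ⟨0, 0⟩, 0⟩, 100000, 0⟩ 0 0)))),
    by decide +kernel⟩

def covers31 : cell.Covers Vale.Agent.P237.Petty.Cor.Grid.N8.table row31.1 :=
  ⟨(.cut .d 0 (.cut .v 16777216 (.cut .v 8388608 (.void 2 ⟨⟨0, 0, 100000, 0, 0, 0, 0, 0, 0, ⟨0, 0⟩, 0⟩, 0, 0⟩ 0 0) (.cut .d (-8388608) (.void 3 ⟨⟨100000, 0, 0, 0, 0, 0, 0, 0, 0, ⟨0, 0⟩, 0⟩, 0, 0⟩ 0 0) (.cut .d (-4194304) (.void 3 ⟨⟨100000, 0, 0, 0, 0, 0, 0, 0, 0, ⟨0, 0⟩, 0⟩, 0, 0⟩ 0 0) (.cut .d (-2097152) (.void 3 ⟨⟨100000, 0, 0, 0, 0, 0, 0, 0, 0, ⟨0, 0⟩, 0⟩, 0, 0⟩ 0 0) (.cut .d (-1048576)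 (.void 3 ⟨⟨0, 0, 0, 0, 0, 100000, 0, 0, 0, ⟨0, 0⟩, 0⟩, 0, 0⟩ 0 0) (.cut .d (-524288) (.void 3 ⟨⟨0, 0, 0, 0, 0, 100000, 0, 0, 0, ⟨0, 0⟩, 0⟩, 0, 0⟩ 0 0) (.cut .d (-262144) (.void 3 ⟨⟨0, 0, 0, 0, 0, 100000, 0, 0, 0, ⟨0, 0⟩, 0⟩, 0, 0⟩ 0 0) (.cut .s 14876672 (.pos 3 .mm ⟨⟨0, 0, 0, 0, 0, 1005754668, 0, 0, 0, ⟨0, 0⟩, 0⟩, 0, 0⟩ 0 0) (.pos 3 .mm ⟨⟨0, 0, 0, 0, 0, 1077803283, 0, 0, 0, ⟨0, 0⟩, 0⟩, 0, 0⟩ 0 0))))))))) (.cut .v 268435456 (.cut .v 67108864 (.cut .v 33554432 (.cut .d (-8388608) (.void 22 ⟨⟨99939, 0, 0, 0, 0, 0, 0, 0, 0, ⟨0, 0⟩, 0⟩, 0, 0⟩ 0 0) (.cut .v 25165824 (.cut .d (-4194304) (.void 23 ⟨⟨100000, 0, 0, 0, 0, 0, 0, 0, 0, ⟨0, 0⟩, 0⟩,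 0, 0⟩ 0 0) (.cut .v 20971520 (.cut .d (-2097152) (.void 25 ⟨⟨100000, 0, 0, 0, 0, 0, 0, 0, 0, ⟨0, 0⟩, 0⟩, 0, 0⟩ 0 0) (.cut .d (-1048576) (.void 25 ⟨⟨100000, 0, 0, 0, 0, 0, 0, 0, 0, ⟨0, 0⟩, 0⟩, 0, 0⟩ 0 0) (.cut .v 18874368 (.cut .d (-524288) (.void 27 ⟨⟨100000, 0, 0, 0, 0, 0, 0, 0, 0, ⟨0, 0⟩, 0⟩, 0, 0⟩ 0 0) (.cut .v 17825792 (.cut .d (-262144) (.void 29 ⟨⟨100000, 0, 0, 0, 0, 0, 0, 0, 0, ⟨0, 0⟩, 0⟩, 0, 0⟩ 0 0) (.cut .v 17301504 (.cut .d (-131072) (.void 31 ⟨⟨100000, 0, 0, 0, 0, 0, 0, 0, 0, ⟨0, 0⟩, 0⟩, 0, 0⟩ 0 0) (.cut .v 17039360 (.cut .d (-65536) (.void 33 ⟨⟨100000, 0, 0, 0, 0, 0, 0, 0, 0, ⟨0, 0⟩, 0⟩, 0, 0⟩ 0 0) (.cut .d (-32768) (.void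 33 ⟨⟨100000, 0, 0, 0, 0, 0, 0, 0, 0, ⟨0, 0⟩, 0⟩, 0, 0⟩ 0 0) (.cut .d (-16384) (.void 33 ⟨⟨0, 0, 0, 0, 0, 100000, 0, 0, 0, ⟨0, 0⟩, 0⟩, 0, 0⟩ 0 0) (.cut .v 16908288 (.cut .s 14876672 (.cut .s 14843904 (.cut .d (-8192) (.cut .l 230687 (.void 35 ⟨⟨0, 0, 0, 0, 0, 100000, 0, 0, 0, ⟨0, 0⟩, 0⟩, 0, 0⟩ 0 0) (.cut .s 14827520 (.pos 35 .mp ⟨⟨260254769, 0, 0, 0, 0, 454260786, 0, 0, 0, ⟨0, 0⟩, 0⟩, 0, 0⟩ 0 0) (.pos 35 .mp ⟨⟨263700419, 0, 0, 0, 0, 463010931, 0, 0, 0, ⟨0, 0⟩, 0⟩, 0, 0⟩ 0 0))) (.cut .v 16842752 (.cut .l 230687 (.cut .s 14827520 (.cut .d (-4096) (.pos 39 .mp ⟨⟨259361359, 0, 0, 0, 0, 458005987, 0, 0, 0, ⟨0, 0⟩, 0⟩, 0, 0⟩ 0 0) (.cut .s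 14819328 (.pos 39 .mp ⟨⟨268057474, 0, 0, 0, 0, 421353306, 0, 0, 0, ⟨0, 0⟩, 0⟩, 0, 0⟩ 0 0) (.pos 39 .mp ⟨⟨270572470, 0, 0, 0, 0, 423362631, 0, 0, 0, ⟨0, 0⟩, 0⟩, 0, 0⟩ 0 0))) (.cut .d (-4096) (.pos 39 .mp ⟨⟨263636347, 0, 0, 0, 0, 463984919, 0, 0, 0, ⟨0, 0⟩, 0⟩, 0, 0⟩ 0 0) (.cut .s 14835712 (.pos 39 .mp ⟨⟨273089010, 0, 0, 0, 0, 425515468, 0, 0, 0, ⟨0, 0⟩, 0⟩, 0, 0⟩ 0 0) (.pos 39 .mp ⟨⟨275495897, 0, 0, 0, 0, 428093128, 0, 0, 0, ⟨0, 0⟩, 0⟩, 0, 0⟩ 0 0)))) (.pos 39 .mp ⟨⟨272505195, 0, 0, 0, 0, 406612215, 0, 0, 0, ⟨0, 0⟩, 0⟩, 0, 0⟩ 0 0)) (.pos 40 .mp ⟨⟨462457466, 0, 0, 0, 0, 0, 0, 0, 0, ⟨0, 0⟩, 0⟩, 0, 0⟩ 0 0))) (.cut .d (-8192) (.cut .d (-12288)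 (.pos 35 .mp ⟨⟨271925931, 0, 0, 0, 0, 487185777, 0, 0, 0, ⟨0, 0⟩, 0⟩, 0, 0⟩ 0 0) (.cut .l 230687 (.void 35 ⟨⟨0, 0, 0, 0, 0, 100000, 0, 0, 0, ⟨0, 0⟩, 0⟩, 0, 0⟩ 0 0) (.cut .s 14860288 (.pos 35 .mp ⟨⟨267911616, 0, 0, 0, 0, 469802801, 0, 0, 0, ⟨0, 0⟩, 0⟩, 0, 0⟩ 0 0) (.pos 35 .mp ⟨⟨271919163, 0, 0, 0, 0, 478175277, 0, 0, 0, ⟨0, 0⟩, 0⟩, 0, 0⟩ 0 0)))) (.cut .l 230687 (.cut .v 16842752 (.cut .s 14860288 (.cut .d (-4096) (.pos 39 .mp ⟨⟨268006529, 0, 0, 0, 0, 470413769, 0, 0, 0, ⟨0, 0⟩, 0⟩, 0, 0⟩ 0 0) (.cut .s 14852096 (.pos 39 .mp ⟨⟨277774736, 0, 0, 0, 0, 431143060, 0, 0, 0, ⟨0, 0⟩, 0⟩, 0, 0⟩ 0 0) (.pos 39 .mp ⟨⟨280079394, 0, 0, 0, 0, 434278780,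 0, 0, 0, ⟨0, 0⟩, 0⟩, 0, 0⟩ 0 0))) (.cut .d (-4096) (.pos 39 .mp ⟨⟨272474310, 0, 0, 0, 0, 477304435, 0, 0, 0, ⟨0, 0⟩, 0⟩, 0, 0⟩ 0 0) (.cut .l 115343 (.cut .d (-2048) (.pos 39 .mp ⟨⟨279896580, 0, 0, 0, 0, 455454140, 0, 0, 0, ⟨0, 0⟩, 0⟩, 0, 0⟩ 0 0) (.cut .s 14868480 (.pos 39 .mp ⟨⟨279921613, 0, 0, 0, 0, 442696412, 0, 0, 0, ⟨0, 0⟩, 0⟩, 0, 0⟩ 0 0) (.pos 39 .mp ⟨⟨282311701, 0, 0, 0, 0, 445884323, 0, 0, 0, ⟨0, 0⟩, 0⟩, 0, 0⟩ 0 0))) (.pos 39 .mp ⟨⟨280897242, 0, 0, 0, 0, 433348857, 0, 0, 0, ⟨0, 0⟩, 0⟩, 0, 0⟩ 0 0)))) (.pos 40 .mp ⟨⟨524163648, 0, 0, 0, 0, 0, 0, 0, 0, ⟨0, 0⟩, 0⟩, 0, 0⟩ 0 0)) (.pos 35 .mp ⟨⟨284225339, 0, 0, 0, 0, 414314588, 0, 0,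 0, ⟨0, 0⟩, 0⟩, 0, 0⟩ 0 0)))) (.cut .s 14909440 (.cut .d (-8192) (.cut .l 230687 (.void 35 ⟨⟨0, 0, 0, 0, 0, 100000, 0, 0, 0, ⟨0, 0⟩, 0⟩, 0, 0⟩ 0 0) (.cut .d (-12288) (.pos 35 .mp ⟨⟨281237136, 0, 0, 0, 0, 499644127, 0, 0, 0, ⟨0, 0⟩, 0⟩, 0, 0⟩ 0 0) (.cut .s 14893056 (.pos 35 .mp ⟨⟨276515930, 0, 0, 0, 0, 485480306, 0, 0, 0, ⟨0, 0⟩, 0⟩, 0, 0⟩ 0 0) (.pos 35 .mp ⟨⟨281215023, 0, 0, 0, 0, 493151825, 0, 0, 0, ⟨0, 0⟩, 0⟩, 0, 0⟩ 0 0)))) (.cut .l 230687 (.cut .v 16842752 (.cut .s 14893056 (.cut .d (-4096) (.pos 39 .mp ⟨⟨277042179, 0, 0, 0, 0, 484669223, 0, 0, 0, ⟨0, 0⟩, 0⟩, 0, 0⟩ 0 0) (.cut .l 115343 (.cut .d (-2048) (.pos 39 .mp ⟨⟨284341847, 0,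 0, 0, 0, 463315375, 0, 0, 0, ⟨0, 0⟩, 0⟩, 0, 0⟩ 0 0) (.cut .s 14884864 (.pos 39 .mp ⟨⟨284714034, 0, 0, 0, 0, 449201533, 0, 0, 0, ⟨0, 0⟩, 0⟩, 0, 0⟩ 0 0) (.pos 39 .mp ⟨⟨287128325, 0, 0, 0, 0, 452650229, 0, 0, 0, ⟨0, 0⟩, 0⟩, 0, 0⟩ 0 0))) (.pos 39 .mp ⟨⟨285630063, 0, 0, 0, 0, 440152983, 0, 0, 0, ⟨0, 0⟩, 0⟩, 0, 0⟩ 0 0))) (.cut .d (-4096) (.pos 39 .mp ⟨⟨281712709, 0, 0, 0, 0, 492520868, 0, 0, 0, ⟨0, 0⟩, 0⟩, 0, 0⟩ 0 0) (.cut .v 16809984 (.cut .l 115343 (.cut .d (-2048) (.pos 41 .mp ⟨⟨281971736, 0, 0, 0, 0, 489329265, 0, 0, 0, ⟨0, 0⟩, 0⟩, 0, 0⟩ 0 0) (.cut .s 14901248 (.pos 41 .mp ⟨⟨288005182, 0, 0, 0, 0, 459623442, 0, 0, 0, ⟨0, 0⟩, 0⟩, 0, 0⟩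 0 0) (.pos 41 .mp ⟨⟨290428991, 0, 0, 0, 0, 463372197, 0, 0, 0, ⟨0, 0⟩, 0⟩, 0, 0⟩ 0 0))) (.pos 41 .mp ⟨⟨289204650, 0, 0, 0, 0, 449362116, 0, 0, 0, ⟨0, 0⟩, 0⟩, 0, 0⟩ 0 0)) (.pos 42 .mp ⟨⟨493187864, 0, 0, 0, 0, 0, 0, 0, 0, ⟨0, 0⟩, 0⟩, 0, 0⟩ 0 0)))) (.pos 40 .mp ⟨⟨540630941, 0, 0, 0, 0, 0, 0, 0, 0, ⟨0, 0⟩, 0⟩, 0, 0⟩ 0 0)) (.pos 35 .mp ⟨⟨293982658, 0, 0, 0, 0, 426871783, 0, 0, 0, ⟨0, 0⟩, 0⟩, 0, 0⟩ 0 0))) (.cut .d (-8192) (.cut .l 230687 (.void 35 ⟨⟨0, 0, 0, 0, 0, 100000, 0, 0, 0, ⟨0, 0⟩, 0⟩, 0, 0⟩ 0 0) (.cut .s 14925824 (.pos 35 .mp ⟨⟨286019100, 0, 0, 0, 0, 501995403, 0, 0, 0, ⟨0, 0⟩, 0⟩, 0, 0⟩ 0 0) (.pos 35 .mp ⟨⟨290930913, 0, 0, 0, 0,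 510380864, 0, 0, 0, ⟨0, 0⟩, 0⟩, 0, 0⟩ 0 0))) (.cut .l 230687 (.cut .v 16842752 (.cut .s 14925824 (.cut .d (-4096) (.pos 39 .mp ⟨⟨286488567, 0, 0, 0, 0, 500872551, 0, 0, 0, ⟨0, 0⟩, 0⟩, 0, 0⟩ 0 0) (.cut .v 16809984 (.cut .l 115343 (.cut .d (-2048) (.pos 41 .mp ⟨⟨286733647, 0, 0, 0, 0, 497667148, 0, 0, 0, ⟨0, 0⟩, 0⟩, 0, 0⟩ 0 0) (.cut .s 14917632 (.pos 41 .mp ⟨⟨292842989, 0, 0, 0, 0, 467304927, 0, 0, 0, ⟨0, 0⟩, 0⟩, 0, 0⟩ 0 0) (.pos 41 .mp ⟨⟨295245929, 0, 0, 0, 0, 471426044, 0, 0, 0, ⟨0, 0⟩, 0⟩, 0, 0⟩ 0 0))) (.pos 41 .mp ⟨⟨284264386, 0, 0, 0, 0, 479339862, 0, 0, 0, ⟨0, 0⟩, 0⟩, 0, 0⟩ 0 0)) (.pos 42 .mp ⟨⟨501359806, 0, 0, 0, 0, 0, 0, 0, 0,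 ⟨0, 0⟩, 0⟩, 0, 0⟩ 0 0))) (.cut .d (-4096) (.pos 39 .mp ⟨⟨291372511, 0, 0, 0, 0, 509737917, 0, 0, 0, ⟨0, 0⟩, 0⟩, 0, 0⟩ 0 0) (.cut .l 115343 (.cut .d (-2048) (.pos 39 .mp ⟨⟨299409325, 0, 0, 0, 0, 485901367, 0, 0, 0, ⟨0, 0⟩, 0⟩, 0, 0⟩ 0 0) (.cut .s 14934016 (.pos 39 .mp ⟨⟨299368338, 0, 0, 0, 0, 471945799, 0, 0, 0, ⟨0, 0⟩, 0⟩, 0, 0⟩ 0 0) (.pos 39 .mp ⟨⟨301847722, 0, 0, 0, 0, 476231959, 0, 0, 0, ⟨0, 0⟩, 0⟩, 0, 0⟩ 0 0))) (.pos 39 .mp ⟨⟨300486036, 0, 0, 0, 0, 461451692, 0, 0, 0, ⟨0, 0⟩, 0⟩, 0, 0⟩ 0 0)))) (.pos 40 .mp ⟨⟨557839479, 0, 0, 0, 0, 0, 0, 0, 0, ⟨0, 0⟩, 0⟩, 0, 0⟩ 0 0)) (.pos 35 .mp ⟨⟨304190390, 0, 0, 0, 0, 439988845, 0, 0, 0, ⟨0, 0⟩,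 0⟩, 0, 0⟩ 0 0))))) (.pos 36 .mp ⟨⟨524216466, 0, 0, 0, 0, 0, 0, 0, 0, ⟨0, 0⟩, 0⟩, 0, 0⟩ 0 0))))) (.pos 34 .mp ⟨⟨596375641, 0, 0, 0, 0, 0, 0, 0, 0, ⟨0, 0⟩, 0⟩, 0, 0⟩ 0 0))) (.void 32 ⟨⟨100000, 0, 0, 0, 0, 0, 0, 0, 0, ⟨0, 0⟩, 0⟩, 0, 0⟩ 0 0))) (.void 30 ⟨⟨100000, 0, 0, 0, 0, 0, 0, 0, 0, ⟨0, 0⟩, 0⟩, 0, 0⟩ 0 0))) (.void 28 ⟨⟨100000, 0, 0, 0, 0, 0, 0, 0, 0, ⟨0, 0⟩, 0⟩, 0, 0⟩ 0 0)))) (.void 26 ⟨⟨100000, 0, 0, 0, 0, 0, 0, 0, 0, ⟨0, 0⟩, 0⟩, 0, 0⟩ 0 0))) (.void 24 ⟨⟨100000, 0, 0, 0, 0, 0, 0, 0, 0, ⟨0, 0⟩, 0⟩, 0, 0⟩ 0 0))) (.void 73 ⟨⟨100000, 0, 0, 0, 0, 0, 0, 0, 0, ⟨0, 0⟩, 0⟩, 0, 0⟩ 0 0)) (.void 84 ⟨⟨100000, 0, 0, 0, 0, 0, 0, 0, 0, ⟨0, 0⟩, 0⟩,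 0, 0⟩ 0 0)) (.void 93 ⟨⟨90995, 0, 0, 9005, 0, 0, 0, 0, 0, ⟨0, 0⟩, 0⟩, 0, 0⟩ 0 0))) (.cut .v 16777216 (.cut .v 8388608 (.cut .v 4194304 (.cut .v 2097152 (.cut .v 1048576 (.pos 89 .pm ⟨⟨0, 0, 24640182, 0, 0, 0, 0, 0, 0, ⟨0, 0⟩, 0⟩, 0, 11216⟩ 0 0) (.pos 90 .pm ⟨⟨0, 0, 29524987, 0, 0, 0, 0, 0, 0, ⟨0, 0⟩, 0⟩, 0, 21569⟩ 0 0)) (.pos 88 .pm ⟨⟨0, 0, 35233216, 0, 0, 0, 0, 0, 0, ⟨0, 0⟩, 0⟩, 0, 34032⟩ 0 0)) (.pos 5 .pm ⟨⟨0, 0, 65663021, 0, 0, 0, 0, 0, 0, ⟨0, 0⟩, 0⟩, 0, 66220⟩ 0 0)) (.pos 3 .pm ⟨⟨0, 0, 0, 0, 0, 0, 0, 0, 0, ⟨0, 0⟩, 0⟩, 0, 0⟩ 0 0)) (.cut .v 268435456 (.cut .v 67108864 (.cut .d 1113533 (.cut .v 33554432 (.cut .d 556766 (.cut .v 25165824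 (.cut .d 278383 (.cut .v 20971520 (.cut .v 18874368 (.pos 27 .pp ⟨⟨209069368, 0, 0, 0, 0, 0, 0, 0, 0, ⟨0, 0⟩, 0⟩, 49141399, 0⟩ 0 0) (.pos 28 .pp ⟨⟨571860630, 0, 0, 0, 0, 0, 0, 0, 0, ⟨0, 0⟩, 0⟩, 0, 0⟩ 0 0)) (.pos 26 .pp ⟨⟨769957765, 0, 0, 0, 0, 0, 0, 0, 0, ⟨0, 0⟩, 0⟩, 0, 0⟩ 0 0)) (.pos 23 .pp ⟨⟨0, 0, 0, 0, 0, 0, 0, 0, 0, ⟨0, 0⟩, 0⟩, 45215941, 107748⟩ 0 0)) (.pos 24 .pp ⟨⟨0, 0, 0, 0, 0, 0, 0, 0, 0, ⟨0, 0⟩, 0⟩, 181223862, 0⟩ 0 0)) (.pos 22 .pp ⟨⟨0, 0, 0, 0, 0, 0, 0, 0, 0, ⟨0, 0⟩, 0⟩, 31606317, 125146⟩ 0 0)) (.cut .d 556766 (.pos 73 .pp ⟨⟨0, 0, 0, 0, 0, 0, 0, 0, 0, ⟨0, 0⟩, 0⟩, 364258767, 0⟩ 0 0) (.pos 73 .pp ⟨⟨0, 0, 0, 0, 0, 0, 0, 0, 0,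 ⟨0, 0⟩, 0⟩, 202460201, 0⟩ 0 0))) (.pos 72 .pp ⟨⟨0, 0, 0, 0, 0, 0, 0, 0, 0, ⟨0, 0⟩, 0⟩, 0, 165549⟩ 0 0)) (.void 84 ⟨⟨0, 0, 0, 50382, 0, 0, 0, 0, 0, ⟨0, 0⟩, 0⟩, 49618, 0⟩ 0 0)) (.void 93 ⟨⟨0, 0, 0, 0, 0, 0, 0, 0, 0, ⟨0, 0⟩, 0⟩, 100000, 0⟩ 0 0)))),
    by decide +kernel⟩

def covers32 : cell.Covers Vale.Agent.P237.Petty.Cor.Grid.N8.table row32.1 :=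
  ⟨(.cut .d 0 (.cut .v 16777216 (.cut .v 8388608 (.void 2 ⟨⟨0, 0, 100000, 0, 0, 0, 0, 0, 0, ⟨0, 0⟩, 0⟩, 0, 0⟩ 0 0) (.cut .d (-8388608) (.void 3 ⟨⟨100000, 0, 0, 0, 0, 0, 0, 0, 0, ⟨0, 0⟩, 0⟩, 0, 0⟩ 0 0) (.cut .d (-4194304) (.void 3 ⟨⟨100000, 0, 0, 0, 0, 0, 0, 0, 0, ⟨0, 0⟩, 0⟩, 0, 0⟩ 0 0) (.cut .d (-2097152) (.void 3 ⟨⟨100000, 0, 0, 0, 0, 0, 0, 0, 0, ⟨0, 0⟩, 0⟩, 0, 0⟩ 0 0) (.cut .d (-1048576) (.void 3 ⟨⟨0, 0, 0, 0, 0, 100000, 0, 0, 0, ⟨0, 0⟩, 0⟩, 0, 0⟩ 0 0) (.cut .d (-524288) (.void 3 ⟨⟨0, 0, 0, 0, 0, 100000, 0, 0, 0, ⟨0, 0⟩, 0⟩, 0, 0⟩ 0 0) (.cut .d (-262144) (.void 3 ⟨⟨0, 0, 0, 0, 0, 100000, 0, 0, 0, ⟨0, 0⟩, 0⟩, 0, 0⟩ 0 0) (.cut .s 15007744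 (.pos 3 .mm ⟨⟨0, 0, 0, 0, 0, 1157287920, 0, 0, 0, ⟨0, 0⟩, 0⟩, 0, 0⟩ 0 0) (.pos 3 .mm ⟨⟨0, 0, 0, 0, 0, 1244757903, 0, 0, 0, ⟨0, 0⟩, 0⟩, 0, 0⟩ 0 0))))))))) (.cut .v 268435456 (.cut .v 67108864 (.cut .v 33554432 (.cut .d (-8388608) (.void 22 ⟨⟨100000, 0, 0, 0, 0, 0, 0, 0, 0, ⟨0, 0⟩, 0⟩, 0, 0⟩ 0 0) (.cut .v 25165824 (.cut .d (-4194304) (.void 23 ⟨⟨100000, 0, 0, 0, 0, 0, 0, 0, 0, ⟨0, 0⟩, 0⟩, 0, 0⟩ 0 0) (.cut .v 20971520 (.cut .d (-2097152) (.void 25 ⟨⟨100000, 0, 0, 0, 0, 0, 0, 0, 0, ⟨0, 0⟩, 0⟩, 0, 0⟩ 0 0) (.cut .d (-1048576) (.void 25 ⟨⟨100000, 0, 0, 0, 0, 0, 0, 0, 0, ⟨0, 0⟩, 0⟩, 0, 0⟩ 0 0) (.cut .v 18874368 (.cut .d (-524288) (.void 27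 ⟨⟨100000, 0, 0, 0, 0, 0, 0, 0, 0, ⟨0, 0⟩, 0⟩, 0, 0⟩ 0 0) (.cut .v 17825792 (.cut .d (-262144) (.void 29 ⟨⟨100000, 0, 0, 0, 0, 0, 0, 0, 0, ⟨0, 0⟩, 0⟩, 0, 0⟩ 0 0) (.cut .v 17301504 (.cut .d (-131072) (.void 31 ⟨⟨100000, 0, 0, 0, 0, 0, 0, 0, 0, ⟨0, 0⟩, 0⟩, 0, 0⟩ 0 0) (.cut .v 17039360 (.cut .d (-65536) (.void 33 ⟨⟨100000, 0, 0, 0, 0, 0, 0, 0, 0, ⟨0, 0⟩, 0⟩, 0, 0⟩ 0 0) (.cut .d (-32768) (.void 33 ⟨⟨100000, 0, 0, 0, 0, 0, 0, 0, 0, ⟨0, 0⟩, 0⟩, 0, 0⟩ 0 0) (.cut .d (-16384) (.void 33 ⟨⟨0, 0, 0, 0, 0, 100000, 0, 0, 0, ⟨0, 0⟩, 0⟩, 0, 0⟩ 0 0) (.cut .v 16908288 (.cut .s 15007744 (.cut .d (-8192) (.cut .l 230687 (.void 35 ⟨⟨0, 0, 0, 0, 0, 100000,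 0, 0, 0, ⟨0, 0⟩, 0⟩, 0, 0⟩ 0 0) (.cut .d (-12288) (.pos 35 .mp ⟨⟨301151921, 0, 0, 0, 0, 577813432, 0, 0, 0, ⟨0, 0⟩, 0⟩, 0, 0⟩ 0 0) (.cut .v 16842752 (.pos 39 .mp ⟨⟨0, 0, 0, 0, 0, 1207295697, 0, 0, 0, ⟨0, 0⟩, 0⟩, 0, 0⟩ 0 0) (.cut .v 16875520 (.cut .s 14974976 (.cut .s 14958592 (.pos 74 .mp ⟨⟨297250881, 0, 0, 0, 0, 513256743, 0, 0, 0, ⟨0, 0⟩, 0⟩, 0, 0⟩ 0 0) (.pos 74 .mp ⟨⟨302435777, 0, 0, 0, 0, 521045981, 0, 0, 0, ⟨0, 0⟩, 0⟩, 0, 0⟩ 0 0)) (.cut .s 14991360 (.pos 74 .mp ⟨⟨307742899, 0, 0, 0, 0, 529289559, 0, 0, 0, ⟨0, 0⟩, 0⟩, 0, 0⟩ 0 0) (.pos 74 .mp ⟨⟨313175567, 0, 0, 0, 0, 537991765, 0, 0, 0, ⟨0, 0⟩, 0⟩, 0, 0⟩ 0 0))) (.pos 75 .mp ⟨⟨457758772,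 0, 0, 0, 0, 210551061, 0, 0, 0, ⟨0, 0⟩, 0⟩, 0, 0⟩ 0 0))))) (.cut .l 230687 (.cut .v 16842752 (.cut .s 14974976 (.cut .d (-4096) (.cut .s 14958592 (.pos 39 .mp ⟨⟨296368177, 0, 0, 0, 0, 519143821, 0, 0, 0, ⟨0, 0⟩, 0⟩, 0, 0⟩ 0 0) (.pos 39 .mp ⟨⟨301491644, 0, 0, 0, 0, 526971443, 0, 0, 0, ⟨0, 0⟩, 0⟩, 0, 0⟩ 0 0)) (.cut .l 115343 (.cut .v 16809984 (.cut .s 14958592 (.cut .s 14950400 (.pos 41 .mp ⟨⟨302028887, 0, 0, 0, 0, 486166798, 0, 0, 0, ⟨0, 0⟩, 0⟩, 0, 0⟩ 0 0) (.pos 41 .mp ⟨⟨303538350, 0, 0, 0, 0, 492424104, 0, 0, 0, ⟨0, 0⟩, 0⟩, 0, 0⟩ 0 0)) (.cut .d (-2048) (.pos 41 .mp ⟨⟨301689477, 0, 0, 0, 0, 523731167, 0, 0, 0, ⟨0, 0⟩, 0⟩, 0, 0⟩ 0 0)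 (.cut .s 14966784 (.pos 41 .mp ⟨⟨308086783, 0, 0, 0, 0, 491130015, 0, 0, 0, ⟨0, 0⟩, 0⟩, 0, 0⟩ 0 0) (.pos 41 .mp ⟨⟨310926562, 0, 0, 0, 0, 494535348, 0, 0, 0, ⟨0, 0⟩, 0⟩, 0, 0⟩ 0 0)))) (.pos 42 .mp ⟨⟨575551504, 0, 0, 0, 0, 0, 0, 0, 0, ⟨0, 0⟩, 0⟩, 0, 0⟩ 0 0)) (.pos 39 .mp ⟨⟨310989916, 0, 0, 0, 0, 462978377, 0, 0, 0, ⟨0, 0⟩, 0⟩, 0, 0⟩ 0 0))) (.cut .d (-4096) (.cut .s 14991360 (.pos 39 .mp ⟨⟨306737033, 0, 0, 0, 0, 535392342, 0, 0, 0, ⟨0, 0⟩, 0⟩, 0, 0⟩ 0 0) (.pos 39 .mp ⟨⟨312107655, 0, 0, 0, 0, 544423309, 0, 0, 0, ⟨0, 0⟩, 0⟩, 0, 0⟩ 0 0)) (.cut .l 115343 (.cut .v 16809984 (.cut .s 14991360 (.cut .d (-2048) (.pos 41 .mp ⟨⟨306915145, 0, 0, 0,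 0, 532148758, 0, 0, 0, ⟨0, 0⟩, 0⟩, 0, 0⟩ 0 0) (.cut .s 14983168 (.pos 41 .mp ⟨⟨313759612, 0, 0, 0, 0, 498149355, 0, 0, 0, ⟨0, 0⟩, 0⟩, 0, 0⟩ 0 0) (.pos 41 .mp ⟨⟨316584423, 0, 0, 0, 0, 501977397, 0, 0, 0, ⟨0, 0⟩, 0⟩, 0, 0⟩ 0 0))) (.cut .d (-2048) (.pos 41 .mp ⟨⟨312266156, 0, 0, 0, 0, 541174271, 0, 0, 0, ⟨0, 0⟩, 0⟩, 0, 0⟩ 0 0) (.cut .s 14999552 (.pos 41 .mp ⟨⟨319354935, 0, 0, 0, 0, 506136884, 0, 0, 0, ⟨0, 0⟩, 0⟩, 0, 0⟩ 0 0) (.pos 41 .mp ⟨⟨322148680, 0, 0, 0, 0, 510434405, 0, 0, 0, ⟨0, 0⟩, 0⟩, 0, 0⟩ 0 0)))) (.pos 42 .mp ⟨⟨594351857, 0, 0, 0, 0, 0, 0, 0, 0, ⟨0, 0⟩, 0⟩, 0, 0⟩ 0 0)) (.pos 39 .mp ⟨⟨322005498, 0, 0, 0, 0, 477675804, 0, 0, 0,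 ⟨0, 0⟩, 0⟩, 0, 0⟩ 0 0)))) (.pos 40 .mp ⟨⟨583027531, 0, 0, 0, 0, 0, 0, 0, 0, ⟨0, 0⟩, 0⟩, 0, 0⟩ 0 0)) (.cut .d (-4096) (.cut .s 14974976 (.pos 35 .mp ⟨⟨314908806, 0, 0, 0, 0, 458720587, 0, 0, 0, ⟨0, 0⟩, 0⟩, 0, 0⟩ 0 0) (.cut .s 14991360 (.pos 35 .mp ⟨⟨320461938, 0, 0, 0, 0, 482594173, 0, 0, 0, ⟨0, 0⟩, 0⟩, 0, 0⟩ 0 0) (.pos 35 .mp ⟨⟨326149372, 0, 0, 0, 0, 490341416, 0, 0, 0, ⟨0, 0⟩, 0⟩, 0, 0⟩ 0 0))) (.pos 35 .mp ⟨⟨307907396, 0, 0, 0, 0, 0, 0, 0, 0, ⟨0, 0⟩, 0⟩, 0, 0⟩ 0 0)))) (.cut .s 15040512 (.cut .d (-8192) (.cut .d (-12288) (.pos 35 .mp ⟨⟨323089554, 0, 0, 0, 0, 576157465, 0, 0, 0, ⟨0, 0⟩, 0⟩, 0, 0⟩ 0 0) (.cut .l 230687 (.void 35 ⟨⟨0, 0,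 0, 0, 0, 100000, 0, 0, 0, ⟨0, 0⟩, 0⟩, 0, 0⟩ 0 0) (.cut .s 15024128 (.pos 35 .mp ⟨⟨317351740, 0, 0, 0, 0, 554124331, 0, 0, 0, ⟨0, 0⟩, 0⟩, 0, 0⟩ 0 0) (.pos 35 .mp ⟨⟨323022413, 0, 0, 0, 0, 563881037, 0, 0, 0, ⟨0, 0⟩, 0⟩, 0, 0⟩ 0 0)))) (.cut .l 230687 (.cut .v 16842752 (.cut .s 15024128 (.cut .d (-4096) (.pos 39 .mp ⟨⟨317606943, 0, 0, 0, 0, 554081757, 0, 0, 0, ⟨0, 0⟩, 0⟩, 0, 0⟩ 0 0) (.cut .v 16809984 (.cut .l 115343 (.cut .d (-2048) (.pos 41 .mp ⟨⟨317745946, 0, 0, 0, 0, 550825055, 0, 0, 0, ⟨0, 0⟩, 0⟩, 0, 0⟩ 0 0) (.cut .s 15015936 (.pos 41 .mp ⟨⟨324976260, 0, 0, 0, 0, 514844944, 0, 0, 0, ⟨0, 0⟩, 0⟩, 0, 0⟩ 0 0) (.pos 41 .mp ⟨⟨327769243, 0,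 0, 0, 0, 519542188, 0, 0, 0, ⟨0, 0⟩, 0⟩, 0, 0⟩ 0 0))) (.pos 41 .mp ⟨⟨314885186, 0, 0, 0, 0, 530819648, 0, 0, 0, ⟨0, 0⟩, 0⟩, 0, 0⟩ 0 0)) (.pos 42 .mp ⟨⟨369571117, 0, 0, 0, 0, 428598853, 0, 0, 0, ⟨0, 0⟩, 0⟩, 0, 0⟩ 0 0))) (.cut .d (-4096) (.pos 39 .mp ⟨⟨323238459, 0, 0, 0, 0, 564385748, 0, 0, 0, ⟨0, 0⟩, 0⟩, 0, 0⟩ 0 0) (.cut .v 16809984 (.cut .l 115343 (.cut .d (-2048) (.pos 41 .mp ⟨⟨323358078, 0, 0, 0, 0, 561119109, 0, 0, 0, ⟨0, 0⟩, 0⟩, 0, 0⟩ 0 0) (.cut .s 15032320 (.pos 41 .mp ⟨⟨330528355, 0, 0, 0, 0, 524525926, 0, 0, 0, ⟨0, 0⟩, 0⟩, 0, 0⟩ 0 0) (.pos 41 .mp ⟨⟨333269035, 0, 0, 0, 0, 529758984, 0, 0, 0, ⟨0, 0⟩, 0⟩, 0, 0⟩ 0 0))) (.pos 41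 .mp ⟨⟨320424349, 0, 0, 0, 0, 539872232, 0, 0, 0, ⟨0, 0⟩, 0⟩, 0, 0⟩ 0 0)) (.pos 42 .mp ⟨⟨377579172, 0, 0, 0, 0, 433173064, 0, 0, 0, ⟨0, 0⟩, 0⟩, 0, 0⟩ 0 0)))) (.pos 40 .mp ⟨⟨616474112, 0, 0, 0, 0, 0, 0, 0, 0, ⟨0, 0⟩, 0⟩, 0, 0⟩ 0 0)) (.cut .s 15024128 (.pos 35 .mp ⟨⟨331974825, 0, 0, 0, 0, 495628935, 0, 0, 0, ⟨0, 0⟩, 0⟩, 0, 0⟩ 0 0) (.pos 35 .mp ⟨⟨337942153, 0, 0, 0, 0, 503821364, 0, 0, 0, ⟨0, 0⟩, 0⟩, 0, 0⟩ 0 0)))) (.cut .d (-8192) (.cut .s 15056896 (.cut .s 15048704 (.pos 35 .mp ⟨⟨328828791, 0, 0, 0, 0, 573271306, 0, 0, 0, ⟨0, 0⟩, 0⟩, 0, 0⟩ 0 0) (.pos 35 .mp ⟨⟨331784062, 0, 0, 0, 0, 578887918, 0, 0, 0, ⟨0, 0⟩, 0⟩, 0, 0⟩ 0 0)) (.pos 35 .mp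 ⟨⟨334774707, 0, 0, 0, 0, 593533956, 0, 0, 0, ⟨0, 0⟩, 0⟩, 0, 0⟩ 0 0)) (.cut .l 230687 (.cut .v 16842752 (.cut .s 15056896 (.cut .d (-4096) (.pos 39 .mp ⟨⟨329005900, 0, 0, 0, 0, 575354024, 0, 0, 0, ⟨0, 0⟩, 0⟩, 0, 0⟩ 0 0) (.cut .v 16809984 (.cut .s 15048704 (.pos 41 .mp ⟨⟨334004947, 0, 0, 0, 0, 540562934, 0, 0, 0, ⟨0, 0⟩, 0⟩, 0, 0⟩ 0 0) (.pos 41 .mp ⟨⟨338784281, 0, 0, 0, 0, 541446164, 0, 0, 0, ⟨0, 0⟩, 0⟩, 0, 0⟩ 0 0)) (.pos 42 .mp ⟨⟨386577032, 0, 0, 0, 0, 436411421, 0, 0, 0, ⟨0, 0⟩, 0⟩, 0, 0⟩ 0 0))) (.cut .d (-4096) (.pos 39 .mp ⟨⟨334913103, 0, 0, 0, 0, 587006039, 0, 0, 0, ⟨0, 0⟩, 0⟩, 0, 0⟩ 0 0) (.cut .s 15065088 (.pos 39 .mp ⟨⟨347304358,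 0, 0, 0, 0, 534164973, 0, 0, 0, ⟨0, 0⟩, 0⟩, 0, 0⟩ 0 0) (.pos 39 .mp ⟨⟨350435869, 0, 0, 0, 0, 539269299, 0, 0, 0, ⟨0, 0⟩, 0⟩, 0, 0⟩ 0 0)))) (.pos 40 .mp ⟨⟨637262299, 0, 0, 0, 0, 0, 0, 0, 0, ⟨0, 0⟩, 0⟩, 0, 0⟩ 0 0)) (.pos 35 .mp ⟨⟨350318603, 0, 0, 0, 0, 502332380, 0, 0, 0, ⟨0, 0⟩, 0⟩, 0, 0⟩ 0 0))))) (.pos 36 .mp ⟨⟨598384997, 0, 0, 0, 0, 0, 0, 0, 0, ⟨0, 0⟩, 0⟩, 0, 0⟩ 0 0))))) (.pos 34 .mp ⟨⟨681875635, 0, 0, 0, 0, 0, 0, 0, 0, ⟨0, 0⟩, 0⟩, 0, 0⟩ 0 0))) (.void 32 ⟨⟨100000, 0, 0, 0, 0, 0, 0, 0, 0, ⟨0, 0⟩, 0⟩, 0, 0⟩ 0 0))) (.void 30 ⟨⟨100000, 0, 0, 0, 0, 0, 0, 0, 0, ⟨0, 0⟩, 0⟩, 0, 0⟩ 0 0))) (.void 28 ⟨⟨100000, 0, 0, 0, 0, 0, 0, 0, 0, ⟨0, 0⟩,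 0⟩, 0, 0⟩ 0 0)))) (.void 26 ⟨⟨100000, 0, 0, 0, 0, 0, 0, 0, 0, ⟨0, 0⟩, 0⟩, 0, 0⟩ 0 0))) (.void 24 ⟨⟨100000, 0, 0, 0, 0, 0, 0, 0, 0, ⟨0, 0⟩, 0⟩, 0, 0⟩ 0 0))) (.void 73 ⟨⟨100000, 0, 0, 0, 0, 0, 0, 0, 0, ⟨0, 0⟩, 0⟩, 0, 0⟩ 0 0)) (.void 84 ⟨⟨100000, 0, 0, 0, 0, 0, 0, 0, 0, ⟨0, 0⟩, 0⟩, 0, 0⟩ 0 0)) (.void 93 ⟨⟨90923, 0, 0, 9077, 0, 0, 0, 0, 0, ⟨0, 0⟩, 0⟩, 0, 0⟩ 0 0))) (.cut .v 16777216 (.cut .v 8388608 (.cut .v 4194304 (.cut .v 2097152 (.cut .v 1048576 (.pos 89 .pm ⟨⟨0, 0, 27470878, 0, 0, 0, 0, 0, 0, ⟨0, 0⟩, 0⟩, 0, 9389⟩ 0 0) (.pos 90 .pm ⟨⟨0, 0, 35170367, 0, 0, 0, 0, 0, 0, ⟨0, 0⟩, 0⟩, 0, 13808⟩ 0 0)) (.pos 88 .pm ⟨⟨0, 0, 43444552, 0, 0, 0,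 0, 0, 0, ⟨0, 0⟩, 0⟩, 0, 31151⟩ 0 0)) (.pos 5 .pm ⟨⟨0, 0, 89525064, 0, 0, 0, 0, 0, 0, ⟨0, 0⟩, 0⟩, 0, 56072⟩ 0 0)) (.pos 3 .pm ⟨⟨0, 0, 0, 0, 0, 0, 0, 0, 0, ⟨0, 0⟩, 0⟩, 0, 0⟩ 0 0)) (.cut .v 268435456 (.cut .v 67108864 (.cut .d 1030181 (.cut .v 33554432 (.cut .d 515090 (.cut .v 25165824 (.cut .d 257545 (.cut .v 20971520 (.cut .v 18874368 (.pos 27 .pp ⟨⟨245771361, 0, 0, 0, 0, 0, 0, 0, 0, ⟨0, 0⟩, 0⟩, 54578505, 0⟩ 0 0) (.pos 28 .pp ⟨⟨650615203, 0, 0, 0, 0, 0, 0, 0, 0, ⟨0, 0⟩, 0⟩, 0, 0⟩ 0 0)) (.pos 26 .pp ⟨⟨875180151, 0, 0, 0, 0, 0, 0, 0, 0, ⟨0, 0⟩, 0⟩, 0, 0⟩ 0 0)) (.pos 23 .pp ⟨⟨0, 0, 0, 0, 0, 0, 0, 0, 0, ⟨0, 0⟩, 0⟩, 53011382, 89574⟩ 0 0))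 (.pos 24 .pp ⟨⟨0, 0, 0, 0, 0, 0, 0, 0, 0, ⟨0, 0⟩, 0⟩, 205606132, 0⟩ 0 0)) (.pos 22 .pp ⟨⟨0, 0, 0, 0, 0, 0, 0, 0, 0, ⟨0, 0⟩, 0⟩, 39019366, 102931⟩ 0 0)) (.cut .d 515090 (.pos 73 .pp ⟨⟨0, 0, 0, 0, 0, 0, 0, 0, 0, ⟨0, 0⟩, 0⟩, 412814226, 0⟩ 0 0) (.pos 73 .pp ⟨⟨0, 0, 0, 0, 0, 0, 0, 0, 0, ⟨0, 0⟩, 0⟩, 202994746, 0⟩ 0 0))) (.pos 72 .pp ⟨⟨0, 0, 0, 0, 0, 0, 0, 0, 0, ⟨0, 0⟩, 0⟩, 0, 140180⟩ 0 0)) (.void 84 ⟨⟨0, 0, 0, 50547, 0, 0, 0, 0, 0, ⟨0, 0⟩, 0⟩, 49453, 0⟩ 0 0)) (.void 93 ⟨⟨0, 0, 0, 0, 0, 0, 0, 0, 0, ⟨0, 0⟩, 0⟩, 100000, 0⟩ 0 0)))),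
    by decide +kernel⟩

def covers33 : cell.Covers Vale.Agent.P237.Petty.Cor.Grid.N8.table row33.1 :=
  ⟨(.cut .d 0 (.cut .v 16777216 (.cut .v 8388608 (.void 2 ⟨⟨0, 0, 100000, 0, 0, 0, 0, 0, 0, ⟨0, 0⟩, 0⟩, 0, 0⟩ 0 0) (.cut .d (-8388608) (.void 3 ⟨⟨100000, 0, 0, 0, 0, 0, 0, 0, 0, ⟨0, 0⟩, 0⟩, 0, 0⟩ 0 0) (.cut .d (-4194304) (.void 3 ⟨⟨100000, 0, 0, 0, 0, 0, 0, 0, 0, ⟨0, 0⟩, 0⟩, 0, 0⟩ 0 0) (.cut .d (-2097152) (.void 3 ⟨⟨100000, 0, 0, 0, 0, 0, 0, 0, 0, ⟨0, 0⟩, 0⟩, 0, 0⟩ 0 0) (.cut .d (-1048576) (.void 3 ⟨⟨68710, 0, 31290, 0, 0, 0, 0, 0, 0, ⟨0, 0⟩, 0⟩, 0, 0⟩ 0 0) (.cut .d (-524288) (.void 3 ⟨⟨0, 0, 0, 0, 0, 100000, 0, 0, 0, ⟨0, 0⟩, 0⟩, 0,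 0⟩ 0 0) (.cut .d (-262144) (.void 3 ⟨⟨0, 0, 0, 0, 0, 100000, 0, 0, 0, ⟨0, 0⟩, 0⟩, 0, 0⟩ 0 0) (.cut .s 15122432 (.pos 3 .mm ⟨⟨0, 0, 0, 0, 0, 1317716810, 0, 0, 0, ⟨0, 0⟩, 0⟩, 0, 0⟩ 0 0) (.pos 3 .mm ⟨⟨0, 0, 0, 0, 0, 1438746305, 0, 0, 0, ⟨0, 0⟩, 0⟩, 0, 0⟩ 0 0))))))))) (.cut .v 268435456 (.cut .v 67108864 (.cut .v 33554432 (.cut .d (-8388608) (.void 22 ⟨⟨99970, 0, 0, 0, 0, 0, 0, 0, 0, ⟨0, 0⟩, 0⟩, 0, 0⟩ 0 0) (.cut .v 25165824 (.cut .d (-4194304) (.void 23 ⟨⟨100000, 0, 0, 0, 0, 0, 0, 0, 0, ⟨0, 0⟩, 0⟩, 0, 0⟩ 0 0) (.cut .d (-2097152) (.void 23 ⟨⟨100000, 0, 0, 0, 0, 0, 0, 0, 0, ⟨0, 0⟩, 0⟩, 0, 0⟩ 0 0) (.cut .v 20971520 (.cut .d (-1048576) (.void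 25 ⟨⟨100000, 0, 0, 0, 0, 0, 0, 0, 0, ⟨0, 0⟩, 0⟩, 0, 0⟩ 0 0) (.cut .v 18874368 (.cut .d (-524288) (.void 27 ⟨⟨100000, 0, 0, 0, 0, 0, 0, 0, 0, ⟨0, 0⟩, 0⟩, 0, 0⟩ 0 0) (.cut .v 17825792 (.cut .d (-262144) (.void 29 ⟨⟨100000, 0, 0, 0, 0, 0, 0, 0, 0, ⟨0, 0⟩, 0⟩, 0, 0⟩ 0 0) (.cut .s 15122432 (.cut .v 17301504 (.cut .d (-131072) (.void 31 ⟨⟨100000, 0, 0, 0, 0, 0, 0, 0, 0, ⟨0, 0⟩, 0⟩, 0, 0⟩ 0 0) (.cut .s 15097856 (.cut .v 17039360 (.cut .d (-65536) (.void 33 ⟨⟨100000, 0, 0, 0, 0, 0, 0, 0, 0, ⟨0, 0⟩, 0⟩, 0, 0⟩ 0 0) (.cut .v 16908288 (.cut .s 15085568 (.cut .s 15079424 (.cut .d (-32768) (.void 35 ⟨⟨100000, 0, 0, 0, 0, 0, 0, 0, 0, ⟨0, 0⟩, 0⟩, 0,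 0⟩ 0 0) (.cut .s 15076352 (.cut .s 15074816 (.cut .v 16842752 (.pos 39 .mp ⟨⟨345348718, 0, 0, 0, 0, 564586251, 0, 0, 0, ⟨0, 0⟩, 0⟩, 0, 0⟩ 0 0) (.pos 40 .mp ⟨⟨383007204, 0, 0, 0, 0, 495025722, 0, 0, 0, ⟨0, 0⟩, 0⟩, 0, 0⟩ 0 0)) (.pos 35 .mp ⟨⟨385324433, 0, 0, 0, 0, 495405815, 0, 0, 0, ⟨0, 0⟩, 0⟩, 0, 0⟩ 0 0)) (.pos 35 .mp ⟨⟨424732912, 0, 0, 0, 0, 428110052, 0, 0, 0, ⟨0, 0⟩, 0⟩, 0, 0⟩ 0 0))) (.pos 35 .mp ⟨⟨489633549, 0, 0, 0, 0, 329262356, 0, 0, 0, ⟨0, 0⟩, 0⟩, 0, 0⟩ 0 0)) (.pos 35 .mp ⟨⟨638571040, 0, 0, 0, 0, 83508904, 0, 0, 0, ⟨0, 0⟩, 0⟩, 0, 0⟩ 0 0)) (.pos 36 .mp ⟨⟨668645625, 0, 0, 0, 0, 0, 0, 0, 0, ⟨0, 0⟩, 0⟩, 0, 0⟩ 0 0))) (.pos 34 .mp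 ⟨⟨695093818, 0, 0, 0, 0, 0, 0, 0, 0, ⟨0, 0⟩, 0⟩, 0, 0⟩ 0 0)) (.pos 31 .mp ⟨⟨662212529, 0, 0, 0, 0, 108073640, 0, 0, 0, ⟨0, 0⟩, 0⟩, 0, 0⟩ 0 0))) (.void 32 ⟨⟨100000, 0, 0, 0, 0, 0, 0, 0, 0, ⟨0, 0⟩, 0⟩, 0, 0⟩ 0 0)) (.pos 29 .mp ⟨⟨749230943, 0, 0, 0, 0, 122067867, 0, 0, 0, ⟨0, 0⟩, 0⟩, 0, 0⟩ 0 0))) (.void 30 ⟨⟨100000, 0, 0, 0, 0, 0, 0, 0, 0, ⟨0, 0⟩, 0⟩, 0, 0⟩ 0 0))) (.void 28 ⟨⟨100000, 0, 0, 0, 0, 0, 0, 0, 0, ⟨0, 0⟩, 0⟩, 0, 0⟩ 0 0))) (.void 26 ⟨⟨100000, 0, 0, 0, 0, 0, 0, 0, 0, ⟨0, 0⟩, 0⟩, 0, 0⟩ 0 0)))) (.void 24 ⟨⟨100000, 0, 0, 0, 0, 0, 0, 0, 0, ⟨0, 0⟩, 0⟩, 0, 0⟩ 0 0))) (.void 73 ⟨⟨100000, 0, 0, 0, 0, 0, 0, 0, 0, ⟨0, 0⟩, 0⟩, 0, 0⟩ 0 0))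 (.void 84 ⟨⟨99974, 0, 0, 0, 0, 0, 0, 0, 0, ⟨0, 0⟩, 0⟩, 0, 0⟩ 0 0)) (.void 93 ⟨⟨102511, 0, 0, 10030, 0, 0, 0, 0, 0, ⟨0, 0⟩, 0⟩, 0, 0⟩ 0 0))) (.cut .v 16777216 (.cut .v 8388608 (.cut .v 4194304 (.cut .v 2097152 (.cut .v 1048576 (.pos 89 .pm ⟨⟨0, 0, 30834982, 0, 0, 0, 0, 0, 0, ⟨0, 0⟩, 0⟩, 0, 19213⟩ 0 0) (.pos 90 .pm ⟨⟨0, 0, 40674268, 0, 0, 0, 0, 0, 0, ⟨0, 0⟩, 0⟩, 0, 24598⟩ 0 0)) (.pos 88 .pm ⟨⟨0, 0, 53712271, 0, 0, 0, 0, 0, 0, ⟨0, 0⟩, 0⟩, 0, 26084⟩ 0 0)) (.pos 5 .pm ⟨⟨0, 0, 122117496, 0, 0, 0, 0, 0, 0, ⟨0, 0⟩, 0⟩, 0, 46951⟩ 0 0)) (.pos 3 .pm ⟨⟨0, 0, 0, 0, 0, 0, 0, 0, 0, ⟨0, 0⟩, 0⟩, 0, 0⟩ 0 0)) (.cut .v 268435456 (.cut .v 67108864 (.cut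 .d 948278 (.cut .v 33554432 (.cut .d 474139 (.cut .v 25165824 (.cut .d 237069 (.cut .v 20971520 (.cut .v 18874368 (.pos 27 .pp ⟨⟨233158805, 0, 0, 0, 0, 0, 0, 0, 0, ⟨0, 0⟩, 0⟩, 72074366, 0⟩ 0 0) (.pos 28 .pp ⟨⟨736306141, 0, 0, 0, 0, 0, 0, 0, 0, ⟨0, 0⟩, 0⟩, 0, 0⟩ 0 0)) (.pos 26 .pp ⟨⟨981146504, 0, 0, 0, 0, 0, 0, 0, 0, ⟨0, 0⟩, 0⟩, 0, 0⟩ 0 0)) (.pos 23 .pp ⟨⟨0, 0, 0, 0, 0, 0, 0, 0, 0, ⟨0, 0⟩, 0⟩, 61640545, 89312⟩ 0 0)) (.pos 24 .pp ⟨⟨0, 0, 0, 0, 0, 0, 0, 0, 0, ⟨0, 0⟩, 0⟩, 228670364, 0⟩ 0 0)) (.pos 22 .pp ⟨⟨0, 0, 0, 0, 0, 0, 0, 0, 0, ⟨0, 0⟩, 0⟩, 48403975, 83649⟩ 0 0)) (.cut .d 474139 (.pos 73 .pp ⟨⟨0, 0, 0, 0, 0, 0, 0, 0, 0, ⟨0, 0⟩, 0⟩,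 453100498, 0⟩ 0 0) (.pos 73 .pp ⟨⟨0, 0, 0, 0, 0, 0, 0, 0, 0, ⟨0, 0⟩, 0⟩, 236924713, 0⟩ 0 0))) (.pos 72 .pp ⟨⟨0, 0, 0, 0, 0, 0, 0, 0, 0, ⟨0, 0⟩, 0⟩, 0, 117377⟩ 0 0)) (.void 84 ⟨⟨0, 0, 0, 50670, 0, 0, 0, 0, 0, ⟨0, 0⟩, 0⟩, 49330, 0⟩ 0 0)) (.void 93 ⟨⟨0, 0, 0, 0, 0, 0, 0, 0, 0, ⟨0, 0⟩, 0⟩, 100000, 0⟩ 0 0)))),
    by decide +kernel⟩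

def covers34 : cell.Covers Vale.Agent.P237.Petty.Cor.Grid.N8.table row34.1 :=
  ⟨(.cut .d 0 (.cut .v 16777216 (.cut .v 8388608 (.void 2 ⟨⟨0, 0, 100000, 0, 0, 0, 0, 0, 0, ⟨0, 0⟩, 0⟩, 0, 0⟩ 0 0) (.cut .d (-8388608) (.void 3 ⟨⟨100000, 0, 0, 0, 0, 0, 0, 0, 0, ⟨0, 0⟩, 0⟩, 0, 0⟩ 0 0) (.cut .d (-4194304) (.void 3 ⟨⟨100000, 0, 0, 0, 0, 0, 0, 0, 0, ⟨0, 0⟩, 0⟩, 0, 0⟩ 0 0) (.pos 3 .mm ⟨⟨0, 0, 0, 0, 0, 3089832050, 0, 0, 0, ⟨0, 0⟩, 0⟩, 0, 0⟩ 0 0)))) (.cut .v 268435456 (.cut .v 67108864 (.cut .v 33554432 (.cut .d (-8388608) (.void 22 ⟨⟨99987, 0, 0, 0, 0, 0, 0, 0, 0, ⟨0, 0⟩, 0⟩, 0, 0⟩ 0 0) (.cut .v 25165824 (.cut .d (-4194304) (.void 23 ⟨⟨100000,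 0, 0, 0, 0, 0, 0, 0, 0, ⟨0, 0⟩, 0⟩, 0, 0⟩ 0 0) (.cut .d (-2097152) (.void 23 ⟨⟨100000, 0, 0, 0, 0, 0, 0, 0, 0, ⟨0, 0⟩, 0⟩, 0, 0⟩ 0 0) (.cut .v 20971520 (.pos 25 .mp ⟨⟨716711063, 0, 0, 0, 0, 1772604159, 0, 0, 0, ⟨0, 0⟩, 0⟩, 0, 0⟩ 0 0) (.void 26 ⟨⟨100000, 0, 0, 0, 0, 0, 0, 0, 0, ⟨0, 0⟩, 0⟩, 0, 0⟩ 0 0)))) (.void 24 ⟨⟨100000, 0, 0, 0, 0, 0, 0, 0, 0, ⟨0, 0⟩, 0⟩, 0, 0⟩ 0 0))) (.void 73 ⟨⟨100000, 0, 0, 0, 0, 0, 0, 0, 0, ⟨0, 0⟩, 0⟩, 0, 0⟩ 0 0)) (.void 84 ⟨⟨100000, 0, 0, 0, 0, 0, 0, 0, 0, ⟨0, 0⟩, 0⟩, 0, 0⟩ 0 0)) (.void 93 ⟨⟨85505, 0, 0, 9255, 0, 0, 35, 0, 0, ⟨0, 0⟩, 0⟩, 0, 0⟩ 0 0))) (.cut .v 16777216 (.cut .v 8388608 (.cut .v 4194304 (.cut .v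 2097152 (.cut .v 1048576 (.pos 89 .pm ⟨⟨0, 0, 34523761, 0, 0, 0, 0, 0, 0, ⟨0, 0⟩, 0⟩, 0, 11225⟩ 0 0) (.pos 90 .pm ⟨⟨0, 0, 46399422, 0, 0, 0, 0, 0, 0, ⟨0, 0⟩, 0⟩, 0, 26588⟩ 0 0)) (.pos 88 .pm ⟨⟨0, 0, 64529944, 0, 0, 0, 0, 0, 0, ⟨0, 0⟩, 0⟩, 0, 53366⟩ 0 0)) (.pos 5 .pm ⟨⟨0, 0, 154305419, 0, 0, 0, 0, 0, 0, ⟨0, 0⟩, 0⟩, 0, 96058⟩ 0 0)) (.pos 3 .pm ⟨⟨0, 0, 0, 0, 0, 0, 0, 0, 0, ⟨0, 0⟩, 0⟩, 0, 0⟩ 0 0)) (.cut .v 268435456 (.cut .v 67108864 (.cut .d 887780 (.cut .v 33554432 (.cut .d 443890 (.cut .v 25165824 (.cut .d 221945 (.cut .v 20971520 (.cut .v 18874368 (.pos 27 .pp ⟨⟨658168347, 0, 0, 0, 0, 0, 0, 0, 0, ⟨0, 0⟩, 0⟩, 0, 96579⟩ 0 0) (.pos 28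 .pp ⟨⟨823269713, 0, 0, 0, 0, 0, 0, 0, 0, ⟨0, 0⟩, 0⟩, 0, 138074⟩ 0 0)) (.pos 26 .pp ⟨⟨1101851583, 0, 0, 0, 0, 0, 279644, 0, 0, ⟨0, 0⟩, 0⟩, 0, 0⟩ 0 0)) (.pos 23 .pp ⟨⟨0, 0, 0, 0, 0, 0, 618756, 0, 0, ⟨0, 0⟩, 0⟩, 62621891, 0⟩ 0 0)) (.pos 24 .pp ⟨⟨0, 0, 0, 0, 0, 0, 305801, 0, 0, ⟨0, 0⟩, 0⟩, 255584240, 0⟩ 0 0)) (.pos 22 .pp ⟨⟨0, 0, 0, 0, 0, 0, 0, 0, 0, ⟨0, 0⟩, 0⟩, 57120909, 209260⟩ 0 0)) (.cut .d 443890 (.pos 73 .pp ⟨⟨0, 0, 0, 0, 0, 0, 6068, 0, 0, ⟨0, 0⟩, 0⟩, 503825719, 0⟩ 0 0) (.pos 73 .pp ⟨⟨0, 0, 0, 0, 0, 0, 346458, 0, 0, ⟨0, 0⟩, 0⟩, 283920525, 0⟩ 0 0))) (.pos 72 .pp ⟨⟨0, 0, 0, 0, 0, 0, 0, 0, 0, ⟨0, 0⟩, 0⟩, 0, 240146⟩ 0 0)) (.void 84 ⟨⟨0,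 0, 0, 50793, 0, 0, 0, 0, 0, ⟨0, 0⟩, 0⟩, 49207, 0⟩ 0 0)) (.void 93 ⟨⟨0, 0, 0, 0, 0, 0, 0, 0, 0, ⟨0, 0⟩, 0⟩, 100000, 0⟩ 0 0)))),
    by decide +kernel⟩

def covers35 : cell.Covers Vale.Agent.P237.Petty.Cor.Grid.N8.table row35.1 :=
  ⟨(.cut .d 0 (.cut .v 16777216 (.cut .v 8388608 (.void 2 ⟨⟨0, 0, 100000, 0, 0, 0, 0, 0, 0, ⟨0, 0⟩, 0⟩, 0, 0⟩ 0 0) (.cut .d (-8388608) (.void 3 ⟨⟨100000, 0, 0, 0, 0, 0, 0, 0, 0, ⟨0, 0⟩, 0⟩, 0, 0⟩ 0 0) (.cut .d (-4194304) (.void 3 ⟨⟨100000, 0, 0, 0, 0, 0, 0, 0, 0, ⟨0, 0⟩, 0⟩, 0, 0⟩ 0 0) (.pos 3 .mm ⟨⟨0, 0, 0, 0, 0, 3700105156, 0, 0, 0, ⟨0, 0⟩, 0⟩, 0, 0⟩ 0 0)))) (.cut .v 268435456 (.cut .v 67108864 (.cut .v 33554432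 (.cut .d (-8388608) (.void 22 ⟨⟨99972, 0, 0, 0, 0, 0, 0, 0, 0, ⟨0, 0⟩, 0⟩, 0, 0⟩ 0 0) (.cut .v 25165824 (.cut .d (-4194304) (.void 23 ⟨⟨100000, 0, 0, 0, 0, 0, 0, 0, 0, ⟨0, 0⟩, 0⟩, 0, 0⟩ 0 0) (.cut .d (-2097152) (.void 23 ⟨⟨100000, 0, 0, 0, 0, 0, 0, 0, 0, ⟨0, 0⟩, 0⟩, 0, 0⟩ 0 0) (.cut .v 20971520 (.pos 25 .mp ⟨⟨833567573, 0, 0, 0, 0, 2117809076, 0, 0, 0, ⟨0, 0⟩, 0⟩, 0, 0⟩ 0 0) (.void 26 ⟨⟨100000, 0, 0, 0, 0, 0, 0, 0, 0, ⟨0, 0⟩, 0⟩, 0, 0⟩ 0 0)))) (.void 24 ⟨⟨100000, 0, 0, 0, 0, 0, 0, 0, 0, ⟨0, 0⟩, 0⟩, 0, 0⟩ 0 0))) (.void 73 ⟨⟨100000, 0, 0, 0, 0, 0, 0, 0, 0, ⟨0, 0⟩, 0⟩, 0, 0⟩ 0 0)) (.void 84 ⟨⟨99820, 0, 0, 0, 0, 0, 0, 0, 0, ⟨0, 0⟩, 0⟩,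 0, 0⟩ 0 0)) (.void 93 ⟨⟨90744, 0, 0, 9256, 0, 0, 0, 0, 0, ⟨0, 0⟩, 0⟩, 0, 0⟩ 0 0))) (.cut .v 16777216 (.cut .v 8388608 (.cut .v 4194304 (.cut .v 2097152 (.cut .v 1048576 (.cut .v 524288 (.pos 96 .pm ⟨⟨0, 0, 31381163, 0, 0, 0, 0, 0, 0, ⟨0, 0⟩, 0⟩, 0, 6978⟩ 0 0) (.pos 97 .pm ⟨⟨0, 0, 42131781, 0, 0, 0, 0, 0, 0, ⟨0, 0⟩, 0⟩, 0, 10361⟩ 0 0)) (.pos 90 .pm ⟨⟨0, 0, 54714449, 0, 0, 0, 0, 0, 0, ⟨0, 0⟩, 0⟩, 0, 22622⟩ 0 0)) (.pos 88 .pm ⟨⟨0, 0, 79543089, 0, 0, 0, 0, 0, 0, ⟨0, 0⟩, 0⟩, 0, 46507⟩ 0 0)) (.pos 5 .pm ⟨⟨0, 0, 194656162, 0, 0, 0, 0, 0, 0, ⟨0, 0⟩, 0⟩, 0, 83713⟩ 0 0)) (.pos 3 .pm ⟨⟨0, 0, 0, 0, 0, 0, 0, 0, 0, ⟨0, 0⟩, 0⟩, 0, 0⟩ 0 0)) (.cut .v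 268435456 (.cut .v 67108864 (.cut .d 828061 (.cut .v 33554432 (.cut .d 414030 (.cut .v 25165824 (.cut .d 207015 (.cut .v 20971520 (.cut .v 18874368 (.pos 27 .pp ⟨⟨739886943, 0, 0, 0, 0, 0, 0, 0, 0, ⟨0, 0⟩, 0⟩, 0, 88863⟩ 0 0) (.pos 28 .pp ⟨⟨936130405, 0, 0, 0, 0, 0, 0, 0, 0, ⟨0, 0⟩, 0⟩, 0, 120822⟩ 0 0)) (.pos 26 .pp ⟨⟨1264423382, 0, 0, 0, 0, 0, 242516, 0, 0, ⟨0, 0⟩, 0⟩, 0, 0⟩ 0 0)) (.pos 23 .pp ⟨⟨0, 0, 0, 0, 0, 0, 627764, 0, 0, ⟨0, 0⟩, 0⟩, 0, 0⟩ 0 0)) (.pos 24 .pp ⟨⟨0, 0, 0, 0, 0, 0, 264867, 0, 0, ⟨0, 0⟩, 0⟩, 293370202, 0⟩ 0 0)) (.pos 22 .pp ⟨⟨0, 0, 0, 0, 0, 0, 0, 0, 0, ⟨0, 0⟩, 0⟩, 67682522, 181371⟩ 0 0)) (.cut .d 414030 (.pos 73 .pp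 ⟨⟨0, 0, 0, 0, 0, 0, 32599, 0, 0, ⟨0, 0⟩, 0⟩, 583599670, 0⟩ 0 0) (.pos 73 .pp ⟨⟨0, 54161739, 0, 0, 0, 0, 307381, 0, 0, ⟨0, 0⟩, 0⟩, 321123809, 0⟩ 0 0))) (.pos 72 .pp ⟨⟨0, 69059649, 0, 0, 0, 0, 0, 0, 0, ⟨0, 0⟩, 0⟩, 0, 209282⟩ 0 0)) (.void 84 ⟨⟨0, 0, 0, 50957, 0, 0, 0, 0, 0, ⟨0, 0⟩, 0⟩, 49043, 0⟩ 0 0)) (.void 93 ⟨⟨0, 0, 0, 0, 0, 0, 0, 0, 0, ⟨0, 0⟩, 0⟩, 100000, 0⟩ 0 0)))),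
    by decide +kernel⟩

def covers36 : cell.Covers Vale.Agent.P237.Petty.Cor.Grid.N8.table row36.1 :=
  ⟨(.cut .d 0 (.cut .v 16777216 (.cut .v 8388608 (.void 2 ⟨⟨0, 0, 100000, 0, 0, 0, 0, 0, 0, ⟨0, 0⟩, 0⟩, 0, 0⟩ 0 0) (.cut .d (-8388608) (.void 3 ⟨⟨100000, 0, 0, 0, 0, 0, 0, 0, 0, ⟨0, 0⟩, 0⟩, 0, 0⟩ 0 0) (.cut .d (-4194304) (.void 3 ⟨⟨100000, 0, 0, 0, 0, 0, 0, 0, 0, ⟨0, 0⟩, 0⟩, 0, 0⟩ 0 0) (.pos 3 .mm ⟨⟨0, 0, 0, 0, 0, 4477985821, 0, 0, 0, ⟨0, 0⟩, 0⟩, 0, 0⟩ 0 0)))) (.cut .v 268435456 (.cut .v 67108864 (.cut .v 33554432 (.cut .d (-8388608) (.void 22 ⟨⟨99993, 0, 0, 0, 0, 0, 0, 0, 0, ⟨0, 0⟩, 0⟩, 0, 0⟩ 0 0) (.cut .v 25165824 (.cut .d (-4194304)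 (.void 23 ⟨⟨100000, 0, 0, 0, 0, 0, 0, 0, 0, ⟨0, 0⟩, 0⟩, 0, 0⟩ 0 0) (.cut .d (-2097152) (.void 23 ⟨⟨100000, 0, 0, 0, 0, 0, 0, 0, 0, ⟨0, 0⟩, 0⟩, 0, 0⟩ 0 0) (.cut .v 20971520 (.pos 25 .mp ⟨⟨994317079, 0, 0, 0, 0, 2534601910, 0, 0, 0, ⟨0, 0⟩, 0⟩, 0, 0⟩ 0 0) (.void 26 ⟨⟨100000, 0, 0, 0, 0, 0, 0, 0, 0, ⟨0, 0⟩, 0⟩, 0, 0⟩ 0 0)))) (.void 24 ⟨⟨100000, 0, 0, 0, 0, 0, 0, 0, 0, ⟨0, 0⟩, 0⟩, 0, 0⟩ 0 0))) (.void 73 ⟨⟨100000, 0, 0, 0, 0, 0, 0, 0, 0, ⟨0, 0⟩, 0⟩, 0, 0⟩ 0 0)) (.void 84 ⟨⟨100000, 0, 0, 0, 0, 0, 0, 0, 0, ⟨0, 0⟩, 0⟩, 0, 0⟩ 0 0)) (.void 93 ⟨⟨90673, 0, 0, 9327, 0, 0, 0, 0, 0, ⟨0, 0⟩, 0⟩, 0, 0⟩ 0 0))) (.cut .v 16777216 (.cut .v 8388608 (.cut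 .v 4194304 (.cut .v 2097152 (.cut .v 1048576 (.cut .v 524288 (.pos 96 .pm ⟨⟨0, 0, 34447346, 0, 0, 0, 0, 0, 0, ⟨0, 0⟩, 0⟩, 0, 2803⟩ 0 0) (.pos 97 .pm ⟨⟨0, 0, 49529090, 0, 0, 0, 0, 0, 0, ⟨0, 0⟩, 0⟩, 0, 8240⟩ 0 0)) (.pos 90 .pm ⟨⟨0, 0, 67514330, 0, 0, 0, 0, 0, 0, ⟨0, 0⟩, 0⟩, 0, 20104⟩ 0 0)) (.pos 88 .pm ⟨⟨0, 0, 104641902, 0, 0, 0, 0, 0, 0, ⟨0, 0⟩, 0⟩, 0, 37975⟩ 0 0)) (.pos 5 .pm ⟨⟨0, 0, 266014256, 0, 0, 0, 0, 0, 0, ⟨0, 0⟩, 0⟩, 0, 68355⟩ 0 0)) (.pos 3 .pm ⟨⟨0, 0, 0, 0, 0, 0, 0, 0, 0, ⟨0, 0⟩, 0⟩, 0, 0⟩ 0 0)) (.cut .v 268435456 (.cut .v 67108864 (.cut .d 749621 (.cut .v 33554432 (.cut .d 374810 (.cut .v 25165824 (.cut .d 187405 (.cut .v 20971520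 (.cut .v 18874368 (.pos 27 .pp ⟨⟨870328868, 0, 0, 0, 0, 0, 0, 0, 0, ⟨0, 0⟩, 0⟩, 0, 73854⟩ 0 0) (.pos 28 .pp ⟨⟨1101192953, 0, 0, 0, 0, 0, 0, 0, 0, ⟨0, 0⟩, 0⟩, 0, 100783⟩ 0 0)) (.pos 26 .pp ⟨⟨1487562491, 0, 0, 0, 0, 0, 203924, 0, 0, ⟨0, 0⟩, 0⟩, 0, 0⟩ 0 0)) (.pos 23 .pp ⟨⟨0, 0, 0, 0, 0, 0, 512613, 0, 0, ⟨0, 0⟩, 0⟩, 0, 0⟩ 0 0)) (.pos 24 .pp ⟨⟨0, 0, 0, 0, 0, 0, 224224, 0, 0, ⟨0, 0⟩, 0⟩, 344758566, 0⟩ 0 0)) (.pos 22 .pp ⟨⟨0, 0, 0, 0, 0, 0, 0, 0, 0, ⟨0, 0⟩, 0⟩, 85449468, 147059⟩ 0 0)) (.cut .d 374810 (.pos 73 .pp ⟨⟨0, 0, 0, 0, 0, 0, 46965, 0, 0, ⟨0, 0⟩, 0⟩, 686016139, 0⟩ 0 0) (.pos 73 .pp ⟨⟨0, 190335675, 0, 0, 0, 0, 251960, 0, 0, ⟨0, 0⟩, 0⟩,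 386902845, 0⟩ 0 0))) (.pos 72 .pp ⟨⟨0, 427988231, 0, 0, 0, 0, 0, 0, 0, ⟨0, 0⟩, 0⟩, 0, 170888⟩ 0 0)) (.void 84 ⟨⟨0, 0, 0, 51119, 0, 0, 0, 0, 0, ⟨0, 0⟩, 0⟩, 48881, 0⟩ 0 0)) (.void 93 ⟨⟨0, 0, 0, 0, 0, 0, 0, 0, 0, ⟨0, 0⟩, 0⟩, 100000, 0⟩ 0 0)))),
    by decide +kernel⟩

def covers37 : cell.Covers Vale.Agent.P237.Petty.Cor.Grid.N8.table row37.1 :=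
  ⟨(.cut .d 0 (.cut .v 16777216 (.cut .v 8388608 (.void 2 ⟨⟨0, 0, 100000, 0, 0, 0, 0, 0, 0, ⟨0, 0⟩, 0⟩, 0, 0⟩ 0 0) (.cut .d (-8388608) (.void 3 ⟨⟨100000, 0, 0, 0, 0, 0, 0, 0, 0, ⟨0, 0⟩, 0⟩, 0, 0⟩ 0 0) (.cut .d (-4194304) (.void 3 ⟨⟨100000, 0, 0, 0, 0, 0, 0, 0, 0, ⟨0, 0⟩, 0⟩, 0, 0⟩ 0 0) (.cut .d (-2097152) (.void 3 ⟨⟨100000, 0, 0, 0, 0, 0, 0, 0, 0, ⟨0, 0⟩, 0⟩, 0, 0⟩ 0 0) (.pos 3 .mm ⟨⟨0, 0, 0, 0, 0, 4845306717, 0, 0, 0, ⟨0, 0⟩, 0⟩, 0, 0⟩ 0 0))))) (.cut .v 268435456 (.cut .v 67108864 (.cut .v 33554432 (.cut .d (-8388608) (.void 22 ⟨⟨99980, 0, 0, 0, 0, 0, 0, 0, 0, ⟨0, 0⟩, 0⟩, 0, 0⟩ 0 0) (.cut .d (-4194304) (.void 22 ⟨⟨100000, 0, 0, 0,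 0, 0, 0, 0, 0, ⟨0, 0⟩, 0⟩, 0, 0⟩ 0 0) (.cut .v 25165824 (.cut .d (-2097152) (.void 23 ⟨⟨100000, 0, 0, 0, 0, 0, 0, 0, 0, ⟨0, 0⟩, 0⟩, 0, 0⟩ 0 0) (.cut .v 20971520 (.cut .s 15654912 (.pos 25 .mp ⟨⟨1194579237, 0, 0, 0, 0, 3031878294, 0, 0, 0, ⟨0, 0⟩, 0⟩, 0, 0⟩ 0 0) (.pos 25 .mp ⟨⟨1455746623, 0, 0, 0, 0, 3674857487, 0, 0, 0, ⟨0, 0⟩, 0⟩, 0, 0⟩ 0 0)) (.void 26 ⟨⟨100000, 0, 0, 0, 0, 0, 0, 0, 0, ⟨0, 0⟩, 0⟩, 0, 0⟩ 0 0))) (.void 24 ⟨⟨100000, 0, 0, 0, 0, 0, 0, 0, 0, ⟨0, 0⟩, 0⟩, 0, 0⟩ 0 0)))) (.void 73 ⟨⟨100000, 0, 0, 0, 0, 0, 0, 0, 0, ⟨0, 0⟩, 0⟩, 0, 0⟩ 0 0)) (.void 84 ⟨⟨100136, 0, 0, 0, 0, 0, 2, 0, 0, ⟨0, 0⟩, 0⟩, 0, 0⟩ 0 0)) (.void 93 ⟨⟨90539,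 0, 0, 9461, 0, 0, 0, 0, 0, ⟨0, 0⟩, 0⟩, 0, 0⟩ 0 0))) (.cut .v 16777216 (.cut .v 8388608 (.cut .v 4194304 (.cut .v 2097152 (.cut .v 1048576 (.cut .v 524288 (.pos 96 .pm ⟨⟨0, 0, 41362914, 0, 0, 0, 0, 0, 0, ⟨0, 0⟩, 0⟩, 0, 1655⟩ 0 0) (.pos 97 .pm ⟨⟨0, 0, 65693413, 0, 0, 0, 0, 0, 0, ⟨0, 0⟩, 0⟩, 0, 6993⟩ 0 0)) (.pos 90 .pm ⟨⟨0, 0, 94306802, 0, 0, 0, 0, 0, 0, ⟨0, 0⟩, 0⟩, 0, 15538⟩ 0 0)) (.pos 88 .pm ⟨⟨0, 0, 149884709, 0, 0, 0, 0, 0, 0, ⟨0, 0⟩, 0⟩, 0, 22928⟩ 0 0)) (.pos 5 .pm ⟨⟨0, 0, 362994317, 0, 0, 0, 0, 0, 0, ⟨0, 0⟩, 0⟩, 0, 53847⟩ 0 0)) (.pos 3 .pm ⟨⟨0, 0, 0, 0, 0, 0, 0, 0, 0, ⟨0, 0⟩, 0⟩, 0, 0⟩ 0 0)) (.cut .v 268435456 (.cut .v 67108864 (.cut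 .d 672505 (.cut .v 33554432 (.cut .d 336252 (.cut .v 25165824 (.cut .d 168126 (.cut .d 84063 (.cut .v 20971520 (.cut .v 18874368 (.cut .s 15654912 (.pos 27 .pp ⟨⟨1026943165, 0, 0, 0, 0, 0, 0, 0, 0, ⟨0, 0⟩, 0⟩, 0, 59855⟩ 0 0) (.pos 27 .pp ⟨⟨1235977663, 0, 0, 0, 0, 0, 0, 0, 0, ⟨0, 0⟩, 0⟩, 0, 47044⟩ 0 0)) (.pos 28 .pp ⟨⟨1561802878, 0, 0, 0, 0, 0, 0, 0, 0, ⟨0, 0⟩, 0⟩, 0, 63248⟩ 0 0)) (.pos 26 .pp ⟨⟨2336207423, 0, 0, 0, 0, 0, 129627, 0, 0, ⟨0, 0⟩, 0⟩, 0, 0⟩ 0 0)) (.pos 23 .pp ⟨⟨0, 0, 0, 0, 0, 0, 102762, 0, 0, ⟨0, 0⟩, 0⟩, 204326004, 46586⟩ 0 0)) (.pos 23 .pp ⟨⟨0, 0, 0, 0, 0, 0, 403825, 0, 0, ⟨0, 0⟩, 0⟩, 0, 0⟩ 0 0)) (.cut .d 168126 (.pos 24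 .pp ⟨⟨0, 0, 0, 0, 0, 0, 146543, 0, 0, ⟨0, 0⟩, 0⟩, 526760025, 0⟩ 0 0) (.pos 24 .pp ⟨⟨0, 0, 0, 0, 0, 0, 249475, 0, 0, ⟨0, 0⟩, 0⟩, 286880810, 0⟩ 0 0))) (.pos 22 .pp ⟨⟨0, 0, 0, 0, 0, 0, 0, 0, 0, ⟨0, 0⟩, 0⟩, 109409813, 114995⟩ 0 0)) (.cut .d 336252 (.pos 73 .pp ⟨⟨0, 0, 0, 0, 0, 0, 53697, 0, 0, ⟨0, 0⟩, 0⟩, 963385335, 0⟩ 0 0) (.pos 73 .pp ⟨⟨0, 709604149, 0, 0, 0, 0, 174863, 0, 0, ⟨0, 0⟩, 0⟩, 506809124, 0⟩ 0 0))) (.pos 72 .pp ⟨⟨0, 944701063, 0, 0, 0, 0, 0, 0, 0, ⟨0, 0⟩, 0⟩, 0, 134618⟩ 0 0)) (.void 84 ⟨⟨0, 0, 0, 51423, 0, 0, 0, 0, 0, ⟨0, 0⟩, 0⟩, 48577, 0⟩ 0 0)) (.void 93 ⟨⟨0, 0, 0, 0, 0, 0, 0, 0, 0, ⟨0, 0⟩, 0⟩, 100000, 0⟩ 0 0)))),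
    by decide +kernel⟩

def covers38 : cell.Covers Vale.Agent.P237.Petty.Cor.Grid.N8.table row38.1 :=
  ⟨(.cut .d 0 (.cut .v 16777216 (.cut .v 8388608 (.void 2 ⟨⟨0, 0, 100000, 0, 0, 0, 0, 0, 0, ⟨0, 0⟩, 0⟩, 0, 0⟩ 0 0) (.cut .d (-8388608) (.void 3 ⟨⟨100000, 0, 0, 0, 0, 0, 0, 0, 0, ⟨0, 0⟩, 0⟩, 0, 0⟩ 0 0) (.cut .d (-4194304) (.void 3 ⟨⟨100000, 0, 0, 0, 0, 0, 0, 0, 0, ⟨0, 0⟩, 0⟩, 0, 0⟩ 0 0) (.pos 3 .mm ⟨⟨0, 0, 0, 0, 0, 9595284480, 0, 0, 0, ⟨0, 0⟩, 0⟩, 0, 0⟩ 0 0)))) (.cut .v 268435456 (.cut .v 67108864 (.cut .v 33554432 (.cut .d (-8388608) (.void 22 ⟨⟨100000, 0, 0, 0, 0, 0, 0, 0, 0, ⟨0, 0⟩, 0⟩, 0, 0⟩ 0 0) (.cut .d (-4194304) (.void 22 ⟨⟨100000,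 0, 0, 0, 0, 0, 0, 0, 0, ⟨0, 0⟩, 0⟩, 0, 0⟩ 0 0) (.cut .v 25165824 (.cut .d (-2097152) (.void 23 ⟨⟨100000, 0, 0, 0, 0, 0, 0, 0, 0, ⟨0, 0⟩, 0⟩, 0, 0⟩ 0 0) (.cut .v 20971520 (.cut .d (-1048576) (.void 25 ⟨⟨100000, 0, 0, 0, 0, 0, 0, 0, 0, ⟨0, 0⟩, 0⟩, 0, 0⟩ 0 0) (.pos 25 .mp ⟨⟨2113652827, 0, 0, 0, 0, 3403407047, 0, 0, 0, ⟨0, 0⟩, 0⟩, 0, 0⟩ 0 0)) (.void 26 ⟨⟨100000, 0, 0, 0, 0, 0, 0, 0, 0, ⟨0, 0⟩, 0⟩, 0, 0⟩ 0 0))) (.void 24 ⟨⟨100000, 0, 0, 0, 0, 0, 0, 0, 0, ⟨0, 0⟩, 0⟩, 0, 0⟩ 0 0)))) (.void 73 ⟨⟨100000, 0, 0, 0, 0, 0, 0, 0, 0, ⟨0, 0⟩, 0⟩, 0, 0⟩ 0 0)) (.void 84 ⟨⟨99919, 0, 0, 0, 0, 0, 0, 0, 0, ⟨0, 0⟩, 0⟩, 0, 0⟩ 0 0)) (.void 93 ⟨⟨90433, 0, 0,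 9567, 0, 0, 0, 0, 0, ⟨0, 0⟩, 0⟩, 0, 0⟩ 0 0))) (.cut .v 16777216 (.cut .v 8388608 (.cut .v 4194304 (.cut .v 2097152 (.cut .v 1048576 (.cut .v 524288 (.pos 96 .pm ⟨⟨0, 0, 54752565, 0, 0, 0, 0, 0, 0, ⟨0, 0⟩, 0⟩, 0, 961⟩ 0 0) (.pos 97 .pm ⟨⟨0, 0, 98420142, 0, 0, 0, 0, 0, 0, ⟨0, 0⟩, 0⟩, 0, 4109⟩ 0 0)) (.pos 90 .pm ⟨⟨0, 0, 154242506, 0, 0, 0, 0, 0, 0, ⟨0, 0⟩, 0⟩, 0, 9281⟩ 0 0)) (.pos 88 .pm ⟨⟨0, 0, 271977168, 0, 0, 0, 0, 0, 0, ⟨0, 0⟩, 0⟩, 0, 17738⟩ 0 0)) (.pos 5 .pm ⟨⟨0, 0, 674495240, 0, 0, 0, 0, 0, 0, ⟨0, 0⟩, 0⟩, 0, 31928⟩ 0 0)) (.pos 3 .pm ⟨⟨0, 0, 0, 0, 0, 0, 0, 0, 0, ⟨0, 0⟩, 0⟩, 0, 0⟩ 0 0)) (.cut .v 268435456 (.cut .v 67108864 (.cut .d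 531367 (.cut .v 33554432 (.cut .d 265683 (.cut .v 25165824 (.cut .d 132841 (.cut .d 66420 (.cut .v 20971520 (.cut .v 18874368 (.cut .s 15876096 (.pos 27 .pp ⟨⟨1479718515, 0, 0, 0, 0, 0, 0, 0, 0, ⟨0, 0⟩, 0⟩, 0, 36692⟩ 0 0) (.pos 27 .pp ⟨⟨1770663182, 0, 0, 0, 0, 0, 0, 0, 0, ⟨0, 0⟩, 0⟩, 0, 28388⟩ 0 0)) (.pos 28 .pp ⟨⟨2230459556, 0, 0, 0, 0, 0, 0, 0, 0, ⟨0, 0⟩, 0⟩, 0, 37601⟩ 0 0)) (.pos 26 .pp ⟨⟨3317841178, 0, 0, 0, 0, 0, 82187, 0, 0, ⟨0, 0⟩, 0⟩, 0, 0⟩ 0 0)) (.pos 23 .pp ⟨⟨0, 0, 0, 0, 0, 0, 89309, 0, 0, ⟨0, 0⟩, 0⟩, 299939045, 14470⟩ 0 0)) (.pos 23 .pp ⟨⟨0, 0, 0, 0, 0, 0, 239450, 0, 0, ⟨0, 0⟩, 0⟩, 0, 0⟩ 0 0)) (.cut .d 132841 (.pos 24 .pp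 ⟨⟨0, 0, 0, 0, 0, 0, 94843, 0, 0, ⟨0, 0⟩, 0⟩, 745877631, 0⟩ 0 0) (.pos 24 .pp ⟨⟨0, 0, 0, 0, 0, 0, 140267, 0, 0, ⟨0, 0⟩, 0⟩, 434069621, 0⟩ 0 0))) (.pos 22 .pp ⟨⟨0, 0, 0, 0, 0, 0, 0, 0, 0, ⟨0, 0⟩, 0⟩, 179075023, 67465⟩ 0 0)) (.cut .d 265683 (.pos 73 .pp ⟨⟨0, 0, 0, 0, 0, 0, 41849, 0, 0, ⟨0, 0⟩, 0⟩, 1359318263, 0⟩ 0 0) (.pos 73 .pp ⟨⟨0, 1409990336, 0, 0, 0, 0, 107665, 0, 0, ⟨0, 0⟩, 0⟩, 766756404, 0⟩ 0 0))) (.pos 72 .pp ⟨⟨0, 2557886115, 0, 0, 0, 0, 0, 0, 0, ⟨0, 0⟩, 0⟩, 0, 79820⟩ 0 0)) (.void 84 ⟨⟨0, 0, 0, 51664, 0, 0, 0, 0, 0, ⟨0, 0⟩, 0⟩, 48336, 0⟩ 0 0)) (.void 93 ⟨⟨0, 0, 0, 0, 0, 0, 0, 0, 0, ⟨0, 0⟩, 0⟩, 100000, 0⟩ 0 0)))),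
    by decide +kernel⟩

def covers39 : cell.Covers Vale.Agent.P237.Petty.Cor.Grid.N8.table row39.1 :=
  ⟨(.cut .d 0 (.cut .v 16777216 (.cut .v 8388608 (.void 2 ⟨⟨0, 0, 100000, 0, 0, 0, 0, 0, 0, ⟨0, 0⟩, 0⟩, 0, 0⟩ 0 0) (.cut .d (-8388608) (.void 3 ⟨⟨100000, 0, 0, 0, 0, 0, 0, 0, 0, ⟨0, 0⟩, 0⟩, 0, 0⟩ 0 0) (.cut .d (-4194304) (.void 3 ⟨⟨100000, 0, 0, 0, 0, 0, 0, 0, 0, ⟨0, 0⟩, 0⟩, 0, 0⟩ 0 0) (.pos 3 .mm ⟨⟨0, 0, 0, 0, 0, 13751156762, 0, 0, 0, ⟨0, 0⟩, 0⟩, 0, 0⟩ 0 0)))) (.cut .v 268435456 (.cut .v 67108864 (.cut .v 33554432 (.cut .d (-8388608) (.void 22 ⟨⟨100000, 0, 0, 0, 0, 0, 0, 0, 0, ⟨0, 0⟩, 0⟩, 0, 0⟩ 0 0) (.cut .d (-4194304) (.void 22 ⟨⟨100000,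 0, 0, 0, 0, 0, 0, 0, 0, ⟨0, 0⟩, 0⟩, 0, 0⟩ 0 0) (.cut .v 25165824 (.cut .d (-2097152) (.void 23 ⟨⟨100000, 0, 0, 0, 0, 0, 0, 0, 0, ⟨0, 0⟩, 0⟩, 0, 0⟩ 0 0) (.cut .v 20971520 (.pos 25 .mp ⟨⟨2943231307, 0, 0, 0, 0, 7471668283, 0, 0, 0, ⟨0, 0⟩, 0⟩, 0, 0⟩ 0 0) (.void 26 ⟨⟨100000, 0, 0, 0, 0, 0, 0, 0, 0, ⟨0, 0⟩, 0⟩, 0, 0⟩ 0 0))) (.void 24 ⟨⟨100000, 0, 0, 0, 0, 0, 0, 0, 0, ⟨0, 0⟩, 0⟩, 0, 0⟩ 0 0)))) (.void 73 ⟨⟨100000, 0, 0, 0, 0, 0, 0, 0, 0, ⟨0, 0⟩, 0⟩, 0, 0⟩ 0 0)) (.void 84 ⟨⟨99885, 0, 0, 0, 0, 0, 0, 0, 0, ⟨0, 0⟩, 0⟩, 0, 0⟩ 0 0)) (.void 93 ⟨⟨92620, 0, 0, 9536, 0, 0, 0, 0, 0, ⟨0, 0⟩, 0⟩, 0, 0⟩ 0 0))) (.cut .v 16777216 (.cut .v 8388608 (.cut .v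 4194304 (.cut .v 2097152 (.cut .v 1048576 (.cut .v 524288 (.pos 96 .pm ⟨⟨0, 0, 75522279, 0, 0, 0, 0, 0, 0, ⟨0, 0⟩, 0⟩, 0, 535⟩ 0 0) (.pos 97 .pm ⟨⟨0, 0, 149399178, 0, 0, 0, 0, 0, 0, ⟨0, 0⟩, 0⟩, 0, 2362⟩ 0 0)) (.pos 90 .pm ⟨⟨0, 0, 248950974, 0, 0, 0, 0, 0, 0, ⟨0, 0⟩, 0⟩, 0, 5385⟩ 0 0)) (.pos 88 .pm ⟨⟨0, 0, 465599880, 0, 0, 0, 0, 0, 0, ⟨0, 0⟩, 0⟩, 0, 10286⟩ 0 0)) (.pos 5 .pm ⟨⟨0, 0, 1156659510, 0, 0, 0, 0, 0, 0, ⟨0, 0⟩, 0⟩, 0, 17295⟩ 0 0)) (.pos 3 .pm ⟨⟨0, 0, 0, 0, 0, 0, 0, 0, 0, ⟨0, 0⟩, 0⟩, 0, 0⟩ 0 0)) (.cut .v 268435456 (.cut .v 67108864 (.cut .d 421582 (.cut .v 33554432 (.cut .d 210791 (.cut .v 25165824 (.cut .d 105395 (.cut .d 52697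 (.cut .v 20971520 (.cut .v 18874368 (.cut .s 16056320 (.pos 27 .pp ⟨⟨2112164809, 0, 0, 0, 0, 0, 0, 0, 0, ⟨0, 0⟩, 0⟩, 0, 21803⟩ 0 0) (.pos 27 .pp ⟨⟨2535558055, 0, 0, 0, 0, 0, 0, 0, 0, ⟨0, 0⟩, 0⟩, 0, 16453⟩ 0 0)) (.pos 28 .pp ⟨⟨3189005944, 0, 0, 0, 0, 0, 0, 0, 0, ⟨0, 0⟩, 0⟩, 0, 21402⟩ 0 0)) (.pos 26 .pp ⟨⟨4738225120, 0, 0, 0, 0, 0, 47660, 0, 0, ⟨0, 0⟩, 0⟩, 0, 0⟩ 0 0)) (.pos 23 .pp ⟨⟨0, 0, 0, 0, 0, 0, 66238, 0, 0, ⟨0, 0⟩, 0⟩, 434903860, 1681⟩ 0 0)) (.pos 23 .pp ⟨⟨0, 0, 0, 0, 0, 0, 138858, 0, 0, ⟨0, 0⟩, 0⟩, 0, 0⟩ 0 0)) (.cut .d 105395 (.pos 24 .pp ⟨⟨0, 0, 0, 0, 0, 0, 58263, 0, 0, ⟨0, 0⟩, 0⟩, 1063293281, 0⟩ 0 0) (.pos 24 .pp ⟨⟨0, 0, 0, 0,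 0, 0, 78551, 0, 0, ⟨0, 0⟩, 0⟩, 647874333, 0⟩ 0 0))) (.pos 22 .pp ⟨⟨0, 0, 0, 0, 0, 0, 0, 0, 0, ⟨0, 0⟩, 0⟩, 280453871, 38881⟩ 0 0)) (.cut .d 210791 (.pos 73 .pp ⟨⟨0, 0, 0, 0, 0, 0, 28442, 0, 0, ⟨0, 0⟩, 0⟩, 1935187364, 0⟩ 0 0) (.cut .v 50331648 (.pos 76 .pp ⟨⟨0, 0, 0, 0, 0, 0, 90820, 0, 0, ⟨0, 0⟩, 0⟩, 884624245, 0⟩ 0 0) (.void 77 ⟨⟨0, 0, 0, 51863, 0, 0, 0, 0, 0, ⟨0, 0⟩, 0⟩, 48137, 0⟩ 0 0)))) (.pos 72 .pp ⟨⟨0, 5054519631, 0, 0, 0, 0, 0, 0, 0, ⟨0, 0⟩, 0⟩, 0, 46288⟩ 0 0)) (.void 84 ⟨⟨0, 0, 0, 51863, 0, 0, 0, 0, 0, ⟨0, 0⟩, 0⟩, 48137, 0⟩ 0 0)) (.void 93 ⟨⟨0, 0, 0, 0, 0, 0, 0, 0, 0, ⟨0, 0⟩, 0⟩, 100000, 0⟩ 0 0)))),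
    by decide +kernel⟩

def covers40 : cell.Covers Vale.Agent.P237.Petty.Cor.Grid.N8.table row40.1 :=
  ⟨(.cut .d 0 (.cut .v 16777216 (.cut .v 8388608 (.void 2 ⟨⟨0, 0, 100000, 0, 0, 0, 0, 0, 0, ⟨0, 0⟩, 0⟩, 0, 0⟩ 0 0) (.cut .d (-8388608) (.void 3 ⟨⟨100000, 0, 0, 0, 0, 0, 0, 0, 0, ⟨0, 0⟩, 0⟩, 0, 0⟩ 0 0) (.cut .d (-4194304) (.void 3 ⟨⟨100000, 0, 0, 0, 0, 0, 0, 0, 0, ⟨0, 0⟩, 0⟩, 0, 0⟩ 0 0) (.pos 3 .mm ⟨⟨0, 0, 0, 0, 0, 19408042642, 0, 0, 0, ⟨0, 0⟩, 0⟩, 0, 0⟩ 0 0)))) (.cut .v 268435456 (.cut .v 67108864 (.cut .v 33554432 (.cut .d (-8388608) (.void 22 ⟨⟨100094, 0, 0, 0, 0, 0, 0, 0, 0, ⟨0, 0⟩, 0⟩, 0, 0⟩ 0 0) (.cut .d (-4194304) (.void 22 ⟨⟨100000,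 0, 0, 0, 0, 0, 0, 0, 0, ⟨0, 0⟩, 0⟩, 0, 0⟩ 0 0) (.cut .v 25165824 (.cut .d (-2097152) (.void 23 ⟨⟨100000, 0, 0, 0, 0, 0, 0, 0, 0, ⟨0, 0⟩, 0⟩, 0, 0⟩ 0 0) (.cut .v 20971520 (.pos 25 .mp ⟨⟨4327108055, 0, 0, 0, 0, 10211758771, 0, 0, 0, ⟨0, 0⟩, 0⟩, 0, 0⟩ 0 0) (.void 26 ⟨⟨100000, 0, 0, 0, 0, 0, 0, 0, 0, ⟨0, 0⟩, 0⟩, 0, 0⟩ 0 0))) (.void 24 ⟨⟨100000, 0, 0, 0, 0, 0, 0, 0, 0, ⟨0, 0⟩, 0⟩, 0, 0⟩ 0 0)))) (.void 73 ⟨⟨100000, 0, 0, 0, 0, 0, 0, 0, 0, ⟨0, 0⟩, 0⟩, 0, 0⟩ 0 0)) (.void 84 ⟨⟨100000, 0, 0, 0, 0, 0, 0, 0, 0, ⟨0, 0⟩, 0⟩, 0, 0⟩ 0 0)) (.void 93 ⟨⟨90225, 0, 0, 9778, 0, 0, 0, 0, 0, ⟨0, 0⟩, 0⟩, 0, 0⟩ 0 0))) (.cut .v 16777216 (.cut .v 8388608 (.cut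 .v 4194304 (.cut .v 2097152 (.cut .v 1048576 (.cut .v 524288 (.pos 96 .pm ⟨⟨0, 0, 106670895, 0, 0, 0, 0, 0, 0, ⟨0, 0⟩, 0⟩, 0, 292⟩ 0 0) (.pos 97 .pm ⟨⟨0, 0, 227139176, 0, 0, 0, 0, 0, 0, ⟨0, 0⟩, 0⟩, 0, 1350⟩ 0 0)) (.pos 90 .pm ⟨⟨0, 0, 395644895, 0, 0, 0, 0, 0, 0, ⟨0, 0⟩, 0⟩, 0, 3032⟩ 0 0)) (.pos 88 .pm ⟨⟨0, 0, 768144117, 0, 0, 0, 0, 0, 0, ⟨0, 0⟩, 0⟩, 0, 5668⟩ 0 0)) (.pos 5 .pm ⟨⟨0, 0, 1918877117, 0, 0, 0, 0, 0, 0, ⟨0, 0⟩, 0⟩, 0, 9446⟩ 0 0)) (.pos 3 .pm ⟨⟨0, 0, 0, 0, 0, 0, 0, 0, 0, ⟨0, 0⟩, 0⟩, 0, 0⟩ 0 0)) (.cut .v 268435456 (.cut .v 67108864 (.cut .d 332139 (.cut .v 33554432 (.cut .d 166069 (.cut .v 25165824 (.cut .d 83034 (.cut .d 41517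 (.cut .v 20971520 (.cut .v 18874368 (.cut .s 16203776 (.pos 27 .pp ⟨⟨3034508487, 0, 0, 0, 0, 0, 0, 0, 0, ⟨0, 0⟩, 0⟩, 0, 12420⟩ 0 0) (.pos 27 .pp ⟨⟨3635604909, 0, 0, 0, 0, 0, 0, 0, 0, ⟨0, 0⟩, 0⟩, 0, 9247⟩ 0 0)) (.pos 28 .pp ⟨⟨4565641968, 0, 0, 0, 0, 0, 0, 0, 0, ⟨0, 0⟩, 0⟩, 0, 11892⟩ 0 0)) (.pos 26 .pp ⟨⟨6764375572, 0, 0, 0, 0, 0, 26606, 0, 0, ⟨0, 0⟩, 0⟩, 0, 0⟩ 0 0)) (.pos 23 .pp ⟨⟨0, 0, 0, 0, 0, 0, 38364, 0, 0, ⟨0, 0⟩, 0⟩, 632923717, 0⟩ 0 0)) (.pos 23 .pp ⟨⟨0, 0, 0, 0, 0, 0, 77307, 0, 0, ⟨0, 0⟩, 0⟩, 0, 0⟩ 0 0)) (.cut .d 83034 (.pos 24 .pp ⟨⟨0, 0, 0, 0, 0, 0, 34144, 0, 0, ⟨0, 0⟩, 0⟩, 1515505435, 0⟩ 0 0) (.pos 24 .pp ⟨⟨0, 0, 0, 0, 0, 0,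 43080, 0, 0, ⟨0, 0⟩, 0⟩, 963954349, 0⟩ 0 0))) (.pos 22 .pp ⟨⟨0, 0, 0, 0, 0, 0, 0, 0, 0, ⟨0, 0⟩, 0⟩, 432724903, 21587⟩ 0 0)) (.cut .d 166069 (.pos 73 .pp ⟨⟨0, 0, 0, 0, 0, 0, 17839, 0, 0, ⟨0, 0⟩, 0⟩, 2753813410, 0⟩ 0 0) (.cut .v 50331648 (.pos 76 .pp ⟨⟨0, 0, 0, 0, 0, 0, 52111, 0, 0, ⟨0, 0⟩, 0⟩, 1318037826, 0⟩ 0 0) (.void 77 ⟨⟨0, 0, 0, 52022, 0, 0, 0, 0, 0, ⟨0, 0⟩, 0⟩, 47978, 0⟩ 0 0)))) (.pos 72 .pp ⟨⟨0, 8946576396, 0, 0, 0, 0, 0, 0, 0, ⟨0, 0⟩, 0⟩, 0, 25770⟩ 0 0)) (.void 84 ⟨⟨0, 0, 0, 52022, 0, 0, 0, 0, 0, ⟨0, 0⟩, 0⟩, 47978, 0⟩ 0 0)) (.void 93 ⟨⟨0, 0, 0, 0, 0, 0, 0, 0, 0, ⟨0, 0⟩, 0⟩, 100000, 0⟩ 0 0)))),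
    by decide +kernel⟩

def covers41 : cell.Covers Vale.Agent.P237.Petty.Cor.Grid.N8.table row41.1 :=
  ⟨(.cut .d 0 (.cut .v 16777216 (.cut .v 8388608 (.void 2 ⟨⟨0, 0, 100000, 0, 0, 0, 0, 0, 0, ⟨0, 0⟩, 0⟩, 0, 0⟩ 0 0) (.cut .d (-8388608) (.void 3 ⟨⟨100000, 0, 0, 0, 0, 0, 0, 0, 0, ⟨0, 0⟩, 0⟩, 0, 0⟩ 0 0) (.cut .d (-4194304) (.void 3 ⟨⟨100000, 0, 0, 0, 0, 0, 0, 0, 0, ⟨0, 0⟩, 0⟩, 0, 0⟩ 0 0) (.pos 3 .mm ⟨⟨0, 0, 0, 0, 0, 26487766746, 0, 0, 0, ⟨0, 0⟩, 0⟩, 0, 0⟩ 0 0)))) (.cut .v 268435456 (.cut .v 67108864 (.cut .v 33554432 (.cut .d (-8388608) (.void 22 ⟨⟨100006, 0, 0, 0, 0, 0, 0, 0, 0, ⟨0, 0⟩, 0⟩, 0, 0⟩ 0 0) (.cut .d (-4194304) (.void 22 ⟨⟨100000,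 0, 0, 0, 0, 0, 0, 0, 0, ⟨0, 0⟩, 0⟩, 0, 0⟩ 0 0) (.cut .v 25165824 (.cut .d (-2097152) (.void 23 ⟨⟨100000, 0, 0, 0, 0, 0, 0, 0, 0, ⟨0, 0⟩, 0⟩, 0, 0⟩ 0 0) (.cut .v 20971520 (.pos 25 .mp ⟨⟨6233193816, 0, 0, 0, 0, 13406400844, 0, 0, 0, ⟨0, 0⟩, 0⟩, 0, 0⟩ 0 0) (.void 26 ⟨⟨100000, 0, 0, 0, 0, 0, 0, 0, 0, ⟨0, 0⟩, 0⟩, 0, 0⟩ 0 0))) (.void 24 ⟨⟨100000, 0, 0, 0, 0, 0, 0, 0, 0, ⟨0, 0⟩, 0⟩, 0, 0⟩ 0 0)))) (.void 73 ⟨⟨100000, 0, 0, 0, 0, 0, 0, 0, 0, ⟨0, 0⟩, 0⟩, 0, 0⟩ 0 0)) (.void 84 ⟨⟨99879, 0, 0, 0, 0, 0, 0, 0, 0, ⟨0, 0⟩, 0⟩, 0, 0⟩ 0 0)) (.void 93 ⟨⟨88983, 0, 0, 9755, 0, 0, 0, 0, 0, ⟨0, 0⟩, 0⟩, 0, 0⟩ 0 0))) (.cut .v 16777216 (.cut .v 8388608 (.cut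 .v 4194304 (.cut .v 2097152 (.cut .v 1048576 (.cut .v 524288 (.pos 96 .pm ⟨⟨0, 0, 146369314, 0, 0, 0, 0, 0, 0, ⟨0, 0⟩, 0⟩, 0, 0⟩ 0 0) (.pos 97 .pm ⟨⟨0, 0, 334989594, 0, 0, 0, 0, 0, 0, ⟨0, 0⟩, 0⟩, 0, 855⟩ 0 0)) (.pos 90 .pm ⟨⟨0, 0, 605285050, 0, 0, 0, 0, 0, 0, ⟨0, 0⟩, 0⟩, 0, 1660⟩ 0 0)) (.pos 88 .pm ⟨⟨0, 0, 1207318883, 0, 0, 0, 0, 0, 0, ⟨0, 0⟩, 0⟩, 0, 3135⟩ 0 0)) (.pos 5 .pm ⟨⟨0, 0, 3048437114, 0, 0, 0, 0, 0, 0, ⟨0, 0⟩, 0⟩, 0, 5301⟩ 0 0)) (.pos 3 .pm ⟨⟨0, 0, 0, 0, 0, 0, 0, 0, 0, ⟨0, 0⟩, 0⟩, 0, 0⟩ 0 0)) (.cut .v 268435456 (.cut .v 67108864 (.cut .d 261881 (.cut .v 33554432 (.cut .d 130940 (.cut .v 25165824 (.cut .d 65470 (.cut .d 32735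 (.cut .v 20971520 (.cut .v 18874368 (.cut .s 16318464 (.pos 27 .pp ⟨⟨4335765465, 0, 0, 0, 0, 0, 0, 0, 0, ⟨0, 0⟩, 0⟩, 0, 6992⟩ 0 0) (.pos 27 .pp ⟨⟨5128514972, 0, 0, 0, 0, 0, 0, 0, 0, ⟨0, 0⟩, 0⟩, 0, 5258⟩ 0 0)) (.pos 28 .pp ⟨⟨6427656610, 0, 0, 0, 0, 0, 0, 0, 0, ⟨0, 0⟩, 0⟩, 0, 6746⟩ 0 0)) (.pos 26 .pp ⟨⟨9455081479, 0, 0, 0, 0, 0, 14831, 0, 0, ⟨0, 0⟩, 0⟩, 0, 0⟩ 0 0)) (.pos 23 .pp ⟨⟨0, 0, 0, 0, 0, 0, 21019, 0, 0, ⟨0, 0⟩, 0⟩, 913037464, 0⟩ 0 0)) (.pos 23 .pp ⟨⟨0, 0, 0, 0, 0, 0, 42323, 0, 0, ⟨0, 0⟩, 0⟩, 0, 0⟩ 0 0)) (.cut .d 65470 (.pos 24 .pp ⟨⟨0, 0, 0, 0, 0, 0, 19672, 0, 0, ⟨0, 0⟩, 0⟩, 2114220295, 0⟩ 0 0) (.pos 24 .pp ⟨⟨0, 0, 0, 0, 0, 0,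 24214, 0, 0, ⟨0, 0⟩, 0⟩, 1396876429, 0⟩ 0 0))) (.pos 22 .pp ⟨⟨0, 0, 0, 0, 0, 0, 0, 0, 0, ⟨0, 0⟩, 0⟩, 652371942, 11818⟩ 0 0)) (.cut .v 50331648 (.cut .d 130940 (.pos 76 .pp ⟨⟨0, 0, 0, 0, 0, 0, 16435, 0, 0, ⟨0, 0⟩, 0⟩, 3107032355, 0⟩ 0 0) (.pos 76 .pp ⟨⟨0, 0, 0, 0, 0, 0, 29325, 0, 0, ⟨0, 0⟩, 0⟩, 1930452468, 0⟩ 0 0)) (.void 77 ⟨⟨0, 0, 0, 52141, 0, 0, 0, 0, 0, ⟨0, 0⟩, 0⟩, 47859, 0⟩ 0 0))) (.pos 72 .pp ⟨⟨0, 14691726848, 0, 0, 0, 0, 0, 0, 0, ⟨0, 0⟩, 0⟩, 0, 14108⟩ 0 0)) (.void 84 ⟨⟨0, 0, 0, 52141, 0, 0, 0, 0, 0, ⟨0, 0⟩, 0⟩, 47859, 0⟩ 0 0)) (.void 93 ⟨⟨0, 0, 0, 0, 0, 0, 0, 0, 0, ⟨0, 0⟩, 0⟩, 100000, 0⟩ 0 0)))),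
    by decide +kernel⟩

def covers42 : cell.Covers Vale.Agent.P237.Petty.Cor.Grid.N8.table row42.1 :=
  ⟨(.cut .d 0 (.cut .v 16777216 (.cut .v 8388608 (.void 2 ⟨⟨0, 0, 100000, 0, 0, 0, 0, 0, 0, ⟨0, 0⟩, 0⟩, 0, 0⟩ 0 0) (.cut .d (-8388608) (.void 3 ⟨⟨100000, 0, 0, 0, 0, 0, 0, 0, 0, ⟨0, 0⟩, 0⟩, 0, 0⟩ 0 0) (.cut .d (-4194304) (.void 3 ⟨⟨100000, 0, 0, 0, 0, 0, 0, 0, 0, ⟨0, 0⟩, 0⟩, 0, 0⟩ 0 0) (.pos 3 .mm ⟨⟨0, 0, 0, 0, 0, 36262082998, 0, 0, 0, ⟨0, 0⟩, 0⟩, 0, 0⟩ 0 0)))) (.cut .v 268435456 (.cut .v 67108864 (.cut .v 33554432 (.cut .d (-8388608) (.void 22 ⟨⟨99497, 0, 0, 0, 0, 0, 0, 0, 0, ⟨0, 0⟩, 0⟩, 0, 0⟩ 0 0) (.cut .d (-4194304) (.void 22 ⟨⟨100000,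 0, 0, 0, 0, 0, 0, 0, 0, ⟨0, 0⟩, 0⟩, 0, 0⟩ 0 0) (.cut .v 25165824 (.cut .d (-2097152) (.void 23 ⟨⟨100000, 0, 0, 0, 0, 0, 0, 0, 0, ⟨0, 0⟩, 0⟩, 0, 0⟩ 0 0) (.pos 23 .mp ⟨⟨12454349529, 0, 0, 0, 0, 18521332003, 0, 0, 0, ⟨0, 0⟩, 0⟩, 0, 0⟩ 0 0)) (.void 24 ⟨⟨100000, 0, 0, 0, 0, 0, 0, 0, 0, ⟨0, 0⟩, 0⟩, 0, 0⟩ 0 0)))) (.void 73 ⟨⟨100000, 0, 0, 0, 0, 0, 0, 0, 0, ⟨0, 0⟩, 0⟩, 0, 0⟩ 0 0)) (.void 84 ⟨⟨100000, 0, 0, 0, 0, 0, 0, 0, 0, ⟨0, 0⟩, 0⟩, 0, 0⟩ 0 0)) (.void 93 ⟨⟨90176, 0, 0, 9824, 0, 0, 0, 0, 0, ⟨0, 0⟩, 0⟩, 0, 0⟩ 0 0))) (.cut .v 16777216 (.cut .v 8388608 (.cut .v 4194304 (.cut .v 2097152 (.cut .v 1048576 (.cut .v 524288 (.cut .v 262144 (.pos 102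 .pm ⟨⟨0, 0, 111497166, 0, 0, 0, 0, 0, 0, ⟨0, 0⟩, 0⟩, 0, 0⟩ 0 0) (.pos 103 .pm ⟨⟨0, 0, 273207774, 0, 0, 0, 0, 0, 0, ⟨0, 0⟩, 0⟩, 0, 202⟩ 0 0)) (.pos 97 .pm ⟨⟨0, 0, 488104407, 0, 0, 0, 0, 0, 0, ⟨0, 0⟩, 0⟩, 0, 479⟩ 0 0)) (.pos 90 .pm ⟨⟨0, 0, 899358890, 0, 0, 0, 0, 0, 0, ⟨0, 0⟩, 0⟩, 0, 929⟩ 0 0)) (.pos 88 .pm ⟨⟨0, 0, 1814180247, 0, 0, 0, 0, 0, 0, ⟨0, 0⟩, 0⟩, 0, 1727⟩ 0 0)) (.pos 5 .pm ⟨⟨0, 0, 4565763134, 0, 0, 0, 0, 0, 0, ⟨0, 0⟩, 0⟩, 0, 2878⟩ 0 0)) (.pos 3 .pm ⟨⟨0, 0, 0, 0, 0, 0, 0, 0, 0, ⟨0, 0⟩, 0⟩, 0, 0⟩ 0 0)) (.cut .v 268435456 (.cut .v 67108864 (.cut .v 33554432 (.cut .d 209926 (.cut .d 104963 (.cut .v 25165824 (.cut .d 52481 (.cut .v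 20971520 (.cut .v 18874368 (.cut .s 16408576 (.pos 27 .pp ⟨⟨6263666795, 0, 0, 0, 0, 0, 0, 0, 0, ⟨0, 0⟩, 0⟩, 0, 3838⟩ 0 0) (.pos 27 .pp ⟨⟨7410975830, 0, 0, 0, 0, 0, 0, 0, 0, ⟨0, 0⟩, 0⟩, 0, 2850⟩ 0 0)) (.pos 28 .pp ⟨⟨8235590512, 0, 0, 0, 0, 0, 0, 0, 0, ⟨0, 0⟩, 0⟩, 0, 3806⟩ 0 0)) (.cut .d 26240 (.pos 26 .pp ⟨⟨13269101345, 0, 0, 0, 0, 0, 8265, 0, 0, ⟨0, 0⟩, 0⟩, 0, 0⟩ 0 0) (.pos 26 .pp ⟨⟨1194385223, 0, 0, 0, 0, 0, 10558, 0, 0, ⟨0, 0⟩, 0⟩, 1382533120, 0⟩ 0 0))) (.pos 23 .pp ⟨⟨0, 0, 0, 0, 0, 0, 23698, 0, 0, ⟨0, 0⟩, 0⟩, 0, 0⟩ 0 0)) (.cut .d 52481 (.pos 24 .pp ⟨⟨0, 0, 0, 0, 0, 0, 11293, 0, 0, ⟨0, 0⟩, 0⟩, 2965716688, 0⟩ 0 0) (.pos 24 .pp ⟨⟨0,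 0, 0, 0, 0, 0, 13309, 0, 0, ⟨0, 0⟩, 0⟩, 1967500104, 0⟩ 0 0))) (.pos 22 .pp ⟨⟨0, 0, 0, 0, 0, 0, 0, 0, 0, ⟨0, 0⟩, 0⟩, 943323088, 6627⟩ 0 0)) (.pos 22 .pp ⟨⟨0, 0, 0, 0, 0, 0, 0, 0, 0, ⟨0, 0⟩, 0⟩, 0, 7900⟩ 0 0)) (.cut .v 50331648 (.cut .d 209926 (.cut .d 104963 (.pos 76 .pp ⟨⟨0, 0, 0, 0, 0, 0, 9850, 0, 0, ⟨0, 0⟩, 0⟩, 4350306382, 0⟩ 0 0) (.pos 76 .pp ⟨⟨0, 0, 0, 0, 0, 0, 16765, 0, 0, ⟨0, 0⟩, 0⟩, 2747792836, 0⟩ 0 0)) (.pos 76 .pp ⟨⟨0, 21698126882, 0, 0, 0, 0, 0, 0, 0, ⟨0, 0⟩, 0⟩, 0, 10533⟩ 0 0)) (.void 77 ⟨⟨0, 0, 0, 52240, 0, 0, 0, 0, 0, ⟨0, 0⟩, 0⟩, 47760, 0⟩ 0 0))) (.void 84 ⟨⟨0, 0, 0, 52544, 0, 0, 0, 0, 0, ⟨0, 0⟩, 0⟩, 43694, 0⟩ 0 0)) (.void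 93 ⟨⟨0, 0, 0, 0, 0, 0, 0, 0, 0, ⟨0, 0⟩, 0⟩, 100000, 0⟩ 0 0)))),
    by decide +kernel⟩

def covers43 : cell.Covers Vale.Agent.P237.Petty.Cor.Grid.N8.table row43.1 :=
  ⟨(.cut .d 0 (.cut .v 16777216 (.cut .v 8388608 (.void 2 ⟨⟨0, 0, 100000, 0, 0, 0, 0, 0, 0, ⟨0, 0⟩, 0⟩, 0, 0⟩ 0 0) (.cut .d (-8388608) (.void 3 ⟨⟨100000, 0, 0, 0, 0, 0, 0, 0, 0, ⟨0, 0⟩, 0⟩, 0, 0⟩ 0 0) (.pos 3 .mm ⟨⟨0, 0, 0, 0, 0, 73086104761, 0, 0, 0, ⟨0, 0⟩, 0⟩, 0, 0⟩ 0 0))) (.cut .d (-8388608) (.void 105 ⟨⟨100000, 0, 0, 0, 0, 0, 0, 0, 0, ⟨0, 0⟩, 0⟩, 0, 0⟩ 0 0) (.cut .v 4294967296 (.cut .v 268435456 (.cut .v 67108864 (.cut .v 33554432 (.cut .d (-4194304) (.void 22 ⟨⟨100000,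 0, 0, 0, 0, 0, 0, 0, 0, ⟨0, 0⟩, 0⟩, 0, 0⟩ 0 0) (.cut .v 25165824 (.cut .d (-2097152) (.void 23 ⟨⟨100000, 0, 0, 0, 0, 0, 0, 0, 0, ⟨0, 0⟩, 0⟩, 0, 0⟩ 0 0) (.pos 23 .mp ⟨⟨17675028117, 0, 0, 0, 0, 24187758237, 0, 0, 0, ⟨0, 0⟩, 0⟩, 0, 0⟩ 0 0)) (.void 24 ⟨⟨100000, 0, 0, 0, 0, 0, 0, 0, 0, ⟨0, 0⟩, 0⟩, 0, 0⟩ 0 0))) (.void 73 ⟨⟨100000, 0, 0, 0, 0, 0, 0, 0, 0, ⟨0, 0⟩, 0⟩, 0, 0⟩ 0 0)) (.void 84 ⟨⟨100251, 0, 0, 0, 0, 0, 0, 0, 0, ⟨0, 0⟩, 0⟩, 0, 0⟩ 0 0)) (.void 93 ⟨⟨85905, 0, 0, 14094, 0, 0, 0, 0, 0, ⟨0, 0⟩, 0⟩, 0, 0⟩ 0 0)) (.void 106 ⟨⟨0, 0, 0, 100000, 0, 0, 0, 0, 0, ⟨0, 0⟩, 0⟩, 0, 0⟩ 0 0)))) (.cut .v 16777216 (.cut .v 8388608 (.cut .v 4194304 (.cut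 .v 2097152 (.cut .v 1048576 (.cut .v 524288 (.cut .v 262144 (.pos 102 .pm ⟨⟨0, 0, 146381438, 0, 0, 0, 0, 0, 0, ⟨0, 0⟩, 0⟩, 0, 0⟩ 0 0) (.pos 103 .pm ⟨⟨0, 0, 389645188, 0, 0, 0, 0, 0, 0, ⟨0, 0⟩, 0⟩, 0, 109⟩ 0 0)) (.pos 97 .pm ⟨⟨0, 0, 708195232, 0, 0, 0, 0, 0, 0, ⟨0, 0⟩, 0⟩, 0, 260⟩ 0 0)) (.pos 90 .pm ⟨⟨0, 0, 1324352254, 0, 0, 0, 0, 0, 0, ⟨0, 0⟩, 0⟩, 0, 505⟩ 0 0)) (.pos 88 .pm ⟨⟨0, 0, 2696390449, 0, 0, 0, 0, 0, 0, ⟨0, 0⟩, 0⟩, 0, 930⟩ 0 0)) (.pos 5 .pm ⟨⟨0, 0, 6789813095, 0, 0, 0, 0, 0, 0, ⟨0, 0⟩, 0⟩, 0, 1550⟩ 0 0)) (.pos 3 .pm ⟨⟨0, 0, 0, 0, 0, 0, 0, 0, 0, ⟨0, 0⟩, 0⟩, 0, 0⟩ 0 0)) (.cut .v 4294967296 (.cut .v 268435456 (.cut .v 67108864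 (.cut .v 33554432 (.cut .d 167105 (.cut .d 83552 (.cut .v 25165824 (.cut .d 41776 (.cut .v 20971520 (.cut .v 18874368 (.cut .s 16482304 (.pos 27 .pp ⟨⟨8819503383, 0, 0, 0, 0, 0, 0, 0, 0, ⟨0, 0⟩, 0⟩, 0, 2119⟩ 0 0) (.pos 27 .pp ⟨⟨10424043371, 0, 0, 0, 0, 0, 0, 0, 0, ⟨0, 0⟩, 0⟩, 0, 1563⟩ 0 0)) (.pos 28 .pp ⟨⟨11600187942, 0, 0, 0, 0, 0, 0, 0, 0, ⟨0, 0⟩, 0⟩, 0, 2068⟩ 0 0)) (.cut .d 20888 (.pos 26 .pp ⟨⟨18632143563, 0, 0, 0, 0, 0, 4505, 0, 0, ⟨0, 0⟩, 0⟩, 0, 0⟩ 0 0) (.pos 26 .pp ⟨⟨1499017533, 0, 0, 0, 0, 0, 5725, 0, 0, ⟨0, 0⟩, 0⟩, 1986684861, 0⟩ 0 0))) (.pos 23 .pp ⟨⟨0, 0, 0, 0, 0, 0, 12872, 0, 0, ⟨0, 0⟩, 0⟩, 0, 0⟩ 0 0)) (.cut .d 41776 (.pos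 24 .pp ⟨⟨0, 0, 0, 0, 0, 0, 6205, 0, 0, ⟨0, 0⟩, 0⟩, 4161792629, 0⟩ 0 0) (.pos 24 .pp ⟨⟨0, 0, 0, 0, 0, 0, 7225, 0, 0, ⟨0, 0⟩, 0⟩, 2790818817, 0⟩ 0 0))) (.pos 22 .pp ⟨⟨0, 0, 0, 0, 0, 0, 0, 0, 0, ⟨0, 0⟩, 0⟩, 1365322069, 3608⟩ 0 0)) (.pos 22 .pp ⟨⟨0, 0, 0, 0, 0, 0, 0, 0, 0, ⟨0, 0⟩, 0⟩, 0, 4291⟩ 0 0)) (.cut .v 50331648 (.cut .d 167105 (.cut .d 83552 (.pos 76 .pp ⟨⟨0, 0, 0, 0, 0, 0, 5704, 0, 0, ⟨0, 0⟩, 0⟩, 6094285039, 0⟩ 0 0) (.pos 76 .pp ⟨⟨0, 0, 0, 0, 0, 0, 9314, 0, 0, ⟨0, 0⟩, 0⟩, 3925093831, 0⟩ 0 0)) (.pos 76 .pp ⟨⟨0, 32701082790, 0, 0, 0, 0, 0, 0, 0, ⟨0, 0⟩, 0⟩, 0, 5721⟩ 0 0)) (.void 77 ⟨⟨0, 0, 0, 52319, 0, 0, 0, 0, 0, ⟨0, 0⟩, 0⟩, 47681,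 0⟩ 0 0))) (.void 84 ⟨⟨0, 0, 0, 52319, 0, 0, 0, 0, 0, ⟨0, 0⟩, 0⟩, 47681, 0⟩ 0 0)) (.void 93 ⟨⟨0, 0, 0, 0, 0, 0, 0, 0, 0, ⟨0, 0⟩, 0⟩, 100000, 0⟩ 0 0)) (.void 106 ⟨⟨0, 0, 0, 0, 0, 0, 0, 0, 0, ⟨0, 0⟩, 0⟩, 100000, 0⟩ 0 0)))),
    by decide +kernel⟩

def covers44 : cell.Covers Vale.Agent.P237.Petty.Cor.Grid.N8.table row44.1 :=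
  ⟨(.cut .d 0 (.cut .v 16777216 (.cut .v 8388608 (.void 2 ⟨⟨0, 0, 114717, 0, 0, 0, 0, 0, 0, ⟨0, 0⟩, 0⟩, 0, 0⟩ 0 0) (.cut .d (-8388608) (.void 3 ⟨⟨100000, 0, 0, 0, 0, 0, 0, 0, 0, ⟨0, 0⟩, 0⟩, 0, 0⟩ 0 0) (.pos 3 .mm ⟨⟨0, 0, 0, 0, 0, 95702980041, 0, 0, 0, ⟨0, 0⟩, 0⟩, 0, 0⟩ 0 0))) (.cut .d (-8388608) (.void 105 ⟨⟨99997, 0, 0, 0, 0, 0, 0, 0, 0, ⟨0, 0⟩, 0⟩, 0, 0⟩ 0 0) (.cut .v 4294967296 (.cut .v 268435456 (.cut .v 67108864 (.cut .v 33554432 (.cut .v 25165824 (.cut .d (-4194304) (.void 23 ⟨⟨100000, 0, 0, 0, 0, 0, 0, 0, 0, ⟨0, 0⟩, 0⟩, 0, 0⟩ 0 0) (.cut .d (-2097152) (.void 23 ⟨⟨100000, 0, 0, 0, 0, 0, 0, 0, 0, ⟨0, 0⟩, 0⟩, 0, 0⟩ 0 0) (.pos 23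 .mp ⟨⟨24525701608, 0, 0, 0, 0, 30661148502, 0, 0, 0, ⟨0, 0⟩, 0⟩, 0, 0⟩ 0 0))) (.void 24 ⟨⟨100000, 0, 0, 0, 0, 0, 0, 0, 0, ⟨0, 0⟩, 0⟩, 0, 0⟩ 0 0)) (.void 73 ⟨⟨100000, 0, 0, 0, 0, 0, 0, 0, 0, ⟨0, 0⟩, 0⟩, 0, 0⟩ 0 0)) (.void 84 ⟨⟨100000, 0, 0, 0, 0, 0, 0, 0, 0, ⟨0, 0⟩, 0⟩, 0, 0⟩ 0 0)) (.void 93 ⟨⟨85189, 0, 0, 14174, 0, 0, 0, 0, 0, ⟨0, 0⟩, 0⟩, 0, 0⟩ 0 0)) (.void 106 ⟨⟨0, 0, 0, 100000, 0, 0, 0, 0, 0, ⟨0, 0⟩, 0⟩, 0, 0⟩ 0 0)))) (.cut .v 16777216 (.cut .v 8388608 (.cut .v 4194304 (.cut .v 2097152 (.cut .v 1048576 (.cut .v 524288 (.cut .v 262144 (.cut .v 131072 (.pos 107 .pm ⟨⟨0, 0, 111980296, 0, 0, 0, 0, 0, 0, ⟨0, 0⟩, 0⟩, 0, 0⟩ 0 0) (.pos 108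 .pm ⟨⟨0, 0, 301207807, 0, 0, 0, 0, 0, 0, ⟨0, 0⟩, 0⟩, 0, 30⟩ 0 0)) (.pos 103 .pm ⟨⟨0, 0, 545839098, 0, 0, 0, 0, 0, 0, ⟨0, 0⟩, 0⟩, 0, 59⟩ 0 0)) (.pos 97 .pm ⟨⟨0, 0, 1003021591, 0, 0, 0, 0, 0, 0, ⟨0, 0⟩, 0⟩, 0, 140⟩ 0 0)) (.pos 90 .pm ⟨⟨0, 0, 1899522944, 0, 0, 0, 0, 0, 0, ⟨0, 0⟩, 0⟩, 0, 273⟩ 0 0)) (.pos 88 .pm ⟨⟨0, 0, 3907341989, 0, 0, 0, 0, 0, 0, ⟨0, 0⟩, 0⟩, 0, 515⟩ 0 0)) (.pos 5 .pm ⟨⟨0, 0, 9923572856, 0, 0, 0, 0, 0, 0, ⟨0, 0⟩, 0⟩, 0, 867⟩ 0 0)) (.pos 3 .pm ⟨⟨0, 0, 0, 0, 0, 0, 0, 0, 0, ⟨0, 0⟩, 0⟩, 0, 0⟩ 0 0)) (.cut .v 4294967296 (.cut .v 268435456 (.cut .v 67108864 (.cut .v 33554432 (.cut .d 133154 (.cut .d 66577 (.cut .v 25165824 (.cut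 .d 33288 (.cut .v 20971520 (.cut .v 18874368 (.pos 27 .pp ⟨⟨12806728492, 0, 0, 0, 0, 0, 0, 0, 0, ⟨0, 0⟩, 0⟩, 0, 1018⟩ 0 0) (.pos 28 .pp ⟨⟨16177201182, 0, 0, 0, 0, 0, 0, 0, 0, ⟨0, 0⟩, 0⟩, 0, 1160⟩ 0 0)) (.cut .d 16644 (.pos 26 .pp ⟨⟨25631542719, 0, 0, 0, 0, 0, 2492, 0, 0, ⟨0, 0⟩, 0⟩, 0, 0⟩ 0 0) (.pos 26 .pp ⟨⟨1980795305, 0, 0, 0, 0, 0, 3203, 0, 0, ⟨0, 0⟩, 0⟩, 2822231678, 0⟩ 0 0))) (.pos 23 .pp ⟨⟨0, 0, 0, 0, 0, 0, 6949, 0, 0, ⟨0, 0⟩, 0⟩, 0, 0⟩ 0 0)) (.cut .d 33288 (.pos 24 .pp ⟨⟨0, 0, 0, 0, 0, 0, 3465, 0, 0, ⟨0, 0⟩, 0⟩, 5718215542, 0⟩ 0 0) (.pos 24 .pp ⟨⟨0, 0, 0, 0, 0, 0, 4042, 0, 0, ⟨0, 0⟩, 0⟩, 3935921006, 0⟩ 0 0))) (.pos 22 .pp ⟨⟨0,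 0, 0, 0, 0, 0, 0, 0, 0, ⟨0, 0⟩, 0⟩, 1956665353, 1954⟩ 0 0)) (.pos 22 .pp ⟨⟨0, 0, 0, 0, 0, 0, 0, 0, 0, ⟨0, 0⟩, 0⟩, 0, 2317⟩ 0 0)) (.cut .v 50331648 (.cut .d 133154 (.cut .d 66577 (.pos 76 .pp ⟨⟨0, 0, 0, 0, 0, 0, 3298, 0, 0, ⟨0, 0⟩, 0⟩, 8356515022, 0⟩ 0 0) (.pos 76 .pp ⟨⟨0, 0, 0, 0, 0, 0, 5155, 0, 0, ⟨0, 0⟩, 0⟩, 5549234499, 0⟩ 0 0)) (.pos 76 .pp ⟨⟨0, 48209041157, 0, 0, 0, 0, 0, 0, 0, ⟨0, 0⟩, 0⟩, 0, 3089⟩ 0 0)) (.void 77 ⟨⟨0, 0, 0, 52082, 0, 0, 0, 0, 0, ⟨0, 0⟩, 0⟩, 47140, 0⟩ 0 0))) (.void 84 ⟨⟨0, 0, 0, 52377, 0, 0, 0, 0, 0, ⟨0, 0⟩, 0⟩, 47623, 0⟩ 0 0)) (.void 93 ⟨⟨0, 0, 0, 0, 0, 0, 0, 0, 0, ⟨0, 0⟩, 0⟩, 100000, 0⟩ 0 0)) (.void 106 ⟨⟨0, 0,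 0, 0, 0, 0, 0, 0, 0, ⟨0, 0⟩, 0⟩, 100000, 0⟩ 0 0)))),
    by decide +kernel⟩

def covers45 : cell.Covers Vale.Agent.P237.Petty.Cor.Grid.N8.table row45.1 :=
  ⟨(.cut .d 0 (.cut .v 16777216 (.cut .v 8388608 (.void 2 ⟨⟨0, 0, 100000, 0, 0, 0, 0, 0, 0, ⟨0, 0⟩, 0⟩, 0, 0⟩ 0 0) (.cut .d (-8388608) (.void 3 ⟨⟨99992, 0, 0, 0, 0, 0, 0, 0, 0, ⟨0, 0⟩, 0⟩, 0, 0⟩ 0 0) (.pos 3 .mm ⟨⟨0, 0, 0, 0, 0, 134025520109, 0, 0, 0, ⟨0, 0⟩, 0⟩, 0, 0⟩ 0 0))) (.cut .v 4294967296 (.cut .v 268435456 (.cut .v 67108864 (.cut .v 33554432 (.cut .d (-8388608) (.void 22 ⟨⟨99994, 0, 0, 0, 0, 0, 0, 0, 0, ⟨0, 0⟩, 0⟩, 0, 0⟩ 0 0) (.cut .v 25165824 (.cut .d (-4194304) (.void 23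 ⟨⟨100000, 0, 0, 0, 0, 0, 0, 0, 0, ⟨0, 0⟩, 0⟩, 0, 0⟩ 0 0) (.cut .d (-2097152) (.void 23 ⟨⟨100000, 0, 0, 0, 0, 0, 0, 0, 0, ⟨0, 0⟩, 0⟩, 0, 0⟩ 0 0) (.pos 23 .mp ⟨⟨36385623471, 0, 0, 0, 0, 42363027851, 0, 0, 0, ⟨0, 0⟩, 0⟩, 0, 0⟩ 0 0))) (.void 24 ⟨⟨100000, 0, 0, 0, 0, 0, 0, 0, 0, ⟨0, 0⟩, 0⟩, 0, 0⟩ 0 0))) (.void 73 ⟨⟨100000, 0, 0, 0, 0, 0, 0, 0, 0, ⟨0, 0⟩, 0⟩, 0, 0⟩ 0 0)) (.void 84 ⟨⟨90086, 0, 0, 9916, 0, 0, 0, 0, 0, ⟨0, 0⟩, 0⟩, 0, 0⟩ 0 0)) (.void 93 ⟨⟨90088, 0, 0, 9912, 0, 0, 0, 0, 0, ⟨0, 0⟩, 0⟩, 0, 0⟩ 0 0)) (.void 106 ⟨⟨79082, 0, 11012, 9919, 0, 0, 0, 0, 0, ⟨0, 0⟩, 0⟩, 0, 0⟩ 0 0))) (.cut .v 16777216 (.cut .v 8388608 (.cut .v 4194304 (.cut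 .v 2097152 (.cut .v 1048576 (.cut .v 524288 (.cut .v 262144 (.cut .d 107866 (.void 102 ⟨⟨0, 0, 100000, 0, 0, 0, 0, 0, 0, ⟨0, 0⟩, 0⟩, 0, 0⟩ 0 0) (.cut .v 131072 (.pos 107 .pm ⟨⟨0, 0, 81305731, 0, 0, 0, 0, 0, 0, ⟨0, 0⟩, 0⟩, 0, 0⟩ 0 0) (.pos 108 .pm ⟨⟨0, 0, 306705549, 0, 0, 0, 0, 0, 0, ⟨0, 0⟩, 0⟩, 0, 11⟩ 0 0))) (.pos 103 .pm ⟨⟨0, 0, 792520817, 0, 0, 0, 0, 0, 0, ⟨0, 0⟩, 0⟩, 0, 32⟩ 0 0)) (.pos 97 .pm ⟨⟨0, 0, 1477191219, 0, 0, 0, 0, 0, 0, ⟨0, 0⟩, 0⟩, 0, 69⟩ 0 0)) (.pos 90 .pm ⟨⟨0, 0, 2791333801, 0, 0, 0, 0, 0, 0, ⟨0, 0⟩, 0⟩, 0, 137⟩ 0 0)) (.pos 88 .pm ⟨⟨0, 0, 5683647768, 0, 0, 0, 0, 0, 0, ⟨0, 0⟩, 0⟩, 0, 246⟩ 0 0)) (.pos 5 .pm ⟨⟨0, 0, 14021684542,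 0, 0, 0, 0, 0, 0, ⟨0, 0⟩, 0⟩, 0, 411⟩ 0 0)) (.pos 3 .pm ⟨⟨0, 0, 0, 0, 0, 0, 0, 0, 0, ⟨0, 0⟩, 0⟩, 0, 0⟩ 0 0)) (.cut .v 4294967296 (.cut .v 268435456 (.cut .v 67108864 (.cut .v 33554432 (.cut .d 107866 (.cut .d 53933 (.cut .v 25165824 (.cut .d 26966 (.cut .v 20971520 (.cut .d 13483 (.cut .v 18874368 (.cut .s 16588800 (.pos 27 .pp ⟨⟨16530347283, 0, 0, 0, 0, 0, 0, 0, 0, ⟨0, 0⟩, 0⟩, 0, 648⟩ 0 0) (.pos 27 .pp ⟨⟨20233809779, 0, 0, 0, 0, 0, 0, 0, 0, ⟨0, 0⟩, 0⟩, 0, 448⟩ 0 0)) (.pos 28 .pp ⟨⟨25247239397, 0, 0, 0, 0, 0, 0, 0, 0, ⟨0, 0⟩, 0⟩, 0, 548⟩ 0 0)) (.pos 25 .pp ⟨⟨0, 0, 0, 0, 0, 0, 2691, 0, 0, ⟨0, 0⟩, 0⟩, 0, 0⟩ 0 0)) (.cut .d 13483 (.pos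 26 .pp ⟨⟨37530494046, 0, 0, 0, 0, 0, 1284, 0, 0, ⟨0, 0⟩, 0⟩, 0, 0⟩ 0 0) (.pos 26 .pp ⟨⟨1488579738, 0, 0, 0, 0, 0, 1590, 0, 0, ⟨0, 0⟩, 0⟩, 4111238527, 0⟩ 0 0))) (.pos 23 .pp ⟨⟨0, 0, 0, 0, 0, 0, 3841, 0, 0, ⟨0, 0⟩, 0⟩, 0, 0⟩ 0 0)) (.cut .d 26966 (.pos 24 .pp ⟨⟨0, 0, 0, 0, 0, 0, 1703, 0, 0, ⟨0, 0⟩, 0⟩, 8394677872, 0⟩ 0 0) (.pos 24 .pp ⟨⟨0, 0, 0, 0, 0, 0, 1971, 0, 0, ⟨0, 0⟩, 0⟩, 5438482848, 0⟩ 0 0))) (.pos 22 .pp ⟨⟨0, 0, 0, 0, 0, 0, 0, 0, 0, ⟨0, 0⟩, 0⟩, 2724948256, 1083⟩ 0 0)) (.pos 22 .pp ⟨⟨0, 0, 0, 0, 0, 0, 0, 0, 0, ⟨0, 0⟩, 0⟩, 0, 1281⟩ 0 0)) (.cut .v 50331648 (.cut .d 107866 (.cut .d 53933 (.pos 76 .pp ⟨⟨0, 0, 0, 0, 0, 0, 1790, 0, 0,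 ⟨0, 0⟩, 0⟩, 12290515829, 0⟩ 0 0) (.pos 76 .pp ⟨⟨0, 0, 0, 0, 0, 0, 2640, 0, 0, ⟨0, 0⟩, 0⟩, 7769382468, 0⟩ 0 0)) (.pos 76 .pp ⟨⟨0, 68423443400, 0, 0, 0, 0, 0, 0, 0, ⟨0, 0⟩, 0⟩, 0, 1707⟩ 0 0)) (.pos 77 .pp ⟨⟨0, 0, 0, 879725971043399, 0, 0, 0, 0, 0, ⟨0, 0⟩, 0⟩, 797995628956602, 0⟩ 0 0))) (.pos 84 .pp ⟨⟨0, 0, 0, 879723023749566, 0, 0, 0, 0, 0, ⟨0, 0⟩, 0⟩, 797998576250434, 0⟩ 0 0)) (.void 93 ⟨⟨0, 0, 0, 0, 0, 0, 0, 0, 0, ⟨0, 0⟩, 0⟩, 100000, 0⟩ 0 0)) (.void 106 ⟨⟨0, 0, 0, 0, 0, 0, 0, 0, 0, ⟨0, 0⟩, 0⟩, 100000, 0⟩ 0 0)))),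
    by decide +kernel⟩

def covers46 : cell.Covers Vale.Agent.P237.Petty.Cor.Grid.N8.table row46.1 :=
  ⟨(.cut .d 0 (.cut .v 16777216 (.cut .v 8388608 (.void 2 ⟨⟨0, 0, 100000, 0, 0, 0, 0, 0, 0, ⟨0, 0⟩, 0⟩, 0, 0⟩ 0 0) (.cut .d (-8388608) (.void 3 ⟨⟨99993, 0, 0, 0, 0, 0, 0, 0, 0, ⟨0, 0⟩, 0⟩, 0, 0⟩ 0 0) (.pos 3 .mm ⟨⟨0, 0, 0, 0, 0, 177893281815, 0, 0, 0, ⟨0, 0⟩, 0⟩, 0, 0⟩ 0 0))) (.cut .d (-8388608) (.void 105 ⟨⟨100004, 0, 1, 0, 0, 0, 0, 0, 0, ⟨0, 0⟩, 0⟩, 0, 0⟩ 0 0) (.cut .v 4294967296 (.cut .v 268435456 (.cut .v 67108864 (.cut .v 33554432 (.cut .v 25165824 (.cut .d (-4194304) (.void 23 ⟨⟨100000, 0, 0, 0, 0, 0, 0, 0, 0, ⟨0, 0⟩, 0⟩, 0, 0⟩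 0 0) (.pos 23 .mp ⟨⟨50255521374, 0, 0, 0, 0, 101997652990, 0, 0, 0, ⟨0, 0⟩, 0⟩, 0, 0⟩ 0 0)) (.void 24 ⟨⟨100000, 0, 0, 0, 0, 0, 0, 0, 0, ⟨0, 0⟩, 0⟩, 0, 0⟩ 0 0)) (.void 73 ⟨⟨100000, 0, 0, 0, 0, 0, 0, 0, 0, ⟨0, 0⟩, 0⟩, 0, 0⟩ 0 0)) (.void 84 ⟨⟨99528, 0, 0, 0, 0, 0, 0, 0, 0, ⟨0, 0⟩, 0⟩, 0, 0⟩ 0 0)) (.void 93 ⟨⟨85866, 0, 0, 14203, 0, 0, 0, 0, 0, ⟨0, 0⟩, 0⟩, 0, 0⟩ 0 0)) (.void 106 ⟨⟨85810, 0, 0, 14190, 0, 0, 0, 0, 0, ⟨0, 0⟩, 0⟩, 0, 0⟩ 0 0)))) (.cut .v 16777216 (.cut .v 8388608 (.cut .v 4194304 (.cut .v 2097152 (.cut .v 1048576 (.cut .v 524288 (.cut .v 262144 (.cut .d 82729 (.void 102 ⟨⟨0, 0, 100000, 0, 0, 0, 0, 0, 0, ⟨0, 0⟩, 0⟩, 0, 0⟩ 0 0)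 (.cut .v 131072 (.pos 107 .pm ⟨⟨0, 0, 112090880, 0, 0, 0, 0, 0, 0, ⟨0, 0⟩, 0⟩, 0, 0⟩ 0 0) (.pos 108 .pm ⟨⟨0, 0, 450195250, 0, 0, 0, 0, 0, 0, ⟨0, 0⟩, 0⟩, 0, 5⟩ 0 0))) (.pos 103 .pm ⟨⟨0, 0, 1148872572, 0, 0, 0, 0, 0, 0, ⟨0, 0⟩, 0⟩, 0, 15⟩ 0 0)) (.pos 97 .pm ⟨⟨0, 0, 2147078811, 0, 0, 0, 0, 0, 0, ⟨0, 0⟩, 0⟩, 0, 37⟩ 0 0)) (.pos 90 .pm ⟨⟨0, 0, 4106472748, 0, 0, 0, 0, 0, 0, ⟨0, 0⟩, 0⟩, 0, 72⟩ 0 0)) (.pos 88 .pm ⟨⟨0, 0, 8476947944, 0, 0, 0, 0, 0, 0, ⟨0, 0⟩, 0⟩, 0, 131⟩ 0 0)) (.pos 5 .pm ⟨⟨0, 0, 21354993754, 0, 0, 0, 0, 0, 0, ⟨0, 0⟩, 0⟩, 0, 218⟩ 0 0)) (.pos 3 .pm ⟨⟨0, 0, 0, 0, 0, 0, 0, 0, 0, ⟨0, 0⟩, 0⟩, 0, 0⟩ 0 0)) (.cut .v 4294967296 (.cut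 .v 268435456 (.cut .v 67108864 (.cut .v 33554432 (.cut .d 82729 (.cut .d 41364 (.cut .v 25165824 (.cut .d 20682 (.cut .v 20971520 (.cut .v 18874368 (.cut .s 16629760 (.pos 27 .pp ⟨⟨25275356454, 0, 0, 0, 0, 0, 0, 0, 0, ⟨0, 0⟩, 0⟩, 0, 315⟩ 0 0) (.pos 27 .pp ⟨⟨29821546198, 0, 0, 0, 0, 0, 0, 0, 0, ⟨0, 0⟩, 0⟩, 0, 229⟩ 0 0)) (.pos 28 .pp ⟨⟨33274156919, 0, 0, 0, 0, 0, 0, 0, 0, ⟨0, 0⟩, 0⟩, 0, 296⟩ 0 0)) (.cut .d 10341 (.pos 26 .pp ⟨⟨53162213950, 0, 0, 0, 0, 0, 649, 0, 0, ⟨0, 0⟩, 0⟩, 0, 0⟩ 0 0) (.pos 26 .pp ⟨⟨3361324195, 0, 0, 0, 0, 0, 817, 0, 0, ⟨0, 0⟩, 0⟩, 5900755996, 0⟩ 0 0))) (.pos 23 .pp ⟨⟨0, 0, 0, 0, 0, 0, 1842, 0, 0, ⟨0, 0⟩, 0⟩, 0, 0⟩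 0 0)) (.cut .d 20682 (.pos 24 .pp ⟨⟨0, 0, 0, 0, 0, 0, 909, 0, 0, ⟨0, 0⟩, 0⟩, 11862843366, 0⟩ 0 0) (.pos 24 .pp ⟨⟨0, 0, 0, 0, 0, 0, 1035, 0, 0, ⟨0, 0⟩, 0⟩, 8103573551, 0⟩ 0 0))) (.pos 22 .pp ⟨⟨0, 0, 0, 0, 0, 0, 0, 0, 0, ⟨0, 0⟩, 0⟩, 4098203981, 521⟩ 0 0)) (.pos 22 .pp ⟨⟨0, 0, 0, 0, 0, 0, 0, 0, 0, ⟨0, 0⟩, 0⟩, 0, 614⟩ 0 0)) (.cut .v 50331648 (.cut .d 82729 (.cut .d 41364 (.pos 76 .pp ⟨⟨0, 0, 0, 0, 0, 0, 927, 0, 0, ⟨0, 0⟩, 0⟩, 17318582782, 0⟩ 0 0) (.pos 76 .pp ⟨⟨0, 0, 0, 0, 0, 0, 1381, 0, 0, ⟨0, 0⟩, 0⟩, 11530573099, 0⟩ 0 0)) (.pos 76 .pp ⟨⟨0, 104678281399, 0, 0, 0, 0, 0, 0, 0, ⟨0, 0⟩, 0⟩, 0, 819⟩ 0 0)) (.void 77 ⟨⟨0, 0, 0, 52694, 0, 0, 0,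 0, 0, ⟨0, 0⟩, 0⟩, 47306, 0⟩ 0 0))) (.void 84 ⟨⟨0, 0, 0, 52475, 0, 0, 0, 0, 0, ⟨0, 0⟩, 0⟩, 47525, 0⟩ 0 0)) (.void 93 ⟨⟨0, 0, 0, 0, 0, 0, 0, 0, 0, ⟨0, 0⟩, 0⟩, 100000, 0⟩ 0 0)) (.void 106 ⟨⟨0, 0, 0, 0, 0, 0, 0, 0, 0, ⟨0, 0⟩, 0⟩, 100000, 0⟩ 0 0)))),
    by decide +kernel⟩

def covers47 : cell.Covers Vale.Agent.P237.Petty.Cor.Grid.N8.table row47.1 :=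
  ⟨(.cut .d 0 (.cut .v 16777216 (.cut .v 8388608 (.void 2 ⟨⟨0, 0, 100156, 0, 0, 0, 0, 0, 0, ⟨0, 0⟩, 0⟩, 0, 0⟩ 0 0) (.pos 3 .mm ⟨⟨0, 0, 0, 0, 0, 331180789857, 0, 0, 0, ⟨0, 0⟩, 0⟩, 0, 0⟩ 0 0)) (.cut .d (-8388608) (.void 105 ⟨⟨100000, 0, 0, 0, 0, 0, 0, 0, 0, ⟨0, 0⟩, 0⟩, 0, 0⟩ 0 0) (.cut .v 4294967296 (.cut .v 268435456 (.cut .v 67108864 (.cut .v 33554432 (.cut .v 25165824 (.cut .d (-4194304) (.void 23 ⟨⟨100000, 0, 0, 0, 0, 0, 0, 0, 0, ⟨0, 0⟩, 0⟩, 0, 0⟩ 0 0) (.pos 23 .mp ⟨⟨63247290759, 0, 0, 0, 0, 116146147860, 0, 0, 0, ⟨0, 0⟩, 0⟩, 0, 0⟩ 0 0)) (.void 24 ⟨⟨100000, 0, 0, 0, 0, 0, 0, 0, 0, ⟨0, 0⟩, 0⟩, 0, 0⟩ 0 0)) (.void 73 ⟨⟨100000, 0, 0,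 0, 0, 0, 0, 0, 0, ⟨0, 0⟩, 0⟩, 0, 0⟩ 0 0)) (.void 84 ⟨⟨100000, 0, 0, 0, 0, 0, 0, 0, 0, ⟨0, 0⟩, 0⟩, 0, 0⟩ 0 0)) (.void 93 ⟨⟨85798, 0, 0, 14202, 0, 0, 0, 0, 0, ⟨0, 0⟩, 0⟩, 0, 0⟩ 0 0)) (.void 106 ⟨⟨82157, 0, 0, 14318, 0, 0, 0, 0, 0, ⟨0, 0⟩, 0⟩, 0, 0⟩ 0 0)))) (.cut .v 16777216 (.cut .v 8388608 (.cut .v 4194304 (.cut .v 2097152 (.cut .v 1048576 (.cut .v 524288 (.cut .v 262144 (.cut .v 131072 (.pos 107 .pm ⟨⟨0, 0, 265835350, 0, 0, 0, 0, 0, 0, ⟨0, 0⟩, 0⟩, 0, 0⟩ 0 0) (.pos 108 .pm ⟨⟨0, 0, 791543348, 0, 0, 0, 0, 0, 0, ⟨0, 0⟩, 0⟩, 0, 4⟩ 0 0)) (.pos 103 .pm ⟨⟨0, 0, 1473548798, 0, 0, 0, 0, 0, 0, ⟨0, 0⟩, 0⟩, 0, 10⟩ 0 0)) (.pos 97 .pm ⟨⟨0, 0, 2774655298,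 0, 0, 0, 0, 0, 0, ⟨0, 0⟩, 0⟩, 0, 20⟩ 0 0)) (.pos 90 .pm ⟨⟨0, 0, 5396213457, 0, 0, 0, 0, 0, 0, ⟨0, 0⟩, 0⟩, 0, 39⟩ 0 0)) (.pos 88 .pm ⟨⟨0, 0, 11410509029, 0, 0, 0, 0, 0, 0, ⟨0, 0⟩, 0⟩, 0, 73⟩ 0 0)) (.pos 5 .pm ⟨⟨0, 0, 30152170200, 0, 0, 0, 0, 0, 0, ⟨0, 0⟩, 0⟩, 0, 131⟩ 0 0)) (.pos 3 .pm ⟨⟨0, 0, 0, 0, 0, 0, 0, 0, 0, ⟨0, 0⟩, 0⟩, 0, 0⟩ 0 0)) (.cut .v 4294967296 (.cut .v 268435456 (.cut .v 67108864 (.cut .v 33554432 (.cut .d 66053 (.cut .d 33026 (.cut .v 25165824 (.cut .d 16513 (.cut .v 20971520 (.cut .v 18874368 (.pos 27 .pp ⟨⟨35636825128, 0, 0, 0, 0, 0, 0, 0, 0, ⟨0, 0⟩, 0⟩, 0, 160⟩ 0 0) (.pos 28 .pp ⟨⟨44482386716, 0, 0, 0, 0, 0, 210, 0,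 0, ⟨0, 0⟩, 0⟩, 0, 106⟩ 0 0)) (.pos 26 .pp ⟨⟨58775998902, 0, 0, 0, 0, 0, 532, 0, 0, ⟨0, 0⟩, 0⟩, 0, 0⟩ 0 0)) (.pos 23 .pp ⟨⟨0, 0, 0, 0, 0, 0, 983, 0, 0, ⟨0, 0⟩, 0⟩, 0, 0⟩ 0 0)) (.cut .d 16513 (.pos 24 .pp ⟨⟨0, 0, 0, 0, 0, 0, 525, 0, 0, ⟨0, 0⟩, 0⟩, 14747744883, 0⟩ 0 0) (.pos 24 .pp ⟨⟨0, 0, 0, 0, 0, 0, 672, 0, 0, ⟨0, 0⟩, 0⟩, 11145609667, 0⟩ 0 0))) (.pos 22 .pp ⟨⟨0, 0, 0, 0, 0, 0, 0, 0, 0, ⟨0, 0⟩, 0⟩, 5773364172, 279⟩ 0 0)) (.pos 22 .pp ⟨⟨0, 0, 0, 0, 0, 0, 0, 0, 0, ⟨0, 0⟩, 0⟩, 0, 328⟩ 0 0)) (.cut .v 50331648 (.cut .d 66053 (.cut .d 33026 (.pos 76 .pp ⟨⟨0, 0, 0, 0, 0, 0, 496, 0, 0, ⟨0, 0⟩, 0⟩, 21557367825, 0⟩ 0 0) (.pos 76 .pp ⟨⟨0, 0, 0,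 0, 0, 0, 785, 0, 0, ⟨0, 0⟩, 0⟩, 15663655250, 0⟩ 0 0)) (.pos 76 .pp ⟨⟨0, 149005788620, 0, 0, 0, 0, 0, 0, 0, ⟨0, 0⟩, 0⟩, 0, 437⟩ 0 0)) (.pos 77 .pp ⟨⟨0, 0, 0, 880705104010761, 0, 0, 0, 0, 0, ⟨0, 0⟩, 0⟩, 797016495989239, 0⟩ 0 0))) (.void 84 ⟨⟨0, 0, 0, 52495, 0, 0, 0, 0, 0, ⟨0, 0⟩, 0⟩, 47505, 0⟩ 0 0)) (.void 93 ⟨⟨0, 0, 0, 0, 0, 0, 0, 0, 0, ⟨0, 0⟩, 0⟩, 100000, 0⟩ 0 0)) (.void 106 ⟨⟨0, 0, 0, 0, 0, 0, 0, 0, 0, ⟨0, 0⟩, 0⟩, 100000, 0⟩ 0 0)))),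
    by decide +kernel⟩

def covers48 : cell.Covers Vale.Agent.P237.Petty.Cor.Grid.N8.table row48.1 :=
  ⟨(.cut .d 0 (.cut .v 16777216 (.cut .v 8388608 (.pos 2 .mm ⟨⟨0, 0, 1677721600000000, 0, 0, 0, 0, 0, 0, ⟨0, 0⟩, 0⟩, 0, 0⟩ 0 0) (.cut .d (-8388608) (.pos 3 .mm ⟨⟨1677721600000001, 0, 0, 0, 0, 0, 0, 0, 0, ⟨0, 0⟩, 0⟩, 0, 0⟩ 0 0) (.pos 3 .mm ⟨⟨0, 0, 0, 0, 0, 323124674164, 0, 0, 0, ⟨0, 0⟩, 0⟩, 0, 0⟩ 0 0))) (.cut .d (-8388608) (.void 105 ⟨⟨100000, 0, 0, 0, 0, 0, 0, 0, 0, ⟨0, 0⟩, 0⟩, 0, 0⟩ 0 0) (.cut .d (-4194304) (.void 105 ⟨⟨100000, 0, 0, 0, 0, 0, 0, 0, 0, ⟨0, 0⟩, 0⟩, 0, 0⟩ 0 0) (.cut .v 4294967296 (.cut .v 268435456 (.cut .v 67108864 (.cut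 .v 33554432 (.cut .v 25165824 (.cut .s 16678912 (.pos 23 .mp ⟨⟨79876180706, 0, 0, 0, 0, 139727887730, 0, 0, 0, ⟨0, 0⟩, 0⟩, 0, 0⟩ 0 0) (.pos 23 .mp ⟨⟨105121433307, 0, 0, 0, 0, 172513629929, 0, 0, 0, ⟨0, 0⟩, 0⟩, 0, 0⟩ 0 0)) (.void 24 ⟨⟨100000, 0, 0, 0, 0, 0, 0, 0, 0, ⟨0, 0⟩, 0⟩, 0, 0⟩ 0 0)) (.void 73 ⟨⟨100000, 0, 0, 0, 0, 0, 0, 0, 0, ⟨0, 0⟩, 0⟩, 0, 0⟩ 0 0)) (.void 84 ⟨⟨100000, 0, 0, 0, 0, 0, 0, 0, 0, ⟨0, 0⟩, 0⟩, 0, 0⟩ 0 0)) (.void 93 ⟨⟨83788, 0, 0, 16212, 0, 0, 0, 0, 0, ⟨0, 0⟩, 0⟩, 0, 0⟩ 0 0)) (.void 106 ⟨⟨83788, 0, 0, 16212, 0, 0, 0, 0, 0, ⟨0, 0⟩, 0⟩, 0, 0⟩ 0 0))))) (.cut .v 16777216 (.cut .v 8388608 (.cut .v 4194304 (.cut .v 2097152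 (.cut .v 1048576 (.cut .d 57740 (.pos 89 .pm ⟨⟨0, 0, 1677721599999991, 0, 0, 0, 0, 0, 0, ⟨0, 0⟩, 0⟩, 0, 10⟩ 0 0) (.cut .v 524288 (.cut .v 262144 (.cut .v 131072 (.cut .d 86610 (.pos 107 .pm ⟨⟨0, 0, 252675415, 0, 0, 0, 0, 0, 0, ⟨0, 0⟩, 0⟩, 0, 0⟩ 0 0) (.pos 107 .pm ⟨⟨0, 0, 78602971, 0, 0, 0, 0, 0, 0, ⟨0, 0⟩, 0⟩, 0, 0⟩ 0 0)) (.pos 108 .pm ⟨⟨0, 0, 819289244, 0, 0, 0, 0, 0, 0, ⟨0, 0⟩, 0⟩, 0, 3⟩ 0 0)) (.pos 103 .pm ⟨⟨0, 0, 1577473969, 0, 0, 0, 0, 0, 0, ⟨0, 0⟩, 0⟩, 0, 6⟩ 0 0)) (.pos 97 .pm ⟨⟨0, 0, 3051130835, 0, 0, 0, 0, 0, 0, ⟨0, 0⟩, 0⟩, 0, 11⟩ 0 0))) (.pos 90 .pm ⟨⟨0, 0, 7875231053, 0, 0, 0, 0, 0, 0, ⟨0, 0⟩, 0⟩, 0, 19⟩ 0 0)) (.pos 88 .pm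 ⟨⟨0, 0, 15832504218, 0, 0, 0, 0, 0, 0, ⟨0, 0⟩, 0⟩, 0, 33⟩ 0 0)) (.pos 5 .pm ⟨⟨0, 0, 37586583187, 0, 0, 0, 0, 0, 0, ⟨0, 0⟩, 0⟩, 0, 56⟩ 0 0)) (.pos 3 .pm ⟨⟨0, 0, 0, 0, 0, 0, 0, 0, 0, ⟨0, 0⟩, 0⟩, 0, 0⟩ 0 0)) (.cut .v 4294967296 (.cut .v 268435456 (.cut .v 67108864 (.cut .v 33554432 (.cut .d 57740 (.cut .d 28870 (.cut .v 25165824 (.cut .d 14435 (.cut .v 20971520 (.cut .d 7217 (.cut .v 18874368 (.cut .s 16678912 (.pos 27 .pp ⟨⟨43047488032, 0, 0, 0, 0, 0, 0, 0, 0, ⟨0, 0⟩, 0⟩, 0, 106⟩ 0 0) (.pos 27 .pp ⟨⟨55550803300, 0, 0, 0, 0, 0, 0, 0, 0, ⟨0, 0⟩, 0⟩, 0, 65⟩ 0 0)) (.pos 28 .pp ⟨⟨68599589293, 0, 0, 0, 0, 0, 0, 0, 0, ⟨0, 0⟩, 0⟩, 0, 76⟩ 0 0))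 (.pos 25 .pp ⟨⟨0, 0, 0, 0, 0, 0, 0, 0, 0, ⟨0, 0⟩, 0⟩, 0, 178⟩ 0 0)) (.cut .d 7217 (.pos 26 .pp ⟨⟨104046975643, 0, 0, 0, 0, 0, 197, 0, 0, ⟨0, 0⟩, 0⟩, 0, 0⟩ 0 0) (.pos 26 .pp ⟨⟨0, 0, 0, 0, 0, 0, 242, 0, 0, ⟨0, 0⟩, 0⟩, 11406818756, 0⟩ 0 0))) (.pos 23 .pp ⟨⟨0, 0, 0, 0, 0, 0, 641, 0, 0, ⟨0, 0⟩, 0⟩, 0, 0⟩ 0 0)) (.cut .d 14435 (.pos 24 .pp ⟨⟨0, 0, 0, 0, 0, 0, 240, 0, 0, ⟨0, 0⟩, 0⟩, 23369571302, 0⟩ 0 0) (.pos 24 .pp ⟨⟨0, 0, 0, 0, 0, 0, 313, 0, 0, ⟨0, 0⟩, 0⟩, 14182940198, 0⟩ 0 0))) (.pos 22 .pp ⟨⟨0, 0, 0, 0, 0, 0, 0, 0, 0, ⟨0, 0⟩, 0⟩, 7143136942, 182⟩ 0 0)) (.pos 22 .pp ⟨⟨0, 0, 0, 0, 0, 0, 0, 0, 0, ⟨0, 0⟩, 0⟩, 0, 214⟩ 0 0)) (.cut .v 50331648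 (.cut .d 57740 (.cut .d 28870 (.pos 76 .pp ⟨⟨0, 0, 0, 0, 0, 0, 293, 0, 0, ⟨0, 0⟩, 0⟩, 34314702818, 0⟩ 0 0) (.pos 76 .pp ⟨⟨0, 0, 0, 0, 0, 0, 379, 0, 0, ⟨0, 0⟩, 0⟩, 20179336067, 0⟩ 0 0)) (.pos 76 .pp ⟨⟨0, 185198433306, 0, 0, 0, 0, 0, 0, 0, ⟨0, 0⟩, 0⟩, 0, 285⟩ 0 0)) (.pos 77 .pp ⟨⟨0, 0, 0, 881351648530374, 0, 0, 0, 0, 0, ⟨0, 0⟩, 0⟩, 796369951469627, 0⟩ 0 0))) (.pos 84 .pp ⟨⟨0, 0, 0, 881343608814236, 0, 0, 0, 0, 0, ⟨0, 0⟩, 0⟩, 796377991185764, 0⟩ 0 0)) (.void 93 ⟨⟨0, 0, 0, 0, 0, 0, 0, 0, 0, ⟨0, 0⟩, 0⟩, 100000, 0⟩ 0 0)) (.void 106 ⟨⟨0, 0, 0, 0, 0, 0, 0, 0, 0, ⟨0, 0⟩, 0⟩, 100000, 0⟩ 0 0)))),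
    by decide +kernel⟩

def covers49 : cell.Covers Vale.Agent.P237.Petty.Cor.Grid.N8.table row49.1 :=
  ⟨(.cut .d 0 (.cut .v 16777216 (.cut .v 8388608 (.void 2 ⟨⟨0, 0, 100000, 0, 0, 0, 0, 0, 0, ⟨0, 0⟩, 0⟩, 0, 0⟩ 0 0) (.pos 3 .mm ⟨⟨0, 0, 0, 0, 0, 646913297414, 0, 0, 0, ⟨0, 0⟩, 0⟩, 0, 0⟩ 0 0)) (.cut .v 4294967296 (.cut .v 268435456 (.cut .v 67108864 (.cut .v 33554432 (.cut .d (-8388608) (.void 22 ⟨⟨93922, 0, 0, 5357, 0, 0, 0, 0, 0, ⟨0, 0⟩, 0⟩, 0, 0⟩ 0 0) (.cut .v 25165824 (.cut .d (-4194304) (.void 23 ⟨⟨100000, 0, 0, 0, 0, 0, 0, 0, 0, ⟨0, 0⟩, 0⟩, 0, 0⟩ 0 0) (.pos 23 .mp ⟨⟨146773923416, 0, 0, 0, 0, 223303390355, 0, 0, 0, ⟨0, 0⟩, 0⟩, 0,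 0⟩ 0 0)) (.void 24 ⟨⟨100000, 0, 0, 0, 0, 0, 0, 0, 0, ⟨0, 0⟩, 0⟩, 0, 0⟩ 0 0))) (.pos 73 .mp ⟨⟨1677635302855704, 0, 0, 0, 0, 0, 0, 0, 0, ⟨0, 0⟩, 0⟩, 0, 0⟩ 0 0)) (.void 84 ⟨⟨100000, 0, 0, 0, 0, 0, 0, 0, 0, ⟨0, 0⟩, 0⟩, 0, 0⟩ 0 0)) (.void 93 ⟨⟨90035, 0, 0, 9965, 0, 0, 0, 0, 0, ⟨0, 0⟩, 0⟩, 0, 0⟩ 0 0)) (.void 106 ⟨⟨93063, 0, 0, 1072, 0, 0, 0, 0, 0, ⟨0, 0⟩, 0⟩, 0, 0⟩ 0 0))) (.cut .v 16777216 (.cut .v 8388608 (.cut .v 4194304 (.cut .v 2097152 (.cut .v 1048576 (.cut .v 524288 (.cut .v 262144 (.cut .d 41162 (.pos 102 .pm ⟨⟨0, 0, 1677721599999999, 0, 0, 0, 0, 0, 0, ⟨0, 0⟩, 0⟩, 0, 1⟩ 0 0) (.cut .v 131072 (.cut .d 61743 (.pos 107 .pm ⟨⟨0, 0, 1677721600000000,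 0, 0, 0, 0, 0, 0, ⟨0, 0⟩, 0⟩, 0, 1⟩ 0 0) (.pos 107 .pm ⟨⟨0, 0, 141830200, 0, 0, 0, 0, 0, 0, ⟨0, 0⟩, 0⟩, 0, 0⟩ 0 0)) (.pos 108 .pm ⟨⟨0, 0, 1281319227, 0, 0, 0, 0, 0, 0, ⟨0, 0⟩, 0⟩, 0, 1⟩ 0 0))) (.pos 103 .pm ⟨⟨0, 0, 3311684442, 0, 0, 0, 0, 0, 0, ⟨0, 0⟩, 0⟩, 0, 2⟩ 0 0)) (.pos 97 .pm ⟨⟨0, 0, 6251020203, 0, 0, 0, 0, 0, 0, ⟨0, 0⟩, 0⟩, 0, 5⟩ 0 0)) (.pos 90 .pm ⟨⟨0, 0, 12047394155, 0, 0, 0, 0, 0, 0, ⟨0, 0⟩, 0⟩, 0, 10⟩ 0 0)) (.pos 88 .pm ⟨⟨0, 0, 24986829659, 0, 0, 0, 0, 0, 0, ⟨0, 0⟩, 0⟩, 0, 18⟩ 0 0)) (.pos 5 .pm ⟨⟨0, 0, 62960592188, 0, 0, 0, 0, 0, 0, ⟨0, 0⟩, 0⟩, 0, 29⟩ 0 0)) (.pos 3 .pm ⟨⟨0, 0, 0, 0, 0, 0, 0, 0, 0, ⟨0, 0⟩, 0⟩, 0, 0⟩ 0 0)) (.cut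 .v 4294967296 (.cut .v 268435456 (.cut .v 67108864 (.cut .v 33554432 (.cut .d 41162 (.cut .d 20581 (.cut .v 25165824 (.cut .d 10290 (.cut .v 20971520 (.cut .v 18874368 (.cut .s 16703488 (.pos 27 .pp ⟨⟨71906654965, 0, 0, 0, 0, 0, 0, 0, 0, ⟨0, 0⟩, 0⟩, 0, 44⟩ 0 0) (.pos 27 .pp ⟨⟨84783866249, 0, 0, 0, 0, 0, 0, 0, 0, ⟨0, 0⟩, 0⟩, 0, 32⟩ 0 0)) (.pos 28 .pp ⟨⟨94706283032, 0, 0, 0, 0, 0, 0, 0, 0, ⟨0, 0⟩, 0⟩, 0, 40⟩ 0 0)) (.cut .d 5145 (.pos 26 .pp ⟨⟨151026694557, 0, 0, 0, 0, 0, 89, 0, 0, ⟨0, 0⟩, 0⟩, 0, 0⟩ 0 0) (.pos 26 .pp ⟨⟨8364303194, 0, 0, 0, 0, 0, 111, 0, 0, ⟨0, 0⟩, 0⟩, 17052655966, 0⟩ 0 0))) (.pos 23 .pp ⟨⟨0, 0, 0, 0, 0, 0, 251, 0, 0, ⟨0,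 0⟩, 0⟩, 0, 0⟩ 0 0)) (.cut .d 10290 (.pos 24 .pp ⟨⟨0, 0, 0, 0, 0, 0, 123, 0, 0, ⟨0, 0⟩, 0⟩, 33689620498, 0⟩ 0 0) (.pos 24 .pp ⟨⟨0, 0, 0, 0, 0, 0, 141, 0, 0, ⟨0, 0⟩, 0⟩, 23176737833, 0⟩ 0 0))) (.pos 22 .pp ⟨⟨0, 0, 0, 0, 0, 0, 0, 0, 0, ⟨0, 0⟩, 0⟩, 11860440004, 72⟩ 0 0)) (.pos 22 .pp ⟨⟨0, 0, 0, 0, 0, 0, 0, 0, 0, ⟨0, 0⟩, 0⟩, 0, 84⟩ 0 0)) (.cut .v 50331648 (.cut .d 41162 (.cut .d 20581 (.pos 76 .pp ⟨⟨0, 0, 0, 0, 0, 0, 130, 0, 0, ⟨0, 0⟩, 0⟩, 49122007739, 0⟩ 0 0) (.pos 76 .pp ⟨⟨0, 0, 0, 0, 0, 0, 190, 0, 0, ⟨0, 0⟩, 0⟩, 33113008538, 0⟩ 0 0)) (.pos 76 .pp ⟨⟨0, 310421501072, 0, 0, 0, 0, 0, 0, 0, ⟨0, 0⟩, 0⟩, 0, 112⟩ 0 0)) (.void 77 ⟨⟨0, 0, 0, 52554,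 0, 0, 0, 0, 0, ⟨0, 0⟩, 0⟩, 47446, 0⟩ 0 0))) (.void 84 ⟨⟨0, 0, 0, 52554, 0, 0, 0, 0, 0, ⟨0, 0⟩, 0⟩, 47446, 0⟩ 0 0)) (.void 93 ⟨⟨0, 0, 0, 0, 0, 0, 0, 0, 0, ⟨0, 0⟩, 0⟩, 100000, 0⟩ 0 0)) (.void 106 ⟨⟨0, 0, 0, 0, 0, 0, 0, 0, 0, ⟨0, 0⟩, 0⟩, 100000, 0⟩ 0 0)))),
    by decide +kernel⟩

def covers50 : cell.Covers Vale.Agent.P237.Petty.Cor.Grid.N8.table row50.1 :=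
  ⟨(.cut .d 0 (.cut .v 16777216 (.cut .v 8388608 (.void 2 ⟨⟨0, 0, 100000, 0, 0, 0, 0, 0, 0, ⟨0, 0⟩, 0⟩, 0, 0⟩ 0 0) (.pos 3 .mm ⟨⟨0, 0, 0, 0, 0, 913888491803, 0, 0, 0, ⟨0, 0⟩, 0⟩, 0, 0⟩ 0 0)) (.cut .d (-8388608) (.void 105 ⟨⟨100000, 0, 0, 0, 0, 0, 0, 0, 0, ⟨0, 0⟩, 0⟩, 0, 0⟩ 0 0) (.cut .v 4294967296 (.cut .v 268435456 (.cut .v 67108864 (.cut .v 33554432 (.cut .v 25165824 (.cut .d (-4194304) (.void 23 ⟨⟨100000, 0, 0, 0, 0, 0, 0, 0, 0, ⟨0, 0⟩, 0⟩, 0, 0⟩ 0 0) (.pos 23 .mp ⟨⟨224827348082, 0, 0, 0, 0, 315383154854, 0, 0, 0, ⟨0, 0⟩, 0⟩, 0, 0⟩ 0 0)) (.void 24 ⟨⟨100000, 0, 0, 0, 0, 0, 0, 0, 0, ⟨0, 0⟩, 0⟩, 0, 0⟩ 0 0)) (.void 73 ⟨⟨100000, 0, 0,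 0, 0, 0, 0, 0, 0, ⟨0, 0⟩, 0⟩, 0, 0⟩ 0 0)) (.void 84 ⟨⟨100135, 0, 0, 0, 0, 0, 0, 0, 0, ⟨0, 0⟩, 0⟩, 0, 0⟩ 0 0)) (.void 93 ⟨⟨85750, 0, 0, 14250, 0, 0, 0, 0, 0, ⟨0, 0⟩, 0⟩, 0, 0⟩ 0 0)) (.void 106 ⟨⟨88195, 0, 0, 14507, 0, 0, 0, 0, 0, ⟨0, 0⟩, 0⟩, 0, 0⟩ 0 0)))) (.cut .v 16777216 (.cut .v 8388608 (.cut .v 4194304 (.cut .v 2097152 (.cut .v 1048576 (.cut .d 32898 (.pos 89 .pm ⟨⟨0, 0, 1677721599999998, 0, 0, 0, 0, 0, 0, ⟨0, 0⟩, 0⟩, 0, 2⟩ 0 0) (.cut .v 524288 (.cut .v 262144 (.cut .v 131072 (.cut .d 49347 (.pos 107 .pm ⟨⟨0, 0, 601525148, 0, 0, 0, 0, 0, 0, ⟨0, 0⟩, 0⟩, 0, 0⟩ 0 0) (.cut .v 65536 (.pos 109 .pm ⟨⟨0, 0, 87061574, 0, 0, 0, 0, 0, 0, ⟨0,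 0⟩, 0⟩, 0, 0⟩ 0 0) (.pos 110 .pm ⟨⟨0, 0, 929038512, 0, 0, 0, 0, 0, 0, ⟨0, 0⟩, 0⟩, 0, 0⟩ 0 0))) (.pos 108 .pm ⟨⟨0, 0, 1854836040, 0, 0, 0, 0, 0, 0, ⟨0, 0⟩, 0⟩, 0, 0⟩ 0 0)) (.pos 103 .pm ⟨⟨0, 0, 3627260033, 0, 0, 0, 0, 0, 0, ⟨0, 0⟩, 0⟩, 0, 1⟩ 0 0)) (.pos 97 .pm ⟨⟨0, 0, 7088231506, 0, 0, 0, 0, 0, 0, ⟨0, 0⟩, 0⟩, 0, 2⟩ 0 0))) (.pos 90 .pm ⟨⟨0, 0, 17879363184, 0, 0, 0, 0, 0, 0, ⟨0, 0⟩, 0⟩, 0, 4⟩ 0 0)) (.pos 88 .pm ⟨⟨0, 0, 36509327039, 0, 0, 0, 0, 0, 0, ⟨0, 0⟩, 0⟩, 0, 8⟩ 0 0)) (.pos 5 .pm ⟨⟨0, 0, 88940734376, 0, 0, 0, 19, 0, 0, ⟨0, 0⟩, 0⟩, 0, 0⟩ 0 0)) (.pos 3 .pm ⟨⟨0, 0, 0, 0, 0, 0, 11, 0, 0, ⟨0, 0⟩, 0⟩, 0, 0⟩ 0 0)) (.cut .v 4294967296 (.cut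 .v 268435456 (.cut .v 67108864 (.cut .v 33554432 (.cut .d 32898 (.cut .d 16449 (.cut .v 25165824 (.cut .d 8224 (.cut .v 20971520 (.cut .d 4112 (.cut .v 18874368 (.cut .s 16719872 (.pos 27 .pp ⟨⟨98722730201, 0, 0, 0, 0, 0, 44, 0, 0, ⟨0, 0⟩, 0⟩, 0, 0⟩ 0 0) (.pos 27 .pp ⟨⟨122904082051, 0, 0, 0, 0, 0, 29, 0, 0, ⟨0, 0⟩, 0⟩, 0, 0⟩ 0 0)) (.pos 28 .pp ⟨⟨152641412453, 0, 0, 0, 0, 0, 39, 0, 0, ⟨0, 0⟩, 0⟩, 0, 0⟩ 0 0)) (.pos 25 .pp ⟨⟨0, 0, 0, 0, 0, 0, 82, 0, 0, ⟨0, 0⟩, 0⟩, 0, 0⟩ 0 0)) (.cut .d 4112 (.pos 26 .pp ⟨⟨228341158824, 0, 0, 0, 0, 0, 42, 0, 0, ⟨0, 0⟩, 0⟩, 0, 0⟩ 0 0) (.pos 26 .pp ⟨⟨0, 0, 0, 0, 0, 0, 51, 0, 0, ⟨0, 0⟩, 0⟩, 26169564203, 0⟩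 0 0))) (.pos 23 .pp ⟨⟨0, 0, 0, 0, 0, 0, 129, 0, 0, ⟨0, 0⟩, 0⟩, 0, 0⟩ 0 0)) (.cut .d 8224 (.pos 24 .pp ⟨⟨0, 0, 0, 0, 0, 0, 55, 0, 0, ⟨0, 0⟩, 0⟩, 51120212908, 0⟩ 0 0) (.pos 24 .pp ⟨⟨0, 0, 0, 0, 0, 0, 62, 0, 0, ⟨0, 0⟩, 0⟩, 32506935025, 0⟩ 0 0))) (.pos 22 .pp ⟨⟨0, 0, 0, 0, 0, 0, 74, 0, 0, ⟨0, 0⟩, 0⟩, 16686897290, 0⟩ 0 0)) (.pos 22 .pp ⟨⟨0, 0, 0, 0, 0, 0, 0, 0, 0, ⟨0, 0⟩, 0⟩, 0, 43⟩ 0 0)) (.cut .v 50331648 (.cut .d 32898 (.cut .d 16449 (.pos 76 .pp ⟨⟨0, 0, 0, 0, 0, 0, 68, 0, 0, ⟨0, 0⟩, 0⟩, 74784532459, 0⟩ 0 0) (.pos 76 .pp ⟨⟨0, 0, 0, 0, 0, 0, 85, 0, 0, ⟨0, 0⟩, 0⟩, 47036338908, 0⟩ 0 0)) (.pos 76 .pp ⟨⟨0, 0, 0, 48695731057, 0, 0, 172, 0, 0,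 ⟨0, 0⟩, 0⟩, 0, 0⟩ 0 0)) (.pos 77 .pp ⟨⟨0, 0, 0, 881979304852952, 0, 0, 0, 0, 0, ⟨0, 0⟩, 0⟩, 795742295147048, 0⟩ 0 0))) (.void 84 ⟨⟨0, 0, 0, 53100, 0, 0, 0, 0, 0, ⟨0, 0⟩, 0⟩, 47656, 0⟩ 0 0)) (.void 93 ⟨⟨0, 0, 0, 0, 0, 0, 0, 0, 0, ⟨0, 0⟩, 0⟩, 100000, 0⟩ 0 0)) (.void 106 ⟨⟨0, 0, 0, 0, 0, 0, 0, 0, 0, ⟨0, 0⟩, 0⟩, 100000, 0⟩ 0 0)))),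
    by decide +kernel⟩

end Vale.Agent.P237.Petty.Cor.Grid.Tiny.N8
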